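import Mathlib

/-!
Definitions for P150: the SK Gibbs measure, heat-bath dynamics and its spectral gap.
-/

open MeasureTheory ProbabilityTheory

namespace Vale.Agent.P150

/-- Pairs `i < j` of sites. -/
abbrev Pair (n : ℕ) : Type := {p : Fin n × Fin n // p.1 < p.2}

/-- Configurations. -/
abbrev Conf (n : ℕ) : Type := Fin n → Bool

/-- The spin value `±1`. -/
def spin (b : Bool) : ℝ := if b then 1 else -1

/-- The law of the disorder: independent standard Gaussians. -/
noncomputable def disorder (n : ℕ) : Measure (Pair n → ℝ) :=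
  Measure.pi fun _ => gaussianReal 0 1

/-- `(β / √n) ∑_{i<j} g_ij x_i x_j`. -/
noncomputable def energy (n : ℕ) (β : ℝ) (g : Pair n → ℝ) (x : Conf n) : ℝ :=
  β / Real.sqrt n * ∑ p : Pair n, g p * (spin (x p.1.1) * spin (x p.1.2))

/-- The Gibbs measure. -/
noncomputable def mu (n : ℕ) (β : ℝ) (g : Pair n → ℝ) (x : Conf n) : ℝ :=
  Real.exp (energy n β g x) / ∑ y, Real.exp (energy n β g y)

/-- Flip of site `i`. -/
def flipAt {n : ℕ} (x : Conf n) (i : Fin n) : Conf n := Function.update x i (!x i)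

/-- Heat-bath probability that a resampling at `i` flips the spin. -/
noncomputable def rate (n : ℕ) (β : ℝ) (g : Pair n → ℝ) (x : Conf n) (i : Fin n) : ℝ :=
  mu n β g (flipAt x i) / (mu n β g x + mu n β g (flipAt x i))

/-- The heat-bath generator `∑ i, (Q_i - I)`. -/
noncomputable def generator (n : ℕ) (β : ℝ) (g : Pair n → ℝ) (f : Conf n → ℝ) (x : Conf n) : ℝ :=
  ∑ i, rate n β g x i * (f (flipAt x i) - f x)

/-- The Dirichlet form `⟨f, -L f⟩`. -/
noncomputable def dirichlet (n : ℕ) (β : ℝ) (g : Pair n → ℝ) (f : Conf n → ℝ) : ℝ :=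
  -∑ x, mu n β g x * f x * generator n β g f x

/-- The variance of `f` under the Gibbs measure. -/
noncomputable def gibbsVar (n : ℕ) (β : ℝ) (g : Pair n → ℝ) (f : Conf n → ℝ) : ℝ :=
  ∑ x, mu n β g x * f x ^ 2 - (∑ x, mu n β g x * f x) ^ 2

/-- The spectral gap: the infimum of `⟨f, -L f⟩ / Var f` over nonconstant `f`. -/
noncomputable def gap (n : ℕ) (β : ℝ) (g : Pair n → ℝ) : ℝ :=
  sInf {r | ∃ f : Conf n → ℝ, 0 < gibbsVar n β g f ∧ r = dirichlet n β g f / gibbsVar n β g f}

theorem generator_add (n : ℕ) (β : ℝ) (g : Pair n → ℝ) (f f' : Conf n → ℝ) :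
    generator n β g (f + f') = generator n β g f + generator n β g f' := by
  funext x
  simp only [generator, Pi.add_apply, ← Finset.sum_add_distrib]
  exact Finset.sum_congr rfl fun i _ => by ring

theorem generator_smul (n : ℕ) (β : ℝ) (g : Pair n → ℝ) (a : ℝ) (f : Conf n → ℝ) :
    generator n β g (a • f) = a • generator n β g f := by
  funext x
  simp only [generator, Pi.smul_apply, smul_eq_mul, Finset.mul_sum]
  exact Finset.sum_congr rfl fun i _ => by ring

/-- The generator as a bounded operator. -/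
noncomputable def genOp (n : ℕ) (β : ℝ) (g : Pair n → ℝ) : (Conf n → ℝ) →L[ℝ] (Conf n → ℝ) :=
  LinearMap.toContinuousLinearMap
    { toFun := generator n β g
      map_add' := generator_add n β g
      map_smul' := generator_smul n β g }

/-- The continuous-time semigroup `exp (t L)`. -/
noncomputable def semigroup (n : ℕ) (β : ℝ) (g : Pair n → ℝ) (t : ℝ) :
    (Conf n → ℝ) →L[ℝ] (Conf n → ℝ) :=
  NormedSpace.exp (t • genOp n β g)

/-- The transition kernel `P_t(x, y)`. -/
noncomputable def kernel (n : ℕ) (β : ℝ) (g : Pair n → ℝ) (t : ℝ) (x y : Conf n) : ℝ :=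
  semigroup n β g t (Pi.single y 1) x

/-- Worst-start total variation distance at time `t` is at most `1/4`. -/
def MixedBy (n : ℕ) (β : ℝ) (g : Pair n → ℝ) (t : ℝ) : Prop :=
  ∀ x, (∑ y, |kernel n β g t x y - mu n β g y|) / 2 ≤ 1 / 4

end Vale.Agent.P150
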