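import Mathlib
import Vale.Agent.P166.Tame

/-!
Gaussian tools for P150: comparison of log-sum-exp of two Gaussian families, moments.
-/

open MeasureTheory ProbabilityTheory Filter Topology Set

namespace Vale.Agent.P150

/-- Standard Gaussian measure on `ι → ℝ`. -/
noncomputable def gp (ι : Type*) [Fintype ι] : Measure (ι → ℝ) :=
  Measure.pi fun _ => gaussianReal 0 1

instance gp_prob (ι : Type*) [Fintype ι] : IsProbabilityMeasure (gp ι) := by unfold gp; infer_instance

variable {ι κ S : Type*} [Fintype ι] [Fintype κ] [Fintype S]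

/-- Linear form. -/
def lin (v : ι → ℝ) (g : ι → ℝ) : ℝ := ∑ i, g i * v i

/-- Log-sum-exp of linear forms. -/
noncomputable def lse (v : S → ι → ℝ) (g : ι → ℝ) : ℝ := Real.log (∑ s, Real.exp (lin (v s) g))

/-- Its mean. -/
noncomputable def EL (v : S → ι → ℝ) : ℝ := ∫ g, lse v g ∂gp ι

/-- Softmax weights. -/
noncomputable def soft (v : S → ι → ℝ) (g : ι → ℝ) (a : S) : ℝ :=
  Real.exp (lin (v a) g) / ∑ s, Real.exp (lin (v s) g)

theorem integrable_coord (i : ι) : Integrable (fun g : ι → ℝ => g i) (gp ι) := by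
  classical
  have h : MeasurePreserving (fun g : ι → ℝ => g i) (gp ι) (gaussianReal 0 1) :=
    measurePreserving_eval _ i
  exact (h.integrable_comp (by fun_prop)).2
    ((memLp_id_gaussianReal 1).integrable le_rfl)

theorem integrable_abs_coord_sum : Integrable (fun g : ι → ℝ => ∑ i, |g i|) (gp ι) :=
  integrable_finsetSum _ fun i _ => (integrable_coord i).norm.congr (ae_of_all _ fun g => rfl)

@[fun_prop]
theorem continuous_lin (v : ι → ℝ) : Continuous (lin v) := by unfold lin; fun_prop

theorem abs_lin_le (v g : ι → ℝ) : |lin v g| ≤ (∑ i, |v i|) * ∑ i, |g i| := by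
  refine (Finset.abs_sum_le_sum_abs _ _).trans ?_
  rw [Finset.mul_sum]
  exact Finset.sum_le_sum fun i _ => by
    rw [abs_mul, mul_comm]
    exact mul_le_mul_of_nonneg_right
      (Finset.single_le_sum (f := fun j => |v j|) (fun j _ => abs_nonneg _) (Finset.mem_univ i))
      (abs_nonneg _)

variable [Nonempty S]

theorem lse_den_pos (v : S → ι → ℝ) (g : ι → ℝ) : 0 < ∑ s, Real.exp (lin (v s) g) :=
  Finset.sum_pos (fun _ _ => Real.exp_pos _) Finset.univ_nonempty

@[fun_prop]
theorem continuous_lse (v : S → ι → ℝ) : Continuous (lse v) :=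
  Continuous.log (by fun_prop) fun g => (lse_den_pos v g).ne'

theorem abs_lse_le (v : S → ι → ℝ) (g : ι → ℝ) :
    |lse v g| ≤ Real.log (Fintype.card S) + ∑ s, |lin (v s) g| := by
  obtain ⟨a⟩ := ‹Nonempty S›
  have hcard : (1 : ℝ) ≤ Fintype.card S := by exact_mod_cast Fintype.card_pos
  have hl : ∀ s, |lin (v s) g| ≤ ∑ t, |lin (v t) g| := fun s =>
    Finset.single_le_sum (f := fun t => |lin (v t) g|) (fun t _ => abs_nonneg _) (Finset.mem_univ s)
  rw [abs_le]
  constructor
  · have : lin (v a) g ≤ lse v g := by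
      unfold lse
      rw [← Real.log_exp (lin (v a) g)]
      refine Real.log_le_log (Real.exp_pos _) ?_
      exact Finset.single_le_sum (f := fun s => Real.exp (lin (v s) g))
        (fun s _ => (Real.exp_pos _).le) (Finset.mem_univ a)
    nlinarith [hl a, abs_le.1 (le_refl |lin (v a) g|), Real.log_nonneg hcard]
  · have h := Real.log_le_log (lse_den_pos v g)
      ((Finset.sum_le_sum fun s _ => Real.exp_le_exp.2 ((le_abs_self _).trans (hl s))).trans_eq
        (by rw [Finset.sum_const, Finset.card_univ, nsmul_eq_mul]))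
    rwa [Real.log_mul (by positivity) (Real.exp_pos _).ne', Real.log_exp] at h

theorem integrable_lse (v : S → ι → ℝ) : Integrable (lse v) (gp ι) := by
  refine Integrable.mono' (g := fun g => Real.log (Fintype.card S)
      + (∑ s, ∑ i, |v s i|) * ∑ i, |g i|)
    ((integrable_const _).add (integrable_abs_coord_sum.const_mul _))
    (continuous_lse v).aestronglyMeasurable (ae_of_all _ fun g => ?_)
  rw [Real.norm_eq_abs, Finset.sum_mul]
  exact (abs_lse_le v g).trans (add_le_add le_rfl (Finset.sum_le_sum fun s _ => abs_lin_le _ _))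

theorem soft_nonneg (v : S → ι → ℝ) (g : ι → ℝ) (a : S) : 0 ≤ soft v g a :=
  div_nonneg (Real.exp_pos _).le (lse_den_pos v g).le

theorem soft_sum (v : S → ι → ℝ) (g : ι → ℝ) : ∑ a, soft v g a = 1 := by
  simp only [soft, ← Finset.sum_div]; exact div_self (lse_den_pos v g).ne'

theorem soft_le_one (v : S → ι → ℝ) (g : ι → ℝ) (a : S) : soft v g a ≤ 1 :=
  (Finset.single_le_sum (fun s _ => soft_nonneg v g s) (Finset.mem_univ a)).trans_eq (soft_sum v g)

@[fun_prop]
theorem continuous_soft (v : S → ι → ℝ) (a : S) : Continuous fun g => soft v g a :=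
  Continuous.div (by fun_prop) (by fun_prop) fun g => (lse_den_pos v g).ne'

omit [Nonempty S] [Fintype S] in
theorem lin_update [DecidableEq ι] (w g : ι → ℝ) (i : ι) (x : ℝ) :
    lin w (Function.update g i x) = x * w i + ∑ j ∈ Finset.univ.erase i, g j * w j := by
  rw [lin, ← Finset.add_sum_erase _ _ (Finset.mem_univ i), Function.update_self]
  congr 1
  exact Finset.sum_congr rfl fun j hj => by rw [Function.update_of_ne (Finset.ne_of_mem_erase hj)]

theorem ibp_gen [DecidableEq ι] {F F' : (ι → ℝ) → ℝ} (i : ι) (hF : Integrable F (gp ι))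
    (hF' : Integrable F' (gp ι)) (hgF : Integrable (fun g => g i * F g) (gp ι))
    (hd : ∀ g, HasDerivAt (fun x => F (Function.update g i x)) (F' g) (g i)) :
    ∫ g, g i * F g ∂gp ι = ∫ g, F' g ∂gp ι := by
  let e := (Fintype.equivFin ι).symm
  let E := MeasurableEquiv.piCongrLeft (fun _ : ι => ℝ) e
  have mp : MeasurePreserving E (P166.gs (Fintype.card ι)) (gp ι) :=
    measurePreserving_piCongrLeft (fun _ : ι => gaussianReal 0 1) e
  have he : ∀ y j, E y j = y (e.symm j) := fun y j => by
    obtain ⟨j', rfl⟩ := e.surjective j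
    simp [E, MeasurableEquiv.coe_piCongrLeft]
  have hi : ∀ f : (ι → ℝ) → ℝ, Integrable f (gp ι) → Integrable (f ∘ E) (P166.gs (Fintype.card ι)) :=
    fun f hf => (mp.integrable_comp_emb E.measurableEmbedding).2 hf
  rw [← mp.integral_comp', ← mp.integral_comp']
  have := P166.ibp (F := F ∘ E) (F' := F' ∘ E) (e.symm i) (hi F hF) (hi F' hF')
    ((hi _ hgF).congr (ae_of_all _ fun y => by simp [he])) (fun y => ?_)
  · simpa [he] using this
  · have hu : ∀ x, E (Function.update y (e.symm i) x) = Function.update (E y) i x := fun x => by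
      funext j
      rw [he]
      rcases eq_or_ne j i with rfl | hj
      · simp
      · rw [Function.update_of_ne hj, Function.update_of_ne (e.symm.injective.ne hj), he]
    simpa [hu, he] using hd (E y)

theorem hasDeriv_soft_update [DecidableEq ι] (v : S → ι → ℝ) (g : ι → ℝ) (i : ι) (a : S) :
    HasDerivAt (fun x => soft v (Function.update g i x) a)
      (soft v g a * (v a i - ∑ s, soft v g s * v s i)) (g i) := by
  have hl : ∀ s, HasDerivAt (fun x => Real.exp (lin (v s) (Function.update g i x)))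
      (Real.exp (lin (v s) g) * v s i) (g i) := fun s => by
    have h : HasDerivAt (fun x => lin (v s) (Function.update g i x)) (v s i) (g i) := by
      simp only [lin_update]
      simpa using ((hasDerivAt_id (g i)).mul_const (v s i)).add_const
        (∑ j ∈ Finset.univ.erase i, g j * v s j)
    simpa [Function.update_eq_self] using h.exp
  have := (hl a).div (HasDerivAt.fun_sum (u := Finset.univ) fun s _ => hl s)
    (by simpa using (lse_den_pos v g).ne')
  refine this.congr_deriv ?_
  simp only [soft, Function.update_eq_self]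
  have hz := (lse_den_pos v g).ne'
  rw [show ∑ s, Real.exp (lin (v s) g) / (∑ s, Real.exp (lin (v s) g)) * v s i
      = (∑ s, Real.exp (lin (v s) g) * v s i) / (∑ s, Real.exp (lin (v s) g)) by
    rw [Finset.sum_div]; exact Finset.sum_congr rfl fun s _ => by ring]
  field_simp

/-- Two families on disjoint coordinates. -/
noncomputable def mix (v : S → ι → ℝ) (w : S → κ → ℝ) (θ : ℝ) (s : S) : ι ⊕ κ → ℝ :=
  Sum.elim (fun i => Real.sin θ * v s i) (fun j => Real.cos θ * w s j)

/-- Its derivative. -/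
noncomputable def dmix (v : S → ι → ℝ) (w : S → κ → ℝ) (θ : ℝ) (s : S) : ι ⊕ κ → ℝ :=
  Sum.elim (fun i => Real.cos θ * v s i) (fun j => -Real.sin θ * w s j)

theorem mp_fst : MeasurePreserving (fun g : ι ⊕ κ → ℝ => fun i => g (Sum.inl i))
    (gp (ι ⊕ κ)) (gp ι) := by
  have h := measurePreserving_sumPiEquivProdPi (fun _ : ι ⊕ κ => gaussianReal 0 1)
  exact measurePreserving_fst.comp h

theorem mp_snd : MeasurePreserving (fun g : ι ⊕ κ → ℝ => fun i => g (Sum.inr i))
    (gp (ι ⊕ κ)) (gp κ) := by
  have h := measurePreserving_sumPiEquivProdPi (fun _ : ι ⊕ κ => gaussianReal 0 1)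
  exact measurePreserving_snd.comp h

theorem deriv_EL_mix (v : S → ι → ℝ) (w : S → κ → ℝ) (θ : ℝ) :
    HasDerivAt (fun r => EL (mix v w r))
      (∫ g, Real.sin θ * Real.cos θ * ((∑ a, soft (mix v w θ) g a
          * (∑ i, v a i * v a i - ∑ j, w a j * w a j))
        - ∑ a, ∑ c, soft (mix v w θ) g a * soft (mix v w θ) g c
          * (∑ i, v a i * v c i - ∑ j, w a j * w c j)) ∂gp (ι ⊕ κ)) θ := by
  classical
  set B : ℝ := ∑ s, (∑ i, |v s i| + ∑ j, |w s j|) with hB
  have hd : ∀ r g, HasDerivAt (fun r => lse (mix v w r) g)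
      (∑ a, soft (mix v w r) g a * lin (dmix v w r a) g) r := fun r g => by
    have hl : ∀ s, HasDerivAt (fun r => lin (mix v w r s) g) (lin (dmix v w r s) g) r := fun s => by
      refine HasDerivAt.fun_sum fun i _ => ?_
      rcases i with i | j
      · exact ((Real.hasDerivAt_sin r).mul_const (v s i)).const_mul _
      · exact (((Real.hasDerivAt_cos r).mul_const (w s j)).const_mul _).congr_deriv (by simp [dmix])
    refine ((HasDerivAt.fun_sum (u := Finset.univ) fun s _ => (hl s).exp).log
      (lse_den_pos _ g).ne').congr_deriv ?_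
    rw [Finset.sum_div]
    exact Finset.sum_congr rfl fun s _ => by rw [soft]; ring
  have hb : ∀ r g, |∑ a, soft (mix v w r) g a * lin (dmix v w r a) g| ≤ B * ∑ i, |g i| := fun r g => by
    refine (Finset.abs_sum_le_sum_abs _ _).trans ?_
    rw [hB, Finset.sum_mul]
    refine Finset.sum_le_sum fun a _ => ?_
    rw [abs_mul, abs_of_nonneg (soft_nonneg _ _ _)]
    refine (mul_le_of_le_one_left (abs_nonneg _) (soft_le_one _ _ _)).trans ((abs_lin_le _ _).trans ?_)
    refine mul_le_mul_of_nonneg_right ?_ (Finset.sum_nonneg fun i _ => abs_nonneg _)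
    rw [Fintype.sum_sum_type]
    refine add_le_add (Finset.sum_le_sum fun i _ => ?_) (Finset.sum_le_sum fun j _ => ?_)
    · simp only [dmix, Sum.elim_inl, abs_mul]
      exact mul_le_of_le_one_left (abs_nonneg _) (Real.abs_cos_le_one r)
    · simp only [dmix, Sum.elim_inr, abs_mul, abs_neg]
      exact mul_le_of_le_one_left (abs_nonneg _) (Real.abs_sin_le_one r)
  refine (hasDerivAt_integral_of_dominated_loc_of_deriv_le (F := fun r g => lse (mix v w r) g)
    (F' := fun r g => ∑ a, soft (mix v w r) g a * lin (dmix v w r a) g)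
    (bound := fun g => B * ∑ i, |g i|) univ_mem
    (Eventually.of_forall fun r => (continuous_lse _).aestronglyMeasurable)
    (integrable_lse _) (Continuous.aestronglyMeasurable (by fun_prop))
    (ae_of_all _ fun g r _ => by simpa [Real.norm_eq_abs] using hb r g)
    (integrable_abs_coord_sum.const_mul _)
    (ae_of_all _ fun g r _ => hd r g)).2.congr_deriv ?_
  set u := mix v w θ
  set du := dmix v w θ
  have hbdd : ∀ f : (ι ⊕ κ → ℝ) → ℝ, Continuous f → (∃ C, ∀ g, |f g| ≤ C) →
      Integrable f (gp (ι ⊕ κ)) := fun f hf ⟨C, hC⟩ =>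
    Integrable.of_bound hf.aestronglyMeasurable C (ae_of_all _ hC)
  have hp : ∀ g a, |soft u g a| ≤ 1 := fun g a => by
    rw [abs_of_nonneg (soft_nonneg _ _ _)]; exact soft_le_one _ _ _
  have i1 : ∀ a i, Integrable (fun g => g i * soft u g a) (gp (ι ⊕ κ)) := fun a i =>
    (integrable_coord i).norm.mono' (Continuous.aestronglyMeasurable (by fun_prop))
      (ae_of_all _ fun g => by
        simpa [abs_mul] using mul_le_of_le_one_right (abs_nonneg (g i)) (hp g a))
  have i2 : ∀ a i, Integrable (fun g => soft u g a * (u a i - ∑ s, soft u g s * u s i))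
      (gp (ι ⊕ κ)) := fun a i => hbdd _ (by fun_prop) ⟨1 * (|u a i| + ∑ s, |u s i|), fun g => by
    rw [abs_mul]
    refine mul_le_mul (hp g a) ((abs_sub _ _).trans (add_le_add le_rfl ?_)) (abs_nonneg _) zero_le_one
    refine (Finset.abs_sum_le_sum_abs _ _).trans (Finset.sum_le_sum fun s _ => ?_)
    rw [abs_mul]; exact mul_le_of_le_one_left (abs_nonneg _) (hp g s)⟩
  have e1 : ∫ g, ∑ a, soft u g a * lin (du a) g ∂gp (ι ⊕ κ)
      = ∫ g, ∑ a, ∑ i, du a i * (soft u g a * (u a i - ∑ s, soft u g s * u s i)) ∂gp (ι ⊕ κ) := by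
    have : ∀ g : ι ⊕ κ → ℝ, ∑ a, soft u g a * lin (du a) g = ∑ a, ∑ i, du a i * (g i * soft u g a) :=
      fun g => Finset.sum_congr rfl fun a _ => by
        rw [lin, Finset.mul_sum]; exact Finset.sum_congr rfl fun i _ => by ring
    simp only [this]
    rw [integral_finsetSum _ fun a _ => integrable_finsetSum _ fun i _ => (i1 a i).const_mul _,
      integral_finsetSum _ fun a _ => integrable_finsetSum _ fun i _ => (i2 a i).const_mul _]
    refine Finset.sum_congr rfl fun a _ => ?_
    rw [integral_finsetSum _ fun i _ => (i1 a i).const_mul _,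
      integral_finsetSum _ fun i _ => (i2 a i).const_mul _]
    refine Finset.sum_congr rfl fun i _ => ?_
    rw [integral_const_mul, integral_const_mul,
      ibp_gen i (hbdd _ (by fun_prop) ⟨1, fun g => hp g a⟩) (i2 a i) (i1 a i)
        fun g => hasDeriv_soft_update u g i a]
  rw [e1]
  refine integral_congr_ae (ae_of_all _ fun g => ?_)
  have key : ∀ a c, ∑ i, du a i * u c i
      = Real.sin θ * Real.cos θ * (∑ i, v a i * v c i - ∑ j, w a j * w c j) := fun a c => by
    have h1 : ∑ i, du a (Sum.inl i) * u c (Sum.inl i)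
        = Real.sin θ * Real.cos θ * ∑ i, v a i * v c i := by
      rw [Finset.mul_sum]
      exact Finset.sum_congr rfl fun i _ => by simp only [u, du, mix, dmix, Sum.elim_inl]; ring
    have h2 : ∑ j, du a (Sum.inr j) * u c (Sum.inr j)
        = -(Real.sin θ * Real.cos θ * ∑ j, w a j * w c j) := by
      rw [Finset.mul_sum, ← Finset.sum_neg_distrib]
      exact Finset.sum_congr rfl fun i _ => by simp only [u, du, mix, dmix, Sum.elim_inr]; ring
    rw [Fintype.sum_sum_type, h1, h2]; ring
  have e2 : ∀ a, ∑ i, du a i * (soft u g a * (u a i - ∑ s, soft u g s * u s i))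
      = soft u g a * ((∑ i, du a i * u a i) - ∑ s, soft u g s * ∑ i, du a i * u s i) := fun a => by
    have h3 : ∑ s, soft u g s * ∑ i, du a i * u s i = ∑ i, du a i * ∑ s, soft u g s * u s i := by
      simp only [Finset.mul_sum]
      rw [Finset.sum_comm]
      exact Finset.sum_congr rfl fun i _ => Finset.sum_congr rfl fun s _ => by ring
    rw [h3, ← Finset.sum_sub_distrib, Finset.mul_sum]
    exact Finset.sum_congr rfl fun i _ => by ring
  show ∑ a, ∑ i, du a i * (soft u g a * (u a i - ∑ s, soft u g s * u s i)) = _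
  rw [Finset.sum_congr rfl fun a _ => e2 a]
  simp only [key]
  rw [mul_sub, Finset.mul_sum, Finset.mul_sum, ← Finset.sum_sub_distrib]
  refine Finset.sum_congr rfl fun a _ => ?_
  rw [mul_sub, Finset.mul_sum, Finset.mul_sum]
  congr 1
  · ring
  · exact Finset.sum_congr rfl fun c _ => by ring

/-- Comparison of two Gaussian families. -/
theorem compare (v : S → ι → ℝ) (w : S → κ → ℝ) (D m : ℝ)
    (hD : ∀ a, ∑ i, v a i * v a i - ∑ j, w a j * w a j ≤ D)
    (hm : ∀ a c, m ≤ ∑ i, v a i * v c i - ∑ j, w a j * w c j) :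
    EL v - EL w ≤ (D - m) / 2 := by
  set ψ : ℝ → ℝ := fun θ => EL (mix v w θ) - (D - m) / 2 * Real.sin θ ^ 2 with hψ
  have hder : ∀ θ, HasDerivAt ψ ((∫ g, Real.sin θ * Real.cos θ * ((∑ a, soft (mix v w θ) g a
          * (∑ i, v a i * v a i - ∑ j, w a j * w a j))
        - ∑ a, ∑ c, soft (mix v w θ) g a * soft (mix v w θ) g c
          * (∑ i, v a i * v c i - ∑ j, w a j * w c j)) ∂gp (ι ⊕ κ))
        - (D - m) * (Real.sin θ * Real.cos θ)) θ := fun θ =>
    (deriv_EL_mix v w θ).sub
      ((((Real.hasDerivAt_sin θ).pow 2).const_mul ((D - m) / 2)).congr_deriv (by simp; ring))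
  have hle : ∀ θ ∈ Icc (0 : ℝ) (Real.pi / 2), deriv ψ θ ≤ 0 := fun θ hθ => by
    rw [(hder θ).deriv, sub_nonpos]
    have hsc : 0 ≤ Real.sin θ * Real.cos θ := mul_nonneg
      (Real.sin_nonneg_of_nonneg_of_le_pi hθ.1 (by linarith [hθ.2, Real.pi_pos]))
      (Real.cos_nonneg_of_mem_Icc ⟨by linarith [hθ.1, Real.pi_pos], hθ.2⟩)
    have hpt : ∀ g, Real.sin θ * Real.cos θ * ((∑ a, soft (mix v w θ) g a
          * (∑ i, v a i * v a i - ∑ j, w a j * w a j))
        - ∑ a, ∑ c, soft (mix v w θ) g a * soft (mix v w θ) g c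
          * (∑ i, v a i * v c i - ∑ j, w a j * w c j)) ≤ (D - m) * (Real.sin θ * Real.cos θ) :=
      fun g => by
      rw [mul_comm (D - m)]
      refine mul_le_mul_of_nonneg_left (sub_le_sub ?_ ?_) hsc
      · refine (Finset.sum_le_sum fun a _ => mul_le_mul_of_nonneg_left (hD a)
          (soft_nonneg _ _ a)).trans_eq ?_
        rw [← Finset.sum_mul, soft_sum, one_mul]
      · refine Eq.trans_le ?_ (Finset.sum_le_sum fun a _ => Finset.sum_le_sum fun c _ =>
          mul_le_mul_of_nonneg_left (hm a c) (mul_nonneg (soft_nonneg _ _ a) (soft_nonneg _ _ c)))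
        simp only [← Finset.sum_mul, ← Finset.mul_sum, soft_sum, mul_one, one_mul]
    refine (integral_mono ?_ (integrable_const _) hpt).trans_eq (by simp)
    refine Integrable.of_bound (Continuous.aestronglyMeasurable (by fun_prop))
      (|Real.sin θ * Real.cos θ| * ((∑ a, |∑ i, v a i * v a i - ∑ j, w a j * w a j|)
        + ∑ a, ∑ c, |∑ i, v a i * v c i - ∑ j, w a j * w c j|)) (ae_of_all _ fun g => ?_)
    rw [Real.norm_eq_abs, abs_mul]
    refine mul_le_mul_of_nonneg_left ((abs_sub _ _).trans (add_le_add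
      ((Finset.abs_sum_le_sum_abs _ _).trans (Finset.sum_le_sum fun a _ => ?_))
      ((Finset.abs_sum_le_sum_abs _ _).trans (Finset.sum_le_sum fun a _ =>
        (Finset.abs_sum_le_sum_abs _ _).trans (Finset.sum_le_sum fun c _ => ?_))))) (abs_nonneg _)
    · rw [abs_mul, abs_of_nonneg (soft_nonneg _ _ _)]
      exact mul_le_of_le_one_left (abs_nonneg _) (soft_le_one _ _ _)
    · rw [abs_mul, abs_of_nonneg (mul_nonneg (soft_nonneg _ _ _) (soft_nonneg _ _ _))]
      exact mul_le_of_le_one_left (abs_nonneg _)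
        (mul_le_one₀ (soft_le_one _ _ _) (soft_nonneg _ _ _) (soft_le_one _ _ _))
  have anti : AntitoneOn ψ (Icc (0 : ℝ) (Real.pi / 2)) :=
    antitoneOn_of_deriv_nonpos (convex_Icc _ _)
      (fun θ _ => (hder θ).continuousAt.continuousWithinAt)
      (fun θ _ => (hder θ).differentiableAt.differentiableWithinAt)
      (fun θ hθ => hle θ (interior_subset hθ))
  have h := anti (left_mem_Icc.2 (by positivity)) (right_mem_Icc.2 (by positivity)) (by positivity)
  have e0 : EL (mix v w 0) = EL w := by
    have hp := mp_snd (ι := ι) (κ := κ)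
    unfold EL
    conv_rhs => rw [← hp.map_eq, integral_map hp.measurable.aemeasurable
      (continuous_lse w).aestronglyMeasurable]
    congr 1; funext g
    simp [lse, lin, mix, Fintype.sum_sum_type]
  have e1 : EL (mix v w (Real.pi / 2)) = EL v := by
    have hp := mp_fst (ι := ι) (κ := κ)
    unfold EL
    conv_rhs => rw [← hp.map_eq, integral_map hp.measurable.aemeasurable
      (continuous_lse v).aestronglyMeasurable]
    congr 1; funext g
    simp [lse, lin, mix, Fintype.sum_sum_type]
  simp only [hψ, Real.sin_zero, Real.sin_pi_div_two, e0, e1] at h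
  linarith

omit [Fintype S] [Nonempty S] in
/-- Moment generating function of a linear form. -/
theorem mgf_lin (a : ι → ℝ) :
    Integrable (fun g => Real.exp (lin a g)) (gp ι) ∧
    ∫ g, Real.exp (lin a g) ∂gp ι = Real.exp ((∑ i, a i ^ 2) / 2) := by
  have he : ∀ g : ι → ℝ, Real.exp (lin a g) = ∏ i, Real.exp (a i * g i) := fun g => by
    rw [← Real.exp_sum, lin]; congr 1; exact Finset.sum_congr rfl fun i _ => mul_comm _ _
  simp only [he]
  refine ⟨Integrable.fintype_prod (f := fun i x => Real.exp (a i * x))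
    fun i => integrable_exp_mul_gaussianReal (a i), ?_⟩
  rw [gp, integral_fintype_prod_eq_prod (f := fun i (x : ℝ) => Real.exp (a i * x))]
  have hm : ∀ t : ℝ, ∫ x, Real.exp (t * x) ∂gaussianReal 0 1 = Real.exp (t ^ 2 / 2) := fun t => by
    have := congrFun (mgf_id_gaussianReal (μ := 0) (v := 1)) t
    simpa [mgf] using this
  simp only [hm]
  rw [← Real.exp_sum, Finset.sum_div]

omit [Fintype S] [Nonempty S] in
/-- Mean of a hyperbolic cosine of a linear form. -/
theorem cosh_lin (a : ι → ℝ) :
    Integrable (fun g => Real.cosh (lin a g)) (gp ι) ∧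
    ∫ g, Real.cosh (lin a g) ∂gp ι = Real.exp ((∑ i, a i ^ 2) / 2) := by
  have e : ∀ g, Real.cosh (lin a g) = (Real.exp (lin a g) + Real.exp (lin (-a) g)) / 2 := fun g => by
    rw [Real.cosh_eq]; simp [lin]
  simp only [e]
  obtain ⟨h1, e1⟩ := mgf_lin a
  obtain ⟨h2, e2⟩ := mgf_lin (-a)
  refine ⟨(h1.add h2).div_const 2, ?_⟩
  rw [integral_div, integral_add h1 h2, e1, e2]
  simp

omit [Fintype S] [Nonempty S] in
/-- Mean of a product of two hyperbolic cosines of linear forms. -/
theorem cosh_lin_two (a b : ι → ℝ) :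
    Integrable (fun g => Real.cosh (lin a g) * Real.cosh (lin b g)) (gp ι) ∧
    ∫ g, Real.cosh (lin a g) * Real.cosh (lin b g) ∂gp ι
      = Real.exp ((∑ i, a i ^ 2 + ∑ i, b i ^ 2) / 2) * Real.cosh (∑ i, a i * b i) := by
  have e : ∀ g, Real.cosh (lin a g) * Real.cosh (lin b g)
      = (Real.cosh (lin (a + b) g) + Real.cosh (lin (a - b) g)) / 2 := fun g => by
    have h1 : lin (a + b) g = lin a g + lin b g := by simp [lin, mul_add, Finset.sum_add_distrib]
    have h2 : lin (a - b) g = lin a g - lin b g := by simp [lin, mul_sub, Finset.sum_sub_distrib]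
    rw [h1, h2, Real.cosh_add, Real.cosh_sub]; ring
  simp only [e]
  obtain ⟨h1, e1⟩ := cosh_lin (a + b)
  obtain ⟨h2, e2⟩ := cosh_lin (a - b)
  refine ⟨(h1.add h2).div_const 2, ?_⟩
  rw [integral_div, integral_add h1 h2, e1, e2, Real.cosh_eq]
  simp only [Pi.add_apply, Pi.sub_apply, add_sq, sub_sq, Finset.sum_add_distrib, Finset.sum_sub_distrib,
    mul_assoc, ← Finset.mul_sum]
  rw [show ∀ A B C : ℝ, Real.exp ((A + B) / 2) * ((Real.exp C + Real.exp (-C)) / 2)
      = (Real.exp ((A + B) / 2 + C) + Real.exp ((A + B) / 2 + -C)) / 2 from fun A B C => by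
    rw [Real.exp_add, Real.exp_add]; ring]
  ring_nf

end Vale.Agent.P150
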