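import Mathlib
import Vale.Agent.P150.Gauss
import Vale.Agent.P150.Defs

/-!
Finite-volume facts for P150: covariance of the energy, the linear test function.
-/

open MeasureTheory ProbabilityTheory

namespace Vale.Agent.P150

variable {n : ℕ} {β : ℝ}

theorem spin_sq (b : Bool) : spin b * spin b = 1 := by cases b <;> simp [spin]

theorem spin_not (b : Bool) : spin (!b) = -spin b := by cases b <;> simp [spin]

theorem abs_spin (b : Bool) : |spin b| = 1 := by cases b <;> simp [spin]

/-- Overlap. -/
def ov (x y : Conf n) : ℝ := ∑ i, spin (x i) * spin (y i)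

theorem ov_self (x : Conf n) : ov x x = n := by simp [ov, spin_sq]

/-- Weight vectors of the energy. -/
noncomputable def hv (n : ℕ) (c : ℝ) (x : Conf n) (p : Pair n) : ℝ :=
  c * (spin (x p.1.1) * spin (x p.1.2))

theorem sum_pair (n : ℕ) (a : Fin n → ℝ) :
    ∑ p : Pair n, a p.1.1 * a p.1.2 = ((∑ i, a i) ^ 2 - ∑ i, a i ^ 2) / 2 := by
  classical
  rw [← Finset.sum_subtype (Finset.univ.filter fun p : Fin n × Fin n => p.1 < p.2) (by simp)
    (fun p : Fin n × Fin n => a p.1 * a p.2), Finset.sum_filter]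
  rw [pow_two (∑ i, a i), Fintype.sum_prod_type, Finset.sum_mul_sum]
  have h : ∀ i j, a i * a j = (if i < j then a i * a j else 0) + (if j < i then a j * a i else 0)
      + if i = j then a i ^ 2 else 0 := fun i j => by
    rcases lt_trichotomy i j with h | h | h
    · simp [h, h.ne, h.not_gt]
    · subst h; simp [pow_two]
    · simp [h, h.ne', h.not_gt, mul_comm]
  have e : ∑ i, ∑ j, a i * a j = ∑ i, ∑ j, ((if i < j then a i * a j else 0)
      + (if j < i then a j * a i else 0) + if i = j then a i ^ 2 else 0) :=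
    Finset.sum_congr rfl fun i _ => Finset.sum_congr rfl fun j _ => h i j
  simp only [Finset.sum_add_distrib] at e
  rw [Finset.sum_comm (f := fun i j => if j < i then a j * a i else 0)] at e
  simp only [Finset.sum_ite_eq, Finset.mem_univ, if_true] at e
  linarith

theorem cov_hv (c : ℝ) (x y : Conf n) :
    ∑ p, hv n c x p * hv n c y p = c ^ 2 * ((ov x y ^ 2 - n) / 2) := by
  have h := sum_pair n fun i => spin (x i) * spin (y i)
  have e : ∑ i, (spin (x i) * spin (y i)) ^ 2 = (n : ℝ) := by
    simp only [mul_pow]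
    simp [pow_two, spin_sq]
  rw [e] at h
  rw [show ov x y = ∑ i, spin (x i) * spin (y i) from rfl, ← h, Finset.mul_sum]
  exact Finset.sum_congr rfl fun p _ => by simp only [hv]; ring

theorem energy_eq (n : ℕ) (β : ℝ) (g : Pair n → ℝ) (x : Conf n) :
    energy n β g x = lin (hv n (β / Real.sqrt n) x) g := by
  rw [energy, lin, Finset.mul_sum]
  exact Finset.sum_congr rfl fun p _ => by rw [hv]; ring

theorem mu_eq (n : ℕ) (β : ℝ) (g : Pair n → ℝ) (x : Conf n) :
    mu n β g x = soft (hv n (β / Real.sqrt n)) g x := by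
  simp only [mu, soft, energy_eq]

theorem mu_pos (g : Pair n → ℝ) (x : Conf n) : 0 < mu n β g x :=
  div_pos (Real.exp_pos _) (Finset.sum_pos (fun _ _ => Real.exp_pos _) Finset.univ_nonempty)

theorem mu_sum (g : Pair n → ℝ) : ∑ x, mu n β g x = 1 := by simp only [mu_eq]; exact soft_sum _ g

@[fun_prop]
theorem continuous_mu (x : Conf n) : Continuous fun g => mu n β g x := by
  simp only [mu_eq]; exact continuous_soft _ _

/-- Normalised mean squared overlap of two replicas. -/
noncomputable def Qsq (n : ℕ) (β : ℝ) (g : Pair n → ℝ) : ℝ :=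
  ∑ x, ∑ y, mu n β g x * mu n β g y * (ov x y / n) ^ 2

theorem Qsq_nonneg (g : Pair n → ℝ) : 0 ≤ Qsq n β g :=
  Finset.sum_nonneg fun x _ => Finset.sum_nonneg fun y _ =>
    mul_nonneg (mul_nonneg (mu_pos g x).le (mu_pos g y).le) (sq_nonneg _)

theorem abs_ov_le (x y : Conf n) : |ov x y| ≤ n := by
  refine (Finset.abs_sum_le_sum_abs _ _).trans ?_
  simp [abs_mul, abs_spin]

theorem Qsq_le_one (g : Pair n → ℝ) : Qsq n β g ≤ 1 := by
  have h : ∀ x y : Conf n, (ov x y / n) ^ 2 ≤ 1 := fun x y => by
    rw [sq_le_one_iff_abs_le_one, abs_div, Nat.abs_cast]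
    exact div_le_one_of_le₀ (abs_ov_le x y) (Nat.cast_nonneg n)
  refine (Finset.sum_le_sum fun x _ => Finset.sum_le_sum fun y _ =>
    mul_le_of_le_one_right (mul_nonneg (mu_pos g x).le (mu_pos g y).le) (h x y)).trans_eq ?_
  simp only [← Finset.mul_sum, mu_sum, mul_one]

@[fun_prop]
theorem continuous_Qsq : Continuous (Qsq n β) := by unfold Qsq; fun_prop

/-- Global spin flip. -/
def negConf (x : Conf n) : Conf n := fun i => !x i

theorem mu_neg (g : Pair n → ℝ) (x : Conf n) : mu n β g (negConf x) = mu n β g x := by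
  simp [mu, energy, negConf, spin_not]

theorem mean_zero (g : Pair n → ℝ) (f : Conf n → ℝ) (hf : ∀ x, f (negConf x) = -f x) :
    ∑ x, mu n β g x * f x = 0 := by
  have hb : Function.Involutive (negConf (n := n)) := fun x => by funext i; simp [negConf]
  have h := Equiv.sum_comp hb.toPerm fun x => mu n β g x * f x
  simp only [Function.Involutive.coe_toPerm, mu_neg, hf, mul_neg, Finset.sum_neg_distrib] at h
  linarith

theorem flip_involutive (i : Fin n) : Function.Involutive fun x : Conf n => flipAt x i := fun x => by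
  simp [flipAt]

theorem site_dirichlet (g : Pair n → ℝ) (f : Conf n → ℝ) (i : Fin n) :
    -∑ x, mu n β g x * f x * (rate n β g x i * (f (flipAt x i) - f x))
      = (∑ x, mu n β g x * rate n β g x i * (f (flipAt x i) - f x) ^ 2) / 2 := by
  have key : ∀ x, mu n β g (flipAt x i) * rate n β g (flipAt x i) i
      = mu n β g x * rate n β g x i := fun x => by
    have hxx : flipAt (flipAt x i) i = x := flip_involutive i x
    simp only [rate, hxx]
    rw [add_comm (mu n β g (flipAt x i))]
    ring
  have hs := Equiv.sum_comp (flip_involutive (n := n) i).toPerm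
    fun x => mu n β g x * f x * (rate n β g x i * (f (flipAt x i) - f x))
  simp only [Function.Involutive.coe_toPerm] at hs
  have e : ∀ x, mu n β g (flipAt x i) * f (flipAt x i) * (rate n β g (flipAt x i) i
      * (f (flipAt (flipAt x i) i) - f (flipAt x i)))
      = mu n β g x * rate n β g x i * (f (flipAt x i) * (f x - f (flipAt x i))) := fun x => by
    rw [show flipAt (flipAt x i) i = x from flip_involutive i x]
    linear_combination (f (flipAt x i) * (f x - f (flipAt x i))) * key x
  simp only [e] at hs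
  have : ∑ x, mu n β g x * rate n β g x i * (f (flipAt x i) - f x) ^ 2
      = -(∑ x, mu n β g x * rate n β g x i * (f (flipAt x i) * (f x - f (flipAt x i))))
        - ∑ x, mu n β g x * f x * (rate n β g x i * (f (flipAt x i) - f x)) := by
    rw [← Finset.sum_neg_distrib, ← Finset.sum_sub_distrib]
    exact Finset.sum_congr rfl fun x _ => by ring
  linarith

theorem rate_mem (g : Pair n → ℝ) (x : Conf n) (i : Fin n) : rate n β g x i ∈ Set.Icc (0 : ℝ) 1 :=
  ⟨div_nonneg (mu_pos g _).le (add_pos (mu_pos g _) (mu_pos g _)).le,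
    (div_le_one (add_pos (mu_pos g _) (mu_pos g _))).2 (le_add_of_nonneg_left (mu_pos g _).le)⟩

theorem dirichlet_eq (g : Pair n → ℝ) (f : Conf n → ℝ) :
    dirichlet n β g f
      = ∑ i, (∑ x, mu n β g x * rate n β g x i * (f (flipAt x i) - f x) ^ 2) / 2 := by
  simp only [← site_dirichlet, Finset.sum_neg_distrib, dirichlet, generator, Finset.mul_sum]
  rw [Finset.sum_comm]

theorem dirichlet_nonneg (g : Pair n → ℝ) (f : Conf n → ℝ) : 0 ≤ dirichlet n β g f := by
  rw [dirichlet_eq]
  exact Finset.sum_nonneg fun i _ => div_nonneg (Finset.sum_nonneg fun x _ =>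
    mul_nonneg (mul_nonneg (mu_pos g x).le (rate_mem g x i).1) (sq_nonneg _)) zero_le_two

theorem dirichlet_ov (g : Pair n → ℝ) (v : Conf n) :
    dirichlet n β g (fun x => ov v x) ≤ n := by
  have hd : ∀ x i, (ov v (flipAt x i) - ov v x) ^ 2 = 4 := fun x i => by
    have : ov v (flipAt x i) - ov v x = -2 * (spin (v i) * spin (x i)) := by
      rw [ov, ov, ← Finset.sum_sub_distrib, Finset.sum_eq_single i]
      · rw [flipAt, Function.update_self, spin_not]; ring
      · intro j _ hj; rw [flipAt, Function.update_of_ne hj, sub_self]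
      · simp
    rw [this, pow_two]
    linear_combination 4 * (spin (x i) * spin (x i)) * spin_sq (v i) + 4 * spin_sq (x i)
  rw [dirichlet_eq]
  simp only [hd]
  refine (Finset.sum_le_sum (g := fun _ => (1 : ℝ)) fun i _ => ?_).trans_eq (by simp)
  set a := fun x => mu n β g x
  have hh : ∀ x, a x * rate n β g x i * 4 ≤ a x + a (flipAt x i) := fun x => by
    have h1 := mu_pos (β := β) g x
    have h2 := mu_pos (β := β) g (flipAt x i)
    simp only [a, rate]
    rw [mul_div_assoc', div_mul_eq_mul_div, div_le_iff₀ (add_pos h1 h2)]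
    nlinarith [sq_nonneg (mu n β g x - mu n β g (flipAt x i))]
  have hs : ∑ x, a (flipAt x i) = 1 :=
    (Equiv.sum_comp (flip_involutive (n := n) i).toPerm a).trans (mu_sum g)
  have := Finset.sum_le_sum (s := Finset.univ) fun x _ => hh x
  rw [Finset.sum_add_distrib, hs, show ∑ x, a x = 1 from mu_sum g] at this
  rw [div_le_one two_pos]
  linarith

/-- A linear test function of variance at least `a n²`. -/
theorem exists_test (g : Pair n → ℝ) (hn : 1 ≤ n) {a : ℝ} (hQ : a ≤ Qsq n β g) :
    ∃ v : Conf n, n ^ 2 * a ≤ gibbsVar n β g (ov v) := by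
  have hn' : (0 : ℝ) < n := by exact_mod_cast hn
  have hQ' : ∑ x, ∑ y, mu n β g x * mu n β g y * ov x y ^ 2 = n ^ 2 * Qsq n β g := by
    simp only [Qsq, Finset.mul_sum]
    exact Finset.sum_congr rfl fun x _ => Finset.sum_congr rfl fun y _ => by field_simp
  obtain ⟨v, -, hv'⟩ := Finset.exists_le_of_sum_le (s := Finset.univ)
    (f := fun v => mu n β g v * (n ^ 2 * a)) (g := fun v => mu n β g v * gibbsVar n β g (ov v))
    Finset.univ_nonempty (by
      rw [← Finset.sum_mul, mu_sum, one_mul]
      refine (mul_le_mul_of_nonneg_left hQ (sq_nonneg _)).trans (hQ'.symm.trans ?_).le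
      refine Finset.sum_congr rfl fun x _ => ?_
      rw [gibbsVar, mean_zero g (ov x) (fun y => by simp [ov, negConf, spin_not])]
      simp only [ne_eq, OfNat.ofNat_ne_zero, not_false_eq_true, zero_pow, sub_zero, Finset.mul_sum]
      exact Finset.sum_congr rfl fun y _ => by ring)
  exact ⟨v, le_of_mul_le_mul_left hv' (mu_pos g v)⟩

/-- The test-function bound. -/
theorem gap_le (g : Pair n → ℝ) (hn : 1 ≤ n) {a : ℝ} (ha : 0 < a) (hQ : a ≤ Qsq n β g) :
    gap n β g ≤ 1 / (a * n) := by
  have hn' : (0 : ℝ) < n := by exact_mod_cast hn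
  obtain ⟨v, hvar⟩ := exists_test g hn hQ
  have hpos : 0 < gibbsVar n β g (ov v) := lt_of_lt_of_le (by positivity) hvar
  have hm : dirichlet n β g (ov v) / gibbsVar n β g (ov v) ∈
      {r | ∃ f : Conf n → ℝ, 0 < gibbsVar n β g f ∧ r = dirichlet n β g f / gibbsVar n β g f} :=
    ⟨ov v, hpos, rfl⟩
  refine (csInf_le ⟨0, ?_⟩ hm).trans ?_
  · rintro r ⟨f, hf, rfl⟩
    exact div_nonneg (dirichlet_nonneg g f) hf.le
  · rw [div_le_div_iff₀ hpos (by positivity)]
    nlinarith [mul_le_mul_of_nonneg_right (dirichlet_ov (β := β) g v)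
      (show (0 : ℝ) ≤ a * n by positivity)]

end Vale.Agent.P150
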