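import Mathlib
import Vale.Agent.P150.Gauss

/-!
The scalar inequality below the annealed value, for P150.
-/

open MeasureTheory ProbabilityTheory

namespace Vale.Agent.P150

/-- `log cosh z ≤ z²/2 - z⁴/12 + z⁶/45`. -/
theorem log_cosh_le (z : ℝ) : Real.log (Real.cosh z) ≤ z ^ 2 / 2 - z ^ 4 / 12 + z ^ 6 / 45 := by
  have hc : ∀ x : ℝ, 0 < Real.cosh x := Real.cosh_pos
  have hth : ∀ x : ℝ, HasDerivAt (fun y => Real.sinh y / Real.cosh y)
      (1 - (Real.sinh x / Real.cosh x) ^ 2) x := fun x => by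
    refine ((Real.hasDerivAt_sinh x).div (Real.hasDerivAt_cosh x) (hc x).ne').congr_deriv ?_
    have := (hc x).ne'
    field_simp
  have mono : ∀ f f' : ℝ → ℝ, f 0 = 0 → (∀ x, HasDerivAt f (f' x) x) →
      (∀ x, 0 ≤ x → 0 ≤ f' x) → ∀ x, 0 ≤ x → 0 ≤ f x := fun f f' h0 hd hp x hx => by
    have := monotoneOn_of_hasDerivWithinAt_nonneg (convex_Ici (0 : ℝ))
      (fun y _ => (hd y).continuousAt.continuousWithinAt)
      (fun y _ => (hd y).hasDerivWithinAt) (fun y hy => hp y (interior_subset hy))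
      (Set.self_mem_Ici) (Set.mem_Ici.2 hx) hx
    linarith
  have t0 : ∀ x, 0 ≤ x → 0 ≤ Real.sinh x / Real.cosh x := fun x hx =>
    div_nonneg (Real.sinh_nonneg_iff.2 hx) (hc x).le
  have t1 : ∀ x, 0 ≤ x → 0 ≤ x - Real.sinh x / Real.cosh x :=
    mono _ _ (by simp) (fun x => ((hasDerivAt_id' x).sub (hth x))) fun x _ => by
      nlinarith [sq_nonneg (Real.sinh x / Real.cosh x)]
  have t3 : ∀ x, 0 ≤ x → 0 ≤ Real.sinh x / Real.cosh x - (x - x ^ 3 / 3) :=
    mono _ (fun x => 1 - (Real.sinh x / Real.cosh x) ^ 2 - (1 - x ^ 2)) (by simp)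
      (fun x => (hth x).sub (((hasDerivAt_id' x).sub ((hasDerivAt_pow 3 x).div_const 3)).congr_deriv
        (by simp)))
      fun x hx => by nlinarith [t0 x hx, t1 x hx]
  have t5 : ∀ x, 0 ≤ x → 0 ≤ x - x ^ 3 / 3 + 2 * x ^ 5 / 15 - Real.sinh x / Real.cosh x :=
    mono _ (fun x => 1 - x ^ 2 + 2 * x ^ 4 / 3 - (1 - (Real.sinh x / Real.cosh x) ^ 2)) (by simp)
      (fun x => ((((hasDerivAt_id' x).sub ((hasDerivAt_pow 3 x).div_const 3)).add
        (((hasDerivAt_pow 5 x).const_mul 2).div_const 15)).sub (hth x)).congr_deriv (by simp; ring))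
      fun x hx => by
        rcases le_or_gt (x ^ 2) 3 with h | h
        · have h1 : 0 ≤ x - x ^ 3 / 3 := by nlinarith [mul_nonneg hx (sub_nonneg.2 h)]
          nlinarith [mul_self_le_mul_self h1 (sub_nonneg.1 (t3 x hx)),
            mul_nonneg (sq_nonneg x) (sq_nonneg (x ^ 2))]
        · nlinarith [sq_nonneg (Real.sinh x / Real.cosh x)]
  have key : ∀ x, 0 ≤ x → 0 ≤ x ^ 2 / 2 - x ^ 4 / 12 + x ^ 6 / 45 - Real.log (Real.cosh x) :=
    mono _ (fun x => x - x ^ 3 / 3 + 2 * x ^ 5 / 15 - Real.sinh x / Real.cosh x) (by simp)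
      (fun x => (((((hasDerivAt_pow 2 x).div_const 2).sub ((hasDerivAt_pow 4 x).div_const 12)).add
        ((hasDerivAt_pow 6 x).div_const 45)).sub ((Real.hasDerivAt_cosh x).log (hc x).ne')).congr_deriv
          (by simp; ring))
      t5
  rcases le_total 0 z with h | h
  · linarith [key z h]
  · have := key (-z) (by linarith)
    rw [Real.cosh_neg] at this
    have e : (-z) ^ 4 = z ^ 4 ∧ (-z) ^ 6 = z ^ 6 ∧ (-z) ^ 2 = z ^ 2 := ⟨by ring, by ring, by ring⟩
    rw [e.1, e.2.1, e.2.2] at this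
    linarith

theorem integrable_pow_gauss (k : ℕ) : Integrable (fun x : ℝ => x ^ k) (gaussianReal 0 1) := by
  refine (integrable_norm_iff (Continuous.aestronglyMeasurable (by fun_prop))).1 ?_
  simpa [norm_pow] using (memLp_id_gaussianReal (k : ENNReal).toNNReal).integrable_norm_pow'

theorem moment_step (k : ℕ) :
    ∫ x, x ^ (k + 2) ∂gaussianReal 0 1 = (k + 1) * ∫ x, x ^ k ∂gaussianReal 0 1 := by
  have h := P166.ibp_real (u := fun x => x ^ (k + 1)) (u' := fun x => ((k + 1 : ℕ) : ℝ) * x ^ k)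
    (fun x => by simpa using hasDerivAt_pow (k + 1) x) (integrable_pow_gauss _)
    ((integrable_pow_gauss k).const_mul _)
    ((integrable_pow_gauss (k + 2)).congr (ae_of_all _ fun x => by ring))
  rw [integral_const_mul] at h
  push_cast at h
  rw [← h]
  exact integral_congr_ae (ae_of_all _ fun x => by ring)

theorem integrable_log_cosh (s : ℝ) :
    Integrable (fun x => Real.log (Real.cosh (s * x))) (gaussianReal 0 1) := by
  refine Integrable.mono' ((integrable_pow_gauss 1).norm.const_mul |s|)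
    (Continuous.aestronglyMeasurable (Continuous.log (by fun_prop) fun x => (Real.cosh_pos _).ne'))
    (ae_of_all _ fun x => ?_)
  rw [Real.norm_eq_abs, abs_of_nonneg (Real.log_nonneg (Real.one_le_cosh _)), Real.norm_eq_abs,
    pow_one, ← abs_mul, ← Real.log_exp |s * x|]
  refine Real.log_le_log (Real.cosh_pos _) ?_
  rw [Real.cosh_eq]
  linarith [Real.exp_le_exp.2 (le_abs_self (s * x)), Real.exp_le_exp.2 (neg_le_abs (s * x))]

/-- Gaussian average of `log cosh`. -/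
theorem integral_log_cosh_le (s : ℝ) :
    ∫ x, Real.log (Real.cosh (s * x)) ∂gaussianReal 0 1
      ≤ s ^ 2 / 2 - s ^ 4 / 4 + s ^ 6 / 3 := by
  have m0 : ∫ x, x ^ 0 ∂gaussianReal 0 1 = (1 : ℝ) := by simp
  have m2 : ∫ x, x ^ 2 ∂gaussianReal 0 1 = (1 : ℝ) := by rw [moment_step 0, m0]; norm_num
  have m4 : ∫ x, x ^ 4 ∂gaussianReal 0 1 = (3 : ℝ) := by rw [moment_step 2, m2]; norm_num
  have m6 : ∫ x, x ^ 6 ∂gaussianReal 0 1 = (15 : ℝ) := by rw [moment_step 4, m4]; norm_num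
  have i2 := (integrable_pow_gauss 2).const_mul (s ^ 2 / 2)
  have i4 := (integrable_pow_gauss 4).const_mul (s ^ 4 / 12)
  have i6 := (integrable_pow_gauss 6).const_mul (s ^ 6 / 45)
  have hi : Integrable (fun x => s ^ 2 / 2 * x ^ 2 - s ^ 4 / 12 * x ^ 4 + s ^ 6 / 45 * x ^ 6)
      (gaussianReal 0 1) := (i2.sub i4).add i6
  refine (integral_mono (integrable_log_cosh s) hi
    fun x => (log_cosh_le _).trans_eq (by ring)).trans_eq ?_
  have i24 : Integrable (fun x => s ^ 2 / 2 * x ^ 2 - s ^ 4 / 12 * x ^ 4) (gaussianReal 0 1) :=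
    i2.sub i4
  rw [integral_add i24 i6, integral_sub i2 i4, integral_const_mul, integral_const_mul,
    integral_const_mul, m2, m4, m6]
  ring

/-- Above the transition some replica-symmetric value lies strictly below the annealed one. -/
theorem exists_rs {β : ℝ} (hβ : 1 < β) : ∃ q δ : ℝ, 0 ≤ q ∧ 0 < δ ∧
    (∫ x, Real.log (Real.cosh (β * Real.sqrt q * x)) ∂gaussianReal 0 1)
      + β ^ 2 * (1 - q) ^ 2 / 4 ≤ β ^ 2 / 4 - δ := by
  have h2 : 0 < β ^ 2 * (β ^ 2 - 1) / 4 :=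
    div_pos (mul_pos (by positivity) (by nlinarith)) (by norm_num)
  have h6 : 0 < β ^ 6 / 3 := by positivity
  set q := β ^ 2 * (β ^ 2 - 1) / 4 / (2 * (β ^ 6 / 3)) with hq
  have hq0 : 0 < q := by positivity
  refine ⟨q, q ^ 2 * (β ^ 2 * (β ^ 2 - 1) / 4 / 2), hq0.le, by positivity, ?_⟩
  have h := integral_log_cosh_le (β * Real.sqrt q)
  have e2 : (β * Real.sqrt q) ^ 2 = β ^ 2 * q := by rw [mul_pow, Real.sq_sqrt hq0.le]
  rw [show (β * Real.sqrt q) ^ 4 = ((β * Real.sqrt q) ^ 2) ^ 2 by ring,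
    show (β * Real.sqrt q) ^ 6 = ((β * Real.sqrt q) ^ 2) ^ 3 by ring, e2] at h
  have hk : β ^ 6 / 3 * q = β ^ 2 * (β ^ 2 - 1) / 4 / 2 := by rw [hq]; field_simp
  linear_combination h + q ^ 2 * hk

end Vale.Agent.P150
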