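import Mathlib
import Vale.Agent.P150.Model
import Vale.Agent.P150.Scalar

/-!
Upper bound and one-spin cavity lower bound for the mean log partition function, for P150.
-/

open MeasureTheory ProbabilityTheory Filter Topology

namespace Vale.Agent.P150

variable {n : ℕ} {β : ℝ}

/-- Mean log partition function at coupling `β/√n`. -/
noncomputable def meanLogZ (n : ℕ) (β : ℝ) : ℝ := EL (hv n (β / Real.sqrt n))

theorem coef_sq (_hn : 1 ≤ n) : (β / Real.sqrt n) ^ 2 = β ^ 2 / n := by
  rw [div_pow, Real.sq_sqrt (Nat.cast_nonneg n)]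

/-- The field model. -/
noncomputable def fv (n : ℕ) (b : ℝ) (x : Conf n) (i : Fin n) : ℝ := b * spin (x i)

theorem EL_field (n : ℕ) (b : ℝ) :
    EL (fv n b) = n * (Real.log 2 + ∫ z, Real.log (Real.cosh (b * z)) ∂gaussianReal 0 1) := by
  have h : ∀ g, lse (fv n b) g = ∑ i, (Real.log 2 + Real.log (Real.cosh (b * g i))) := fun g => by
    have e : ∑ x : Conf n, Real.exp (lin (fv n b x) g)
        = ∏ i, ∑ s : Bool, Real.exp (g i * (b * spin s)) := by
      rw [Fintype.prod_sum]
      exact Finset.sum_congr rfl fun x _ => by rw [lin, Real.exp_sum]; rfl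
    rw [lse, e, Real.log_prod fun i _ => ?_]
    · refine Finset.sum_congr rfl fun i _ => ?_
      rw [← Real.log_mul two_ne_zero (Real.cosh_pos _).ne', Real.cosh_eq, Fintype.sum_bool]
      congr 1
      simp [spin, mul_comm]
      ring
    · exact (Finset.sum_pos (fun _ _ => Real.exp_pos _) Finset.univ_nonempty).ne'
  have hev : ∀ i : Fin n, MeasurePreserving (fun g : Fin n → ℝ => g i) (gp (Fin n))
      (gaussianReal 0 1) := fun i => measurePreserving_eval _ i
  have hc : Continuous fun z : ℝ => Real.log (Real.cosh (b * z)) :=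
    Continuous.log (by fun_prop) fun z => (Real.cosh_pos _).ne'
  have hi : ∀ i : Fin n, Integrable (fun g : Fin n → ℝ => Real.log (Real.cosh (b * g i))) (gp (Fin n)) :=
    fun i => ((hev i).integrable_comp hc.aestronglyMeasurable).2 (integrable_log_cosh b)
  have hI : ∀ i : Fin n, ∫ g, Real.log (Real.cosh (b * g i)) ∂gp (Fin n)
      = ∫ z, Real.log (Real.cosh (b * z)) ∂gaussianReal 0 1 := fun i => by
    rw [← (hev i).map_eq, integral_map (hev i).measurable.aemeasurable hc.aestronglyMeasurable]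
  unfold EL
  simp only [h]
  have hi' : ∀ i ∈ Finset.univ, Integrable
      (fun g : Fin n → ℝ => Real.log 2 + Real.log (Real.cosh (b * g i))) (gp (Fin n)) :=
    fun i _ => (integrable_const _).add (hi i)
  rw [integral_finsetSum _ hi']
  simp only [integral_add (integrable_const _) (hi _), hI]
  simp
  ring

/-- Replica-symmetric upper bound. -/
theorem meanLogZ_le (hn : 1 ≤ n) {q : ℝ} (hq : 0 ≤ q) :
    meanLogZ n β ≤ n * (Real.log 2 + (∫ z, Real.log (Real.cosh (β * Real.sqrt q * z)) ∂gaussianReal 0 1)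
      + β ^ 2 * (1 - q) ^ 2 / 4) := by
  have hn' : (0 : ℝ) < n := by exact_mod_cast hn
  have hcov : ∀ x y : Conf n, ∑ p, hv n (β / Real.sqrt n) x p * hv n (β / Real.sqrt n) y p
      - ∑ i, fv n (β * Real.sqrt q) x i * fv n (β * Real.sqrt q) y i
      = β ^ 2 / n * ((ov x y ^ 2 - n) / 2) - β ^ 2 * q * ov x y := fun x y => by
    rw [cov_hv, coef_sq hn, ov, Finset.mul_sum]
    congr 1
    exact Finset.sum_congr rfl fun i _ => by
      simp only [fv]
      linear_combination (β ^ 2 * spin (x i) * spin (y i)) * Real.mul_self_sqrt hq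
  have h := compare (hv n (β / Real.sqrt n)) (fv n (β * Real.sqrt q))
    (β ^ 2 / n * (((n : ℝ) ^ 2 - n) / 2) - β ^ 2 * q * n)
    (-(β ^ 2 / 2) - β ^ 2 * q ^ 2 * n / 2)
    (fun x => by rw [hcov, ov_self])
    (fun x y => by
      rw [hcov]
      have e : β ^ 2 / n * ((ov x y ^ 2 - n) / 2) - β ^ 2 * q * ov x y
          - (-(β ^ 2 / 2) - β ^ 2 * q ^ 2 * n / 2) = β ^ 2 / (2 * n) * (ov x y - q * n) ^ 2 := by
        field_simp; ring
      have : 0 ≤ β ^ 2 / (2 * n) * (ov x y - q * n) ^ 2 := by positivity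
      linarith)
  have e : (β ^ 2 / n * (((n : ℝ) ^ 2 - n) / 2) - β ^ 2 * q * n
      - (-(β ^ 2 / 2) - β ^ 2 * q ^ 2 * n / 2)) / 2 = n * (β ^ 2 * (1 - q) ^ 2 / 4) := by
    field_simp; ring
  rw [e, EL_field] at h
  rw [meanLogZ, mul_add]
  linarith

theorem meanLogZ_one : meanLogZ 1 β = Real.log 2 := by
  have : IsEmpty (Pair 1) := ⟨fun p => absurd p.2 (by simp [Subsingleton.elim p.1.1 p.1.2])⟩
  simp [meanLogZ, EL, lse, lin]

/-- Mean squared overlap. -/
noncomputable def Qmean (n : ℕ) (β : ℝ) : ℝ := ∫ g, Qsq n β g ∂gp (Pair n)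

theorem integrable_Qsq : Integrable (Qsq n β) (gp (Pair n)) :=
  Integrable.of_bound continuous_Qsq.aestronglyMeasurable 1 (ae_of_all _ fun g => by
    rw [Real.norm_eq_abs, abs_of_nonneg (Qsq_nonneg g)]; exact Qsq_le_one g)

/-- Weights of the system with one more spin at the old coupling. -/
noncomputable def cavVec (n : ℕ) (c : ℝ) (p : Conf n × Bool) : Pair n ⊕ Fin n → ℝ :=
  Sum.elim (hv n c p.1) (fun i => c * (spin p.2 * spin (p.1 i)))

theorem EL_cav_le (n : ℕ) (c : ℝ) : EL (cavVec n c) ≤ EL (hv (n + 1) c) := by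
  let e : Conf n × Bool ≃ Conf (n + 1) :=
    (Equiv.prodComm _ _).trans (Fin.consEquiv fun _ => Bool)
  have h := compare (cavVec n c) (hv (n + 1) c ∘ e) 0 0
  have hov : ∀ a b : Conf n × Bool, ov (e a) (e b) = spin a.2 * spin b.2 + ov a.1 b.1 := fun a b => by
    simp [ov, e, Fin.sum_univ_succ, Fin.consEquiv]
  have hz : ∀ a b, ∑ i, cavVec n c a i * cavVec n c b i
      - ∑ j, (hv (n + 1) c ∘ e) a j * (hv (n + 1) c ∘ e) b j = 0 := fun a b => by
    have e2 : ∑ i, c * (spin a.2 * spin (a.1 i)) * (c * (spin b.2 * spin (b.1 i)))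
        = c ^ 2 * (spin a.2 * spin b.2) * ov a.1 b.1 := by
      rw [ov, Finset.mul_sum]; exact Finset.sum_congr rfl fun i _ => by ring
    simp only [Function.comp, cov_hv, hov, Fintype.sum_sum_type, cavVec, Sum.elim_inl, Sum.elim_inr, e2]
    push_cast
    linear_combination -(c ^ 2 / 2) * ((spin b.2 * spin b.2) * spin_sq a.2 + spin_sq b.2)
  have h' := h (fun a => (hz a a).le) (fun a b => (hz a b).ge)
  have : EL (hv (n + 1) c ∘ e) = EL (hv (n + 1) c) := by
    unfold EL lse
    congr 1; funext g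
    congr 1
    exact Equiv.sum_comp e fun x => Real.exp (lin (hv (n + 1) c x) g)
  linarith

/-- The cavity field average. -/
noncomputable def cavX (n : ℕ) (β : ℝ) (g : Pair n → ℝ) (h : Fin n → ℝ) : ℝ :=
  ∑ x, mu n β g x * Real.cosh (lin (fv n (β / Real.sqrt n) x) h)

theorem one_le_cavX (g : Pair n → ℝ) (h : Fin n → ℝ) : 1 ≤ cavX n β g h :=
  (mu_sum (β := β) g).symm.trans_le (Finset.sum_le_sum fun x _ =>
    le_mul_of_one_le_right (mu_pos g x).le (Real.one_le_cosh _))

@[fun_prop]
theorem continuous_cavX (g : Pair n → ℝ) : Continuous (cavX n β g) := by unfold cavX; fun_prop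

theorem lse_cav (g : Pair n → ℝ) (h : Fin n → ℝ) :
    lse (cavVec n (β / Real.sqrt n)) (Sum.elim g h)
      = Real.log 2 + lse (hv n (β / Real.sqrt n)) g + Real.log (cavX n β g h) := by
  set c := β / Real.sqrt n
  have e : ∑ p : Conf n × Bool, Real.exp (lin (cavVec n c p) (Sum.elim g h))
      = 2 * ((∑ x, Real.exp (lin (hv n c x) g)) * cavX n β g h) := by
    rw [Fintype.sum_prod_type, cavX, Finset.mul_sum, Finset.mul_sum]
    refine Finset.sum_congr rfl fun x _ => ?_
    have el : ∀ s, lin (cavVec n c (x, s)) (Sum.elim g h)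
        = lin (hv n c x) g + spin s * lin (fv n c x) h := fun s => by
      simp only [lin, cavVec, Fintype.sum_sum_type, Sum.elim_inl, Sum.elim_inr, Finset.mul_sum, fv]
      congr 1
      exact Finset.sum_congr rfl fun i _ => by ring
    rw [mu_eq, soft, Fintype.sum_bool, el, el, Real.exp_add, Real.exp_add, Real.cosh_eq]
    have := (lse_den_pos (hv n c) g).ne'
    simp only [spin, Bool.false_eq_true, if_true, if_false, one_mul, neg_mul]
    field_simp
    ring
  unfold lse
  rw [e, Real.log_mul two_ne_zero (mul_ne_zero (lse_den_pos _ g).ne'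
      (one_pos.trans_le (one_le_cavX g h)).ne'),
    Real.log_mul (lse_den_pos _ g).ne' (one_pos.trans_le (one_le_cavX g h)).ne']
  ring

/-- The variance constant. -/
noncomputable def cavK (β : ℝ) : ℝ := Real.exp (β ^ 2) * (β ^ 4 / 2 * Real.exp (β ^ 4 / 2))

theorem log_cavX_mean (hn : 1 ≤ n) (g : Pair n → ℝ) {τ : ℝ} (hτ : 0 < τ) :
    β ^ 2 / 2 - τ - cavK β / (4 * τ) * Qsq n β g
      ≤ ∫ h, Real.log (cavX n β g h) ∂gp (Fin n) := by
  have hn' : (0 : ℝ) < n := by exact_mod_cast hn
  set c := β / Real.sqrt n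
  have hc2 : c ^ 2 = β ^ 2 / n := coef_sq hn
  have hsq : ∀ x : Conf n, ∑ i, fv n c x i ^ 2 = β ^ 2 := fun x => by
    simp only [fv, mul_pow, pow_two (spin _), spin_sq, hc2]
    simp; field_simp
  set μ := Real.exp (β ^ 2 / 2)
  have hμ : 1 ≤ μ := Real.one_le_exp (by positivity)
  have iX : Integrable (cavX n β g) (gp (Fin n)) :=
    integrable_finsetSum _ fun x _ => (cosh_lin _).1.const_mul _
  have eX : ∫ h, cavX n β g h ∂gp (Fin n) = μ := by
    unfold cavX
    rw [integral_finsetSum _ fun x _ => (cosh_lin _).1.const_mul _]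
    simp only [integral_const_mul, (cosh_lin _).2]
    rw [show β / Real.sqrt n = c from rfl]
    simp only [hsq, ← Finset.sum_mul, mu_sum, one_mul, μ]
  have eXX : ∀ h, cavX n β g h ^ 2 = ∑ x, ∑ y, mu n β g x * mu n β g y
      * (Real.cosh (lin (fv n c x) h) * Real.cosh (lin (fv n c y) h)) := fun h => by
    rw [pow_two, cavX, Finset.sum_mul_sum]
    exact Finset.sum_congr rfl fun x _ => Finset.sum_congr rfl fun y _ => by ring
  have iXX : Integrable (fun h => cavX n β g h ^ 2) (gp (Fin n)) := by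
    simp only [eXX]
    exact integrable_finsetSum _ fun x _ => integrable_finsetSum _ fun y _ =>
      (cosh_lin_two _ _).1.const_mul _
  have eX2 : ∫ h, cavX n β g h ^ 2 ∂gp (Fin n) ≤ μ ^ 2 + cavK β * Qsq n β g := by
    simp only [eXX]
    rw [integral_finsetSum _ fun x _ => integrable_finsetSum _ fun y _ =>
      (cosh_lin_two _ _).1.const_mul _]
    simp only [integral_finsetSum _ fun y _ => (cosh_lin_two (fv n c _) _).1.const_mul _,
      integral_const_mul, (cosh_lin_two _ _).2, hsq]
    have hr : μ ^ 2 + cavK β * Qsq n β g = ∑ x, ∑ y, mu n β g x * mu n β g y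
        * (μ ^ 2 + cavK β * (ov x y / n) ^ 2) := by
      simp only [mul_add, Finset.sum_add_distrib, ← Finset.sum_mul, ← Finset.mul_sum, mu_sum, one_mul,
        Qsq]
      congr 1
      simp only [Finset.mul_sum]
      exact Finset.sum_congr rfl fun x _ => Finset.sum_congr rfl fun y _ => by ring
    rw [hr]
    refine Finset.sum_le_sum fun x _ => Finset.sum_le_sum fun y _ =>
      mul_le_mul_of_nonneg_left ?_ (mul_nonneg (mu_pos g x).le (mu_pos g y).le)
    have hdot : ∑ i, fv n c x i * fv n c y i = β ^ 2 * (ov x y / n) := by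
      simp only [ov, fv, Finset.sum_div, Finset.mul_sum]
      refine Finset.sum_congr rfl fun i _ => ?_
      rw [show c * spin (x i) * (c * spin (y i)) = c ^ 2 * (spin (x i) * spin (y i)) by ring, hc2]
      ring
    have hμ2 : μ ^ 2 = Real.exp ((β ^ 2 + β ^ 2) / 2) := by
      simp only [μ, pow_two (Real.exp _), ← Real.exp_add]; ring_nf
    rw [hdot, cavK, hμ2, show (β ^ 2 + β ^ 2) / 2 = β ^ 2 by ring]
    set R := ov x y / n with hR
    have hR2 : R ^ 2 ≤ 1 := by
      rw [hR, sq_le_one_iff_abs_le_one, abs_div, Nat.abs_cast]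
      exact div_le_one_of_le₀ (abs_ov_le x y) (Nat.cast_nonneg n)
    set u := (β ^ 2 * R) ^ 2 / 2
    have hu : 0 ≤ u := by positivity
    have hu' : u = β ^ 4 / 2 * R ^ 2 := by simp only [u]; ring
    have h2 : u ≤ β ^ 4 / 2 := hu'.trans_le (mul_le_of_le_one_right (by positivity) hR2)
    have h3 : Real.exp u ≤ 1 + u * Real.exp u := by
      have h4 := Real.add_one_le_exp (-u)
      rw [Real.exp_neg] at h4
      have h5 := mul_le_mul_of_nonneg_left h4 (Real.exp_pos u).le
      rw [mul_inv_cancel₀ (Real.exp_pos u).ne'] at h5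
      linarith
    calc Real.exp (β ^ 2) * Real.cosh (β ^ 2 * R)
        ≤ Real.exp (β ^ 2) * (1 + u * Real.exp (β ^ 4 / 2)) :=
          mul_le_mul_of_nonneg_left ((Real.cosh_le_exp_half_sq _).trans (h3.trans (add_le_add le_rfl
            (mul_le_mul_of_nonneg_left (Real.exp_le_exp.2 h2) hu)))) (Real.exp_pos _).le
      _ = _ := by rw [hu']; ring
  have hlog : ∀ h, Real.log μ - τ - (μ - cavX n β g h) ^ 2 / (4 * τ) ≤ Real.log (cavX n β g h) := by
    intro h
    have hX := one_le_cavX (β := β) g h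
    have h1 := Real.log_le_sub_one_of_pos (div_pos (one_pos.trans_le hμ) (one_pos.trans_le hX))
    rw [Real.log_div (by linarith) (by linarith)] at h1
    have h2 : μ / cavX n β g h - 1 ≤ τ + (μ - cavX n β g h) ^ 2 / (4 * τ) := by
      have h4 : 0 ≤ τ + (μ - cavX n β g h) ^ 2 / (4 * τ) := by positivity
      rcases le_total μ (cavX n β g h) with h5 | h5
      · linarith [(div_le_one (one_pos.trans_le hX)).2 h5]
      · have h6 : μ / cavX n β g h - 1 ≤ μ - cavX n β g h := by
          rw [div_sub_one (by linarith)]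
          exact div_le_self (sub_nonneg.2 h5) hX
        have h7 : μ - cavX n β g h ≤ τ + (μ - cavX n β g h) ^ 2 / (4 * τ) := by
          rw [← sub_nonneg]
          have : τ + (μ - cavX n β g h) ^ 2 / (4 * τ) - (μ - cavX n β g h)
              = ((μ - cavX n β g h) - 2 * τ) ^ 2 / (4 * τ) := by field_simp; ring
          rw [this]; positivity
        linarith
    linarith
  have ev : ∀ h, (μ - cavX n β g h) ^ 2 = μ ^ 2 - 2 * μ * cavX n β g h + cavX n β g h ^ 2 :=
    fun h => by ring
  have iv : Integrable (fun h => (μ - cavX n β g h) ^ 2) (gp (Fin n)) := by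
    simp only [ev]; exact ((integrable_const _).sub (iX.const_mul _)).add iXX
  have il : Integrable (fun h => Real.log (cavX n β g h)) (gp (Fin n)) := by
    refine Integrable.mono' iX (Continuous.aestronglyMeasurable (Continuous.log (by fun_prop)
      fun h => (one_pos.trans_le (one_le_cavX g h)).ne')) (ae_of_all _ fun h => ?_)
    rw [Real.norm_eq_abs, abs_of_nonneg (Real.log_nonneg (one_le_cavX g h))]
    linarith [Real.log_le_sub_one_of_pos (one_pos.trans_le (one_le_cavX (β := β) g h))]
  have hlow : Integrable (fun h => Real.log μ - τ - (μ - cavX n β g h) ^ 2 / (4 * τ)) (gp (Fin n)) :=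
    (integrable_const _).sub (iv.div_const _)
  refine le_trans ?_ (integral_mono hlow il hlog)
  rw [integral_sub (integrable_const _) (iv.div_const _), integral_div]
  have ev' : ∫ h, (μ - cavX n β g h) ^ 2 ∂gp (Fin n) ≤ cavK β * Qsq n β g := by
    simp only [ev]
    have i1 : Integrable (fun h => μ ^ 2 - 2 * μ * cavX n β g h) (gp (Fin n)) :=
      (integrable_const _).sub (iX.const_mul _)
    rw [integral_add i1 iXX, integral_sub (integrable_const _) (iX.const_mul _),
      integral_const_mul, eX]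
    simp only [integral_const, probReal_univ, one_smul]
    linarith
  have := div_le_div_of_nonneg_right ev' (by positivity : 0 ≤ 4 * τ)
  simp only [integral_const, probReal_univ, one_smul, μ, Real.log_exp]
  rw [mul_comm (cavK β / (4 * τ)), mul_div_assoc', mul_comm (Qsq n β g)]
  linarith

/-- One-spin cavity step. -/
theorem cavity_step (hn : 1 ≤ n) {τ : ℝ} (hτ : 0 < τ) :
    meanLogZ n β + Real.log 2 + β ^ 2 / 4 - τ - β ^ 2 / (4 * n) - cavK β / (4 * τ) * Qmean n β
      ≤ meanLogZ (n + 1) β := by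
  have hn' : (0 : ℝ) < n := by exact_mod_cast hn
  set c := β / Real.sqrt n
  set c' := β / Real.sqrt ((n + 1 : ℕ) : ℝ)
  have hc : c ^ 2 = β ^ 2 / n := coef_sq hn
  have hc' : c' ^ 2 = β ^ 2 / (n + 1) := by rw [coef_sq (by omega)]; push_cast; rfl
  have hcc : 0 ≤ c ^ 2 - c' ^ 2 := by
    rw [hc, hc', sub_nonneg]
    exact div_le_div_of_nonneg_left (sq_nonneg β) hn' (by linarith)
  have hcov : ∀ a b : Conf (n + 1), ∑ i, hv (n + 1) c a i * hv (n + 1) c b i
      - ∑ j, hv (n + 1) c' a j * hv (n + 1) c' b j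
      = (c ^ 2 - c' ^ 2) * ((ov a b ^ 2 - ((n + 1 : ℕ) : ℝ)) / 2) := fun a b => by
    rw [cov_hv, cov_hv]; ring
  have h1 : EL (hv (n + 1) c) - EL (hv (n + 1) c') ≤ β ^ 2 / 4 + β ^ 2 / (4 * n) := by
    refine (compare _ _ ((c ^ 2 - c' ^ 2) * (((n + 1 : ℝ) ^ 2 - (n + 1)) / 2))
      ((c ^ 2 - c' ^ 2) * (-(n + 1 : ℝ) / 2)) (fun a => ?_) (fun a b => ?_)).trans_eq ?_
    · rw [hcov, ov_self]; push_cast; rfl
    · rw [hcov]
      refine mul_le_mul_of_nonneg_left ?_ hcc
      push_cast; linarith [sq_nonneg (ov a b)]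
    · rw [hc, hc']; field_simp; ring
  have h2 := EL_cav_le n c
  have hmp : MeasurePreserving (MeasurableEquiv.sumPiEquivProdPi fun _ : Pair n ⊕ Fin n => ℝ).symm
      ((gp (Pair n)).prod (gp (Fin n))) (gp (Pair n ⊕ Fin n)) :=
    measurePreserving_sumPiEquivProdPi_symm (fun _ : Pair n ⊕ Fin n => gaussianReal 0 1)
  have happ : ∀ p : (Pair n → ℝ) × (Fin n → ℝ),
      (MeasurableEquiv.sumPiEquivProdPi fun _ : Pair n ⊕ Fin n => ℝ).symm p = Sum.elim p.1 p.2 :=
    fun p => by funext k; cases k <;> rfl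
  have hint := (hmp.integrable_comp_emb (MeasurableEquiv.measurableEmbedding _)).2
    (integrable_lse (cavVec n c))
  simp only [Function.comp_def, happ] at hint
  have h3 : EL (cavVec n c) = ∫ g, ∫ h, lse (cavVec n c) (Sum.elim g h) ∂gp (Fin n) ∂gp (Pair n) := by
    rw [EL, ← hmp.integral_comp']
    simp only [happ]
    exact integral_prod _ hint
  have hlow : ∀ᵐ g ∂gp (Pair n), Real.log 2 + lse (hv n c) g
      + (β ^ 2 / 2 - τ - cavK β / (4 * τ) * Qsq n β g)
      ≤ ∫ h, lse (cavVec n c) (Sum.elim g h) ∂gp (Fin n) := by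
    filter_upwards [hint.prod_right_ae] with g hg
    simp only [c, lse_cav] at hg ⊢
    have il : Integrable (fun h => Real.log (cavX n β g h)) (gp (Fin n)) := by
      refine (hg.sub (integrable_const (Real.log 2 + lse (hv n (β / Real.sqrt n)) g))).congr
        (ae_of_all _ fun h => ?_)
      simp
    rw [integral_add (integrable_const _) il]
    simp only [integral_const, probReal_univ, one_smul]
    linarith [log_cavX_mean (β := β) hn g hτ]
  have iA : Integrable (fun g => Real.log 2 + lse (hv n c) g) (gp (Pair n)) :=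
    (integrable_const _).add (integrable_lse _)
  have iQ : Integrable (fun g => cavK β / (4 * τ) * Qsq n β g) (gp (Pair n)) := integrable_Qsq.const_mul _
  have iB : Integrable (fun g => β ^ 2 / 2 - τ - cavK β / (4 * τ) * Qsq n β g) (gp (Pair n)) :=
    (integrable_const _).sub iQ
  have h4 := integral_mono_ae (iA.add iB) hint.integral_prod_left hlow
  rw [← h3] at h4
  simp only [Pi.add_apply] at h4
  rw [integral_add iA iB, integral_add (integrable_const _) (integrable_lse _),
    integral_sub (integrable_const _) iQ, integral_const_mul] at h4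
  simp only [integral_const, probReal_univ, one_smul] at h4
  have e : meanLogZ (n + 1) β = EL (hv (n + 1) c') := rfl
  have e' : meanLogZ n β = ∫ g, lse (hv n c) g ∂gp (Pair n) := rfl
  rw [e, e', Qmean]
  linarith

end Vale.Agent.P150
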