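import Mathlib
import Vale.Agent.P150.Gauss

/-!
A variance bound for functions Lipschitz in each coordinate, for P150.
-/

open MeasureTheory ProbabilityTheory

namespace Vale.Agent.P150

/-- Squares of functions with a linear envelope are integrable. -/
theorem integrable_envelope {k : ℕ} {f : (Fin k → ℝ) → ℝ} (hf : Continuous f) {A : ℝ} {c : Fin k → ℝ}
    (h : ∀ g, |f g| ≤ A + ∑ i, c i * |g i|) :
    Integrable f (P166.gs k) ∧ Integrable (fun g => f g ^ 2) (P166.gs k) := by
  have hsum : MemLp (fun g : Fin k → ℝ => A + ∑ i, c i * |g i|) 2 (P166.gs k) := by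
    refine (memLp_const A).add (memLp_finsetSum _ fun i _ => ?_)
    have h2 : MemLp (fun x : ℝ => |x|) 2 (gaussianReal 0 1) := (memLp_id_gaussianReal 2).abs
    exact (h2.comp_measurePreserving (measurePreserving_eval _ i)).const_mul (c i)
  have hm : MemLp f 2 (P166.gs k) := hsum.mono hf.aestronglyMeasurable (ae_of_all _ fun g => by
    rw [Real.norm_eq_abs, Real.norm_eq_abs]
    exact (h g).trans (le_abs_self _))
  exact ⟨hm.integrable (by norm_num), hm.integrable_sq⟩

theorem lip_le {k : ℕ} {f : (Fin k → ℝ) → ℝ} {c : Fin k → ℝ}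
    (hl : ∀ g h, |f g - f h| ≤ ∑ i, c i * |g i - h i|) (g : Fin k → ℝ) :
    |f g| ≤ |f 0| + ∑ i, c i * |g i| := by
  have := hl g 0
  simp only [Pi.zero_apply, sub_zero] at this
  linarith [abs_sub_abs_le_abs_sub (f g) (f 0)]

theorem lip_continuous {k : ℕ} {f : (Fin k → ℝ) → ℝ} {c : Fin k → ℝ}
    (hl : ∀ g h, |f g - f h| ≤ ∑ i, c i * |g i - h i|) : Continuous f := by
  refine continuous_iff_continuousAt.2 fun g => tendsto_iff_dist_tendsto_zero.2 ?_
  refine squeeze_zero (fun h => dist_nonneg) (fun h => hl h g) ?_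
  have : Continuous fun h : Fin k → ℝ => ∑ i, c i * |h i - g i| := by fun_prop
  simpa using this.tendsto g

theorem integrable_pow_id (j : ℕ) : Integrable (fun x : ℝ => x ^ j) (gaussianReal 0 1) :=
  (integrable_norm_iff (Continuous.aestronglyMeasurable (by fun_prop))).1
    (by simpa [norm_pow] using (memLp_id_gaussianReal (j : ENNReal).toNNReal).integrable_norm_pow')

theorem sq_one_gauss : ∫ x : ℝ, x ^ 2 ∂gaussianReal 0 1 = 1 := by
  have h := variance_id_gaussianReal (μ := 0) (v := 1)
  rw [variance_of_integral_eq_zero aemeasurable_id (by simp)] at h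
  simpa using h

/-- The Efron–Stein bound for standard Gaussian coordinates. -/
theorem var_coord : ∀ (k : ℕ) (f : (Fin k → ℝ) → ℝ) (c : Fin k → ℝ), (∀ i, 0 ≤ c i) →
    (∀ g h, |f g - f h| ≤ ∑ i, c i * |g i - h i|) →
    ∫ g, f g ^ 2 ∂P166.gs k - (∫ g, f g ∂P166.gs k) ^ 2 ≤ ∑ i, c i ^ 2
  | 0, f, c, _, _ => by
    have h : ∀ g : Fin 0 → ℝ, f g = f 0 := fun g => by rw [Subsingleton.elim g 0]
    simp [h]
  | k + 1, f, c, hc, hl => by
    have mp := (measurePreserving_piFinSuccAbove (fun _ : Fin (k + 1) => gaussianReal 0 1) 0).symm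
    have hfc := lip_continuous hl
    obtain ⟨i1, i2⟩ := integrable_envelope hfc (lip_le hl)
    have tr : ∀ u : (Fin (k + 1) → ℝ) → ℝ, Integrable u (P166.gs (k + 1)) →
        Integrable (fun p : ℝ × (Fin k → ℝ) => u (Fin.cons p.1 p.2))
          ((gaussianReal 0 1).prod (P166.gs k)) ∧
        ∫ g, u g ∂P166.gs (k + 1) = ∫ y, ∫ x, u (Fin.cons x y) ∂gaussianReal 0 1 ∂P166.gs k := fun u hu => by
      have hu' := hu
      rw [P166.gs, ← mp.map_eq, integrable_map_equiv] at hu'
      have hcons : ∀ p : ℝ × (Fin k → ℝ),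
          (MeasurableEquiv.piFinSuccAbove (fun _ : Fin (k + 1) => ℝ) 0).symm p = Fin.cons p.1 p.2 :=
        fun p => by simp [Fin.insertNth_zero', Fin.consEquiv]
      simp only [Function.comp_def, hcons] at hu'
      refine ⟨hu', ?_⟩
      rw [P166.gs, ← mp.map_eq, integral_map_equiv]
      simp only [hcons]
      exact integral_prod_symm _ hu'
    obtain ⟨j1, e1⟩ := tr f i1
    obtain ⟨j2, e2⟩ := tr _ i2
    set F : (Fin k → ℝ) → ℝ := fun y => ∫ x, f (Fin.cons x y) ∂gaussianReal 0 1
    have hix : ∀ y, Integrable (fun x => f (Fin.cons x y)) (gaussianReal 0 1) ∧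
        Integrable (fun x => (f (Fin.cons x y) - f (Fin.cons 0 y)) ^ 2) (gaussianReal 0 1) := fun y => by
      have hb : ∀ x : ℝ, |f (Fin.cons x y) - f (Fin.cons 0 y)| ≤ c 0 * |x| := fun x => by
        refine (hl _ _).trans_eq ?_
        simp [Fin.sum_univ_succ]
      have hcont : Continuous fun x : ℝ => f (Fin.cons x y) - f (Fin.cons 0 y) :=
        (hfc.comp (Continuous.finCons continuous_id continuous_const)).sub continuous_const
      have h2 : MemLp (fun x : ℝ => f (Fin.cons x y) - f (Fin.cons 0 y)) 2 (gaussianReal 0 1) :=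
        ((memLp_id_gaussianReal 2).const_mul (c 0)).mono hcont.aestronglyMeasurable (ae_of_all _ fun x => by
          rw [Real.norm_eq_abs, Real.norm_eq_abs, abs_mul, abs_of_nonneg (hc 0)]
          exact hb x)
      refine ⟨?_, h2.integrable_sq⟩
      refine ((h2.integrable (by norm_num)).add (integrable_const (f (Fin.cons 0 y)))).congr
        (ae_of_all _ fun x => ?_)
      simp
    have hF : ∀ y y', |F y - F y'| ≤ ∑ i, c i.succ * |y i - y' i| := fun y y' => by
      rw [← integral_sub (hix y).1 (hix y').1]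
      refine (abs_integral_le_integral_abs).trans ?_
      refine (integral_mono (g := fun _ => ∑ i : Fin k, c i.succ * |y i - y' i|)
        ((hix y).1.sub (hix y').1).abs (integrable_const _) fun x =>
          (hl _ _).trans_eq (by simp [Fin.sum_univ_succ])).trans_eq (by simp)
    obtain ⟨k1, k2⟩ := integrable_envelope (lip_continuous hF) (lip_le hF)
    have ih := var_coord k F (fun i => c i.succ) (fun i => hc _) hF
    have inner : ∀ᵐ y ∂P166.gs k,
        ∫ x, f (Fin.cons x y) ^ 2 ∂gaussianReal 0 1 ≤ c 0 ^ 2 + F y ^ 2 := by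
      filter_upwards [j2.prod_left_ae] with y hy
      obtain ⟨m1, m2⟩ := hix y
      set a := f (Fin.cons 0 y)
      have hb : ∫ x, (f (Fin.cons x y) - a) ^ 2 ∂gaussianReal 0 1 ≤ c 0 ^ 2 := by
        refine (integral_mono m2 ((integrable_pow_id 2).const_mul (c 0 ^ 2)) fun x => ?_).trans_eq ?_
        · have h := hl (Fin.cons x y) (Fin.cons 0 y)
          simp [Fin.sum_univ_succ] at h
          rw [← mul_pow, ← sq_abs, ← sq_abs (c 0 * x), abs_mul, abs_of_nonneg (hc 0)]
          exact pow_le_pow_left₀ (abs_nonneg _) h 2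
        · rw [integral_const_mul, sq_one_gauss, mul_one]
      have ee : ∫ x, (f (Fin.cons x y) - a) ^ 2 ∂gaussianReal 0 1
          = ∫ x, f (Fin.cons x y) ^ 2 ∂gaussianReal 0 1 - 2 * a * F y + a ^ 2 := by
        have : (fun x => (f (Fin.cons x y) - a) ^ 2)
            = fun x => f (Fin.cons x y) ^ 2 - 2 * a * f (Fin.cons x y) + a ^ 2 := by funext x; ring
        have hs : Integrable (fun x => f (Fin.cons x y) ^ 2 - 2 * a * f (Fin.cons x y)) (gaussianReal 0 1) :=
          hy.sub (m1.const_mul _)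
        rw [this, integral_add hs (integrable_const _), integral_sub hy (m1.const_mul _),
          integral_const_mul]
        simp [F]
      nlinarith [sq_nonneg (F y - a)]
    have outer := integral_mono_ae j2.integral_prod_right ((integrable_const _).add k2) inner
    simp only [Pi.add_apply] at outer
    rw [integral_add (integrable_const _) k2] at outer
    simp only [integral_const, probReal_univ, one_smul] at outer
    rw [e1, e2, Fin.sum_univ_succ]
    linarith
variable {ι S : Type*} [Fintype ι] [Fintype S] [Nonempty S]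

theorem lse_lip (v : S → ι → ℝ) (b : ι → ℝ) (hb : ∀ a i, |v a i| ≤ b i) (g h : ι → ℝ) :
    |lse v g - lse v h| ≤ ∑ i, b i * |g i - h i| := by
  have key : ∀ g h : ι → ℝ, lse v g ≤ lse v h + ∑ i, b i * |g i - h i| := fun g h => by
    rw [lse, lse, ← Real.log_exp (∑ i, b i * |g i - h i|),
      ← Real.log_mul (lse_den_pos v h).ne' (Real.exp_pos _).ne']
    refine Real.log_le_log (lse_den_pos v g) ?_
    rw [Finset.sum_mul]
    refine Finset.sum_le_sum fun a _ => ?_
    rw [← Real.exp_add, Real.exp_le_exp, lin, lin, ← Finset.sum_add_distrib]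
    refine Finset.sum_le_sum fun i _ => ?_
    have : (g i - h i) * v a i ≤ b i * |g i - h i| := by
      refine (le_abs_self _).trans ?_
      rw [abs_mul, mul_comm (b i)]
      exact mul_le_mul_of_nonneg_left (hb a i) (abs_nonneg _)
    nlinarith
  rw [abs_sub_le_iff]
  refine ⟨by linarith [key g h], ?_⟩
  have := key h g
  simp only [abs_sub_comm (h _) (g _)] at this
  linarith

/-- Variance of a log-sum-exp. -/
theorem lse_var (v : S → ι → ℝ) (b : ι → ℝ) (hb0 : ∀ i, 0 ≤ b i) (hb : ∀ a i, |v a i| ≤ b i) :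
    Integrable (fun g => (lse v g - EL v) ^ 2) (gp ι) ∧
    ∫ g, (lse v g - EL v) ^ 2 ∂gp ι ≤ ∑ i, b i ^ 2 := by
  let e := (Fintype.equivFin ι).symm
  let E := MeasurableEquiv.piCongrLeft (fun _ : ι => ℝ) e
  have mp : MeasurePreserving E (P166.gs (Fintype.card ι)) (gp ι) :=
    measurePreserving_piCongrLeft (fun _ : ι => gaussianReal 0 1) e
  have he : ∀ y j, E y j = y (e.symm j) := fun y j => by
    obtain ⟨j', rfl⟩ := e.surjective j
    simp [E, MeasurableEquiv.coe_piCongrLeft]
  have hl : ∀ y y', |lse v (E y) - lse v (E y')| ≤ ∑ i, b (e i) * |y i - y' i| := fun y y' => by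
    refine (lse_lip v b hb _ _).trans_eq ?_
    rw [← Equiv.sum_comp e]
    exact Finset.sum_congr rfl fun i _ => by simp [he]
  have hv := var_coord _ (fun y => lse v (E y)) (fun i => b (e i)) (fun i => hb0 _) hl
  obtain ⟨i1, i2⟩ := integrable_envelope (lip_continuous hl) (lip_le hl)
  rw [Equiv.sum_comp e fun i => b i ^ 2] at hv
  have hmean : ∫ y, lse v (E y) ∂P166.gs (Fintype.card ι) = EL v := mp.integral_comp' _
  have j2 : Integrable (fun g => lse v g ^ 2) (gp ι) :=
    (mp.integrable_comp_emb E.measurableEmbedding).1 i2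
  have hsq : ∫ y, lse v (E y) ^ 2 ∂P166.gs (Fintype.card ι) = ∫ g, lse v g ^ 2 ∂gp ι :=
    mp.integral_comp' (fun g => lse v g ^ 2)
  rw [hmean, hsq] at hv
  have e2 : (fun g => (lse v g - EL v) ^ 2) = fun g => lse v g ^ 2 - 2 * EL v * lse v g + EL v ^ 2 := by
    funext g; ring
  have j3 : Integrable (fun g => lse v g ^ 2 - 2 * EL v * lse v g) (gp ι) :=
    j2.sub ((integrable_lse v).const_mul _)
  have j4 : Integrable (fun g => lse v g ^ 2 - 2 * EL v * lse v g + EL v ^ 2) (gp ι) :=
    j3.add (integrable_const _)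
  rw [e2]
  refine ⟨j4, ?_⟩
  rw [integral_add j3 (integrable_const _), integral_sub j2 ((integrable_lse v).const_mul _),
    integral_const_mul]
  simp only [integral_const, probReal_univ, one_smul, ← show EL v = ∫ g, lse v g ∂gp ι from rfl]
  nlinarith

/-- Mean absolute deviation of a log-sum-exp. -/
theorem lse_dev (v : S → ι → ℝ) (b : ι → ℝ) (hb0 : ∀ i, 0 ≤ b i) (hb : ∀ a i, |v a i| ≤ b i)
    {s : ℝ} (hs : 0 < s) :
    Integrable (fun g => |lse v g - EL v|) (gp ι) ∧
    ∫ g, |lse v g - EL v| ∂gp ι ≤ s + (∑ i, b i ^ 2) / (4 * s) := by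
  obtain ⟨h1, h2⟩ := lse_var v b hb0 hb
  have h0 : Integrable (fun g => |lse v g - EL v|) (gp ι) :=
    ((integrable_lse v).sub (integrable_const _)).abs
  refine ⟨h0, (integral_mono h0 ((integrable_const s).add (h1.div_const (4 * s))) fun g => ?_).trans ?_⟩
  · have : s + (lse v g - EL v) ^ 2 / (4 * s) - |lse v g - EL v|
        = (|lse v g - EL v| - 2 * s) ^ 2 / (4 * s) := by
      rw [← sq_abs (lse v g - EL v)]; field_simp; ring
    have h4 : 0 ≤ (|lse v g - EL v| - 2 * s) ^ 2 / (4 * s) := by positivity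
    simp only [Pi.add_apply]
    linarith
  · simp only [Pi.add_apply]
    rw [integral_add (integrable_const _) (h1.div_const _), integral_div]
    simp only [integral_const, probReal_univ, one_smul]
    exact add_le_add le_rfl (div_le_div_of_nonneg_right h2 (by positivity))

end Vale.Agent.P150
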