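import Mathlib
import Vale.Agent.P150.Cavity

/-!
The mean squared overlap from the ground-state energy bound, for P150.
-/

open MeasureTheory ProbabilityTheory

namespace Vale.Agent.P150

variable {ι S : Type*} [Fintype ι] [Fintype S] [Nonempty S]

/-- Gaussian integration by parts for the mean energy. -/
theorem mean_lin (v : S → ι → ℝ) :
    Integrable (fun g => ∑ a, soft v g a * lin (v a) g) (gp ι) ∧
    ∫ g, ∑ a, soft v g a * lin (v a) g ∂gp ι
      = ∫ g, ((∑ a, soft v g a * ∑ i, v a i * v a i)
          - ∑ a, ∑ c, soft v g a * soft v g c * ∑ i, v a i * v c i) ∂gp ι := by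
  classical
  have hp : ∀ g a, |soft v g a| ≤ 1 := fun g a => by
    rw [abs_of_nonneg (soft_nonneg _ _ _)]; exact soft_le_one _ _ _
  have i1 : ∀ a i, Integrable (fun g => g i * soft v g a) (gp ι) := fun a i =>
    (integrable_coord i).norm.mono' (Continuous.aestronglyMeasurable (by fun_prop))
      (ae_of_all _ fun g => by
        simpa [abs_mul] using mul_le_of_le_one_right (abs_nonneg (g i)) (hp g a))
  have i2 : ∀ a i, Integrable (fun g => soft v g a * (v a i - ∑ s, soft v g s * v s i)) (gp ι) :=
    fun a i => Integrable.of_bound (Continuous.aestronglyMeasurable (by fun_prop))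
      (1 * (|v a i| + ∑ s, |v s i|)) (ae_of_all _ fun g => by
        rw [Real.norm_eq_abs, abs_mul]
        refine mul_le_mul (hp g a) ((abs_sub _ _).trans (add_le_add le_rfl ?_)) (abs_nonneg _) zero_le_one
        refine (Finset.abs_sum_le_sum_abs _ _).trans (Finset.sum_le_sum fun s _ => ?_)
        rw [abs_mul]; exact mul_le_of_le_one_left (abs_nonneg _) (hp g s))
  have e : ∀ g, ∑ a, soft v g a * lin (v a) g = ∑ a, ∑ i, v a i * (g i * soft v g a) := fun g =>
    Finset.sum_congr rfl fun a _ => by
      rw [lin, Finset.mul_sum]; exact Finset.sum_congr rfl fun i _ => by ring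
  simp only [e]
  refine ⟨integrable_finsetSum _ fun a _ => integrable_finsetSum _ fun i _ => (i1 a i).const_mul _, ?_⟩
  rw [integral_finsetSum _ fun a _ => integrable_finsetSum _ fun i _ => (i1 a i).const_mul _]
  simp only [integral_finsetSum _ fun i _ => (i1 _ i).const_mul _, integral_const_mul]
  have e2 : ∀ g, ((∑ a, soft v g a * ∑ i, v a i * v a i)
      - ∑ a, ∑ c, soft v g a * soft v g c * ∑ i, v a i * v c i)
      = ∑ a, ∑ i, v a i * (soft v g a * (v a i - ∑ s, soft v g s * v s i)) := fun g => by
    rw [← Finset.sum_sub_distrib]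
    refine Finset.sum_congr rfl fun a _ => ?_
    have : ∑ c, soft v g a * soft v g c * ∑ i, v a i * v c i
        = ∑ i, v a i * (soft v g a * ∑ c, soft v g c * v c i) := by
      simp only [Finset.mul_sum]
      rw [Finset.sum_comm]
      exact Finset.sum_congr rfl fun i _ => Finset.sum_congr rfl fun c _ => by ring
    rw [this, Finset.mul_sum, ← Finset.sum_sub_distrib]
    exact Finset.sum_congr rfl fun i _ => by ring
  simp only [e2]
  rw [integral_finsetSum _ fun a _ => integrable_finsetSum _ fun i _ => (i2 a i).const_mul _]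
  simp only [integral_finsetSum _ fun i _ => (i2 _ i).const_mul _, integral_const_mul]
  refine Finset.sum_congr rfl fun a _ => Finset.sum_congr rfl fun i _ => ?_
  rw [ibp_gen i (Integrable.of_bound (Continuous.aestronglyMeasurable (by fun_prop)) 1
    (ae_of_all _ fun g => by rw [Real.norm_eq_abs]; exact hp g a)) (i2 a i) (i1 a i)
      fun g => hasDeriv_soft_update v g i a]

/-- Annealed bound on the mean of the maximum. -/
theorem mean_lin_le (v : S → ι → ℝ) {lam : ℝ} (hl : 0 < lam) {D : ℝ}
    (hD : ∀ a, ∑ i, v a i * v a i ≤ D) :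
    lam * ∫ g, ∑ a, soft v g a * lin (v a) g ∂gp ι
      ≤ Real.log (Fintype.card S) + lam ^ 2 * D / 2 := by
  set w : S → ι → ℝ := fun a i => lam * v a i
  have hcard : (0 : ℝ) < Fintype.card S := by exact_mod_cast Fintype.card_pos
  have hpt : ∀ g, lam * ∑ a, soft v g a * lin (v a) g ≤ lse w g := fun g => by
    rw [Finset.mul_sum]
    calc ∑ a, lam * (soft v g a * lin (v a) g) ≤ ∑ a, soft v g a * lse w g := by
          refine Finset.sum_le_sum fun a _ => ?_
          rw [mul_left_comm]
          refine mul_le_mul_of_nonneg_left ?_ (soft_nonneg _ _ _)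
          have : lam * lin (v a) g = lin (w a) g := by
            simp only [lin, w, Finset.mul_sum]; exact Finset.sum_congr rfl fun i _ => by ring
          rw [this, lse, ← Real.log_exp (lin (w a) g)]
          exact Real.log_le_log (Real.exp_pos _) (Finset.single_le_sum
            (f := fun s => Real.exp (lin (w s) g)) (fun s _ => (Real.exp_pos _).le) (Finset.mem_univ a))
      _ = lse w g := by rw [← Finset.sum_mul, soft_sum, one_mul]
  rw [← integral_const_mul]
  refine (integral_mono ((mean_lin v).1.const_mul _) (integrable_lse w) hpt).trans ?_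
  set M := (Fintype.card S : ℝ) * Real.exp (lam ^ 2 * D / 2)
  have hM : 0 < M := by positivity
  have hsum : Integrable (fun g => ∑ s, Real.exp (lin (w s) g)) (gp ι) :=
    integrable_finsetSum _ fun s _ => (mgf_lin _).1
  have hle : ∀ g, lse w g ≤ Real.log M - 1 + (∑ s, Real.exp (lin (w s) g)) / M := fun g => by
    have h := Real.log_le_sub_one_of_pos (div_pos (lse_den_pos w g) hM)
    rw [Real.log_div (lse_den_pos w g).ne' hM.ne'] at h
    rw [lse]; linarith
  refine (integral_mono (integrable_lse w) ((integrable_const _).add (hsum.div_const M)) hle).trans ?_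
  simp only [Pi.add_apply]
  rw [integral_add (integrable_const _) (hsum.div_const M), integral_div,
    integral_finsetSum _ fun s _ => (mgf_lin _).1]
  simp only [(mgf_lin _).2, integral_const, probReal_univ, one_smul]
  have : (∑ s, Real.exp ((∑ i, w s i ^ 2) / 2)) / M ≤ 1 := by
    rw [div_le_one hM]
    refine (Finset.sum_le_sum (g := fun _ => Real.exp (lam ^ 2 * D / 2)) fun s _ => ?_).trans_eq
      (by rw [Finset.sum_const, Finset.card_univ, nsmul_eq_mul])
    refine Real.exp_le_exp.2 ?_
    have : ∑ i, w s i ^ 2 = lam ^ 2 * ∑ i, v s i * v s i := by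
      simp only [w, Finset.mul_sum]; exact Finset.sum_congr rfl fun i _ => by ring
    rw [this]
    nlinarith [mul_le_mul_of_nonneg_left (hD s) (sq_nonneg lam)]
  rw [show Real.log M = Real.log (Fintype.card S) + lam ^ 2 * D / 2 from by
    rw [Real.log_mul hcard.ne' (Real.exp_pos _).ne', Real.log_exp]] at *
  linarith

/-- `E⟨R²⟩ ≥ 1 - 2 √(log 2) / β` for every size. -/
theorem Qmean_ge {n : ℕ} (hn : 1 ≤ n) {β : ℝ} (hβ : 0 < β) :
    1 - 2 * Real.sqrt (Real.log 2) / β ≤ Qmean n β := by
  have hn' : (0 : ℝ) < n := by exact_mod_cast hn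
  set c := β / Real.sqrt n
  have hc : c ^ 2 = β ^ 2 / n := coef_sq hn
  set L := Real.sqrt (Real.log 2)
  have hL : 0 < L := Real.sqrt_pos.2 (Real.log_pos one_lt_two)
  have hLL : L * L = Real.log 2 := Real.mul_self_sqrt (Real.log_pos one_lt_two).le
  have hdiag : ∀ a : Conf n, ∑ p, hv n c a p * hv n c a p = β ^ 2 * (n - 1) / 2 := fun a => by
    rw [cov_hv, ov_self, hc]; field_simp
  have h1 := mean_lin_le (hv n c) (lam := 2 * L / β) (by positivity) (D := β ^ 2 * (n - 1) / 2)
    fun a => (hdiag a).le
  have e : ∀ g, ((∑ a, soft (hv n c) g a * ∑ p, hv n c a p * hv n c a p)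
      - ∑ a, ∑ b, soft (hv n c) g a * soft (hv n c) g b * ∑ p, hv n c a p * hv n c b p)
      = β ^ 2 * n / 2 * (1 - Qsq n β g) := fun g => by
    simp only [hdiag, ← Finset.sum_mul, soft_sum, one_mul]
    have h2 : ∑ a, ∑ b, soft (hv n c) g a * soft (hv n c) g b * ∑ p, hv n c a p * hv n c b p
        = β ^ 2 * n / 2 * Qsq n β g - β ^ 2 / 2 := by
      have h3 : ∀ a b, soft (hv n c) g a * soft (hv n c) g b * ∑ p, hv n c a p * hv n c b p
          = β ^ 2 * n / 2 * (mu n β g a * mu n β g b * (ov a b / n) ^ 2)
            - β ^ 2 / 2 * (mu n β g a * mu n β g b) := fun a b => by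
        rw [cov_hv, hc, mu_eq, mu_eq]; field_simp; ring
      simp only [h3, Finset.sum_sub_distrib, ← Finset.mul_sum, mu_sum, mul_one, Qsq]
    rw [h2]; ring
  rw [(mean_lin _).2] at h1
  simp only [e] at h1
  rw [integral_const_mul, integral_sub (integrable_const _) integrable_Qsq] at h1
  simp only [integral_const, probReal_univ, one_smul, Fintype.card_fun, Fintype.card_bool,
    Fintype.card_fin, Nat.cast_pow, Nat.cast_ofNat, Real.log_pow] at h1
  rw [Qmean]
  set Q := ∫ g, Qsq n β g ∂gp (Pair n)
  have e1 : 2 * L / β * (β ^ 2 * n / 2 * (1 - Q)) = L * β * n * (1 - Q) := by field_simp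
  have e2 : (2 * L / β) ^ 2 * (β ^ 2 * (n - 1) / 2) / 2 = L * L * (n - 1) := by field_simp
  rw [e1, e2, ← hLL] at h1
  have h3 : L * n * (β * (1 - Q)) ≤ L * n * (2 * L) := by nlinarith
  have h4 := le_of_mul_le_mul_left h3 (by positivity)
  rw [sub_le_comm, le_div_iff₀ hβ]
  linarith

end Vale.Agent.P150
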