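import Mathlib
import Vale.Agent.P150.Model

/-!
Mixing time from the linear test function, for P150.
-/

open NormedSpace

namespace Vale.Agent.P150

variable {n : ℕ} {β : ℝ} {g : Pair n → ℝ}

/-- The inner product of `L²(μ)`. -/
noncomputable def ip (n : ℕ) (β : ℝ) (g : Pair n → ℝ) (a b : Conf n → ℝ) : ℝ :=
  ∑ x, mu n β g x * a x * b x

theorem ip_comm (a b : Conf n → ℝ) : ip n β g a b = ip n β g b a :=
  Finset.sum_congr rfl fun x _ => by ring

theorem ip_self_nonneg (a : Conf n → ℝ) : 0 ≤ ip n β g a a :=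
  Finset.sum_nonneg fun x _ => by
    rw [mul_assoc]; exact mul_nonneg (mu_pos g x).le (mul_self_nonneg _)

theorem genOp_apply (f : Conf n → ℝ) : genOp n β g f = generator n β g f := rfl

theorem gen_symm (a b : Conf n → ℝ) :
    ip n β g a (genOp n β g b) = ip n β g (genOp n β g a) b := by
  simp only [ip, genOp_apply, generator, Finset.mul_sum, Finset.sum_mul]
  rw [Finset.sum_comm]
  conv_rhs => rw [Finset.sum_comm]
  refine Finset.sum_congr rfl fun i _ => ?_
  have key : ∀ x, mu n β g (flipAt x i) * rate n β g (flipAt x i) i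
      = mu n β g x * rate n β g x i := fun x => by
    simp only [rate, show flipAt (flipAt x i) i = x from flip_involutive i x]
    rw [add_comm (mu n β g (flipAt x i))]
    ring
  have hs : ∑ x, mu n β g x * rate n β g x i * (a x * b (flipAt x i))
      = ∑ x, mu n β g x * rate n β g x i * (a (flipAt x i) * b x) := by
    refine (Equiv.sum_comp (flip_involutive (n := n) i).toPerm _).symm.trans
      (Finset.sum_congr rfl fun x _ => ?_)
    simp only [Function.Involutive.coe_toPerm, key, show flipAt (flipAt x i) i = x from flip_involutive i x]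
  calc ∑ x, mu n β g x * a x * (rate n β g x i * (b (flipAt x i) - b x))
      = ∑ x, mu n β g x * rate n β g x i * (a x * b (flipAt x i))
        - ∑ x, mu n β g x * rate n β g x i * (a x * b x) := by
          rw [← Finset.sum_sub_distrib]; exact Finset.sum_congr rfl fun x _ => by ring
    _ = ∑ x, mu n β g x * (rate n β g x i * (a (flipAt x i) - a x)) * b x := by
          rw [hs, ← Finset.sum_sub_distrib]; exact Finset.sum_congr rfl fun x _ => by ring

theorem semigroup_deriv (f : Conf n → ℝ) (t : ℝ) :
    HasDerivAt (fun s => semigroup n β g s f) (semigroup n β g t (genOp n β g f)) t :=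
  (ContinuousLinearMap.apply ℝ (Conf n → ℝ) f).hasFDerivAt.comp_hasDerivAt t
    (hasDerivAt_exp_smul_const (genOp n β g) t)

theorem semigroup_deriv' (f : Conf n → ℝ) (t : ℝ) :
    HasDerivAt (fun s => semigroup n β g s f) (genOp n β g (semigroup n β g t f)) t :=
  (ContinuousLinearMap.apply ℝ (Conf n → ℝ) f).hasFDerivAt.comp_hasDerivAt t
    (hasDerivAt_exp_smul_const' (genOp n β g) t)

theorem semigroup_zero : semigroup n β g 0 = 1 := by simp [semigroup]

theorem semigroup_commute (f : Conf n → ℝ) (t : ℝ) :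
    semigroup n β g t (genOp n β g f) = genOp n β g (semigroup n β g t f) :=
  (semigroup_deriv f t).unique (semigroup_deriv' f t)

theorem semigroup_add (s t : ℝ) (f : Conf n → ℝ) :
    semigroup n β g (s + t) f = semigroup n β g s (semigroup n β g t f) := by
  have h : semigroup n β g (s + t) = semigroup n β g s * semigroup n β g t := by
    rw [semigroup, semigroup, semigroup, add_smul,
      exp_add_of_commute_of_mem_ball (𝕂 := ℝ) (((Commute.refl (genOp n β g)).smul_left s).smul_right t)
        ((expSeries_radius_eq_top ℝ ((Conf n → ℝ) →L[ℝ] (Conf n → ℝ))).symm ▸ edist_lt_top _ _)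
        ((expSeries_radius_eq_top ℝ ((Conf n → ℝ) →L[ℝ] (Conf n → ℝ))).symm ▸ edist_lt_top _ _)]
  rw [h]; rfl

theorem hasDeriv_ip (a : Conf n → ℝ) {F : ℝ → Conf n → ℝ} {F' : Conf n → ℝ} {t : ℝ}
    (h : HasDerivAt F F' t) : HasDerivAt (fun s => ip n β g a (F s)) (ip n β g a F') t :=
  HasDerivAt.fun_sum fun x _ => (hasDerivAt_pi.1 h x).const_mul (mu n β g x * a x)

theorem semigroup_symm (a b : Conf n → ℝ) (t : ℝ) :
    ip n β g a (semigroup n β g t b) = ip n β g (semigroup n β g t a) b := by
  set ψ := fun s => ∑ x, mu n β g x * semigroup n β g s a x * semigroup n β g (t - s) b x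
  have hd : ∀ s, HasDerivAt ψ 0 s := fun s => by
    have h1 : HasDerivAt (fun r => semigroup n β g (t - r) b)
        (-genOp n β g (semigroup n β g (t - s) b)) s :=
      ((semigroup_deriv' b (t - s)).scomp s ((hasDerivAt_id' s).const_sub t)).congr_deriv (by simp)
    refine ((HasDerivAt.fun_sum (u := Finset.univ) fun x _ =>
      ((hasDerivAt_pi.1 (semigroup_deriv' a s) x).const_mul (mu n β g x)).mul
        (hasDerivAt_pi.1 h1 x)).congr_of_eventuallyEq
          (Filter.Eventually.of_forall fun r => rfl)).congr_deriv ?_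
    have := gen_symm (β := β) (g := g) (semigroup n β g s a) (semigroup n β g (t - s) b)
    simp only [ip] at this
    simp only [Pi.neg_apply, mul_neg, Finset.sum_add_distrib, Finset.sum_neg_distrib]
    linarith
  have := is_const_of_deriv_eq_zero (fun s => (hd s).differentiableAt) (fun s => (hd s).deriv) 0 t
  simpa [ψ, ip, semigroup_zero] using this

theorem semigroup_one (t : ℝ) : semigroup n β g t (fun _ => 1) = fun _ => 1 := by
  have h0 : genOp n β g (fun _ => 1) = 0 := by funext x; simp [genOp_apply, generator]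
  have hd : ∀ s, HasDerivAt (fun r => semigroup n β g r fun _ => 1) 0 s := fun s =>
    (semigroup_deriv _ s).congr_deriv (by rw [h0, map_zero])
  have := is_const_of_deriv_eq_zero (fun s => (hd s).differentiableAt) (fun s => (hd s).deriv) t 0
  simpa [semigroup_zero] using this

theorem semigroup_mean (f : Conf n → ℝ) (t : ℝ) :
    ∑ x, mu n β g x * semigroup n β g t f x = ∑ x, mu n β g x * f x := by
  have := semigroup_symm (β := β) (g := g) (fun _ => 1) f t
  simpa [ip, semigroup_one] using this

theorem dirichlet_eq_ip (f : Conf n → ℝ) :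
    dirichlet n β g f = -ip n β g f (genOp n β g f) := rfl

/-- `⟨f, P_t f⟩ ≥ ⟨f, f⟩ - t D(f)`. -/
theorem decay_lower (f : Conf n → ℝ) {t : ℝ} (ht : 0 ≤ t) :
    ip n β g f f - t * dirichlet n β g f ≤ ip n β g f (semigroup n β g t f) := by
  have h1 : ∀ s, HasDerivAt (fun r => ip n β g f (semigroup n β g r f))
      (ip n β g (genOp n β g f) (semigroup n β g s f)) s := fun s =>
    (hasDeriv_ip f (semigroup_deriv' f s)).congr_deriv (gen_symm _ _)
  have h2 : ∀ s, HasDerivAt (fun r => ip n β g (genOp n β g f) (semigroup n β g r f))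
      (ip n β g (genOp n β g f) (semigroup n β g s (genOp n β g f))) s := fun s =>
    hasDeriv_ip _ (semigroup_deriv f s)
  have h3 : ∀ s, 0 ≤ ip n β g (genOp n β g f) (semigroup n β g s (genOp n β g f)) := fun s => by
    rw [← add_halves s, semigroup_add, semigroup_symm]
    exact ip_self_nonneg _
  have m1 := monotone_of_hasDerivAt_nonneg h2 h3
  have h4 : ∀ s, 0 ≤ s → -dirichlet n β g f ≤ ip n β g (genOp n β g f) (semigroup n β g s f) :=
    fun s hs => by
    refine le_trans (le_of_eq ?_) (m1 hs)
    simp [dirichlet_eq_ip, semigroup_zero, ip_comm]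
  have h5 : ∀ s, HasDerivAt (fun r => ip n β g f (semigroup n β g r f) + r * dirichlet n β g f)
      (ip n β g (genOp n β g f) (semigroup n β g s f) + 1 * dirichlet n β g f) s := fun s =>
    (h1 s).add ((hasDerivAt_id' s).mul_const _)
  have m2 := monotoneOn_of_hasDerivWithinAt_nonneg (convex_Ici (0 : ℝ))
    (fun s _ => (h5 s).continuousAt.continuousWithinAt) (fun s _ => (h5 s).hasDerivWithinAt)
    (fun s hs => by linarith [h4 s (interior_subset hs : s ∈ Set.Ici (0 : ℝ))])
    Set.self_mem_Ici (Set.mem_Ici.2 ht) ht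
  simp [semigroup_zero] at m2
  linarith

theorem contract {t : ℝ} (hm : MixedBy n β g t) (f : Conf n → ℝ) {B : ℝ}
    (hB : ∀ x, |f x| ≤ B) (h0 : ∑ x, mu n β g x * f x = 0) (x : Conf n) :
    |semigroup n β g t f x| ≤ B / 2 := by
  have e : semigroup n β g t f x = ∑ y, f y * (kernel n β g t x y - mu n β g y) := by
    have hf : f = ∑ y, f y • (Pi.single y (1 : ℝ) : Conf n → ℝ) := by
      funext z; simp [Finset.sum_apply, Pi.single_apply]
    conv_lhs => rw [hf]
    simp only [map_sum, map_smul, Finset.sum_apply, Pi.smul_apply, smul_eq_mul, mul_sub,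
      Finset.sum_sub_distrib, kernel]
    simp only [mul_comm _ (mu n β g _), h0, sub_zero]
  have hB0 : 0 ≤ B := le_trans (abs_nonneg _) (hB x)
  rw [e]
  calc |∑ y, f y * (kernel n β g t x y - mu n β g y)|
      ≤ ∑ y, B * |kernel n β g t x y - mu n β g y| :=
        (Finset.abs_sum_le_sum_abs _ _).trans (Finset.sum_le_sum fun y _ => by
          rw [abs_mul]; exact mul_le_mul_of_nonneg_right (hB y) (abs_nonneg _))
    _ = B * ∑ y, |kernel n β g t x y - mu n β g y| := (Finset.mul_sum _ _ B).symm
    _ ≤ B / 2 := by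
        have h := hm x
        nlinarith

/-- Mixing takes time linear in `n` when the overlap is not small. -/
theorem mix_ge (hn : 1 ≤ n) {a : ℝ} (ha : 0 < a) (hQ : a ≤ Qsq n β g) {k : ℕ} (hk : (1 / 2) ^ k ≤ a / 2)
    {t : ℝ} (ht : 0 ≤ t) (hm : MixedBy n β g t) : a * n / (2 * (k + 1)) ≤ t := by
  have hn' : (0 : ℝ) < n := by exact_mod_cast hn
  obtain ⟨v, hv⟩ := exists_test g hn hQ
  set f := ov v
  have hneg : ∀ x, f (negConf x) = -f x := fun x => by simp [f, ov, negConf, spin_not]
  have h0 : ∑ x, mu n β g x * f x = 0 := mean_zero g f hneg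
  have hV : gibbsVar n β g f = ip n β g f f := by
    rw [gibbsVar, h0, ip]; simp [pow_two, mul_assoc]
  have it : ∀ j : ℕ, (∀ x, |semigroup n β g (j * t) f x| ≤ n * (1 / 2) ^ j) ∧
      ∑ x, mu n β g x * semigroup n β g (j * t) f x = 0 := fun j => by
    induction j with
    | zero => exact ⟨fun x => by simpa [semigroup_zero] using abs_ov_le v x,
        by simpa [semigroup_zero] using h0⟩
    | succ j ih =>
      refine ⟨fun x => ?_, by rw [semigroup_mean]; exact h0⟩
      rw [Nat.cast_succ, show ((j : ℝ) + 1) * t = t + j * t by ring, semigroup_add]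
      exact (contract hm _ ih.1 ih.2 x).trans_eq (by ring)
  have up : ip n β g f (semigroup n β g (((k + 1 : ℕ) : ℝ) * t) f) ≤ n ^ 2 * (a / 2) := by
    have hpow : (1 / 2 : ℝ) ^ (k + 1) ≤ a / 2 :=
      le_trans (pow_le_pow_of_le_one (by norm_num) (by norm_num) (Nat.le_succ k)) hk
    refine (Finset.sum_le_sum (g := fun x => mu n β g x * (n ^ 2 * (a / 2))) fun x _ => ?_).trans_eq
      (by rw [← Finset.sum_mul, mu_sum, one_mul])
    rw [mul_assoc]
    refine mul_le_mul_of_nonneg_left ((le_abs_self _).trans ?_) (mu_pos g x).le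
    rw [abs_mul, pow_two, mul_assoc]
    exact mul_le_mul (abs_ov_le v x) (((it (k + 1)).1 x).trans (mul_le_mul_of_nonneg_left hpow hn'.le))
      (abs_nonneg _) hn'.le
  have lo := decay_lower (β := β) (g := g) f (t := ((k + 1 : ℕ) : ℝ) * t) (by positivity)
  have hD := dirichlet_ov (β := β) g v
  rw [hV] at hv
  push_cast at lo up
  have hk1 : 0 ≤ ((k : ℝ) + 1) * t := by positivity
  have := mul_le_mul_of_nonneg_left hD hk1
  rw [div_le_iff₀ (by positivity)]
  have h6 : (n : ℝ) * (n * a) ≤ n * (t * (2 * (k + 1))) := by nlinarith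
  have h7 := le_of_mul_le_mul_left h6 hn'
  linarith

end Vale.Agent.P150
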