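import Mathlib
import Vale.Agent.P150.Cavity

/-!
Superadditivity and the limit of the mean log partition function per spin, for P150.
-/

open MeasureTheory ProbabilityTheory Filter Topology

namespace Vale.Agent.P150

variable {β : ℝ}

/-- Two independent systems. -/
noncomputable def joinVec (n m : ℕ) (β : ℝ) (a : Conf n × Conf m) : Pair n ⊕ Pair m → ℝ :=
  Sum.elim (hv n (β / Real.sqrt n) a.1) (hv m (β / Real.sqrt m) a.2)

theorem EL_join (n m : ℕ) (β : ℝ) : EL (joinVec n m β) = meanLogZ n β + meanLogZ m β := by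
  set v := hv n (β / Real.sqrt n)
  set w := hv m (β / Real.sqrt m)
  have h : ∀ g : Pair n ⊕ Pair m → ℝ, lse (joinVec n m β) g
      = lse v (fun i => g (Sum.inl i)) + lse w (fun i => g (Sum.inr i)) := fun g => by
    rw [lse, lse, lse, ← Real.log_mul (lse_den_pos v _).ne' (lse_den_pos w _).ne', Finset.sum_mul_sum,
      Fintype.sum_prod_type]
    refine congrArg Real.log (Finset.sum_congr rfl fun a _ => Finset.sum_congr rfl fun b _ => ?_)
    rw [← Real.exp_add]
    simp [lin, joinVec, Fintype.sum_sum_type, v, w]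
  have h1 := mp_fst (ι := Pair n) (κ := Pair m)
  have h2 := mp_snd (ι := Pair n) (κ := Pair m)
  have i1 : Integrable (fun g : Pair n ⊕ Pair m → ℝ => lse v fun i => g (Sum.inl i))
      (gp (Pair n ⊕ Pair m)) :=
    (h1.integrable_comp (continuous_lse v).aestronglyMeasurable).2 (integrable_lse v)
  have i2 : Integrable (fun g : Pair n ⊕ Pair m → ℝ => lse w fun i => g (Sum.inr i))
      (gp (Pair n ⊕ Pair m)) :=
    (h2.integrable_comp (continuous_lse w).aestronglyMeasurable).2 (integrable_lse w)
  have e1 : ∫ g, lse v (fun i => g (Sum.inl i)) ∂gp (Pair n ⊕ Pair m) = meanLogZ n β := by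
    rw [meanLogZ, EL]
    conv_rhs => rw [← h1.map_eq, integral_map h1.measurable.aemeasurable
      (continuous_lse v).aestronglyMeasurable]
  have e2 : ∫ g, lse w (fun i => g (Sum.inr i)) ∂gp (Pair n ⊕ Pair m) = meanLogZ m β := by
    rw [meanLogZ, EL]
    conv_rhs => rw [← h2.map_eq, integral_map h2.measurable.aemeasurable
      (continuous_lse w).aestronglyMeasurable]
  rw [EL]
  simp only [h]
  rw [integral_add i1 i2, e1, e2]

theorem meanLogZ_zero : meanLogZ 0 β = 0 := by
  have : IsEmpty (Pair 0) := ⟨fun p => p.1.1.elim0⟩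
  simp [meanLogZ, EL, lse, lin]

/-- Guerra–Toninelli superadditivity. -/
theorem meanLogZ_super (n m : ℕ) : meanLogZ n β + meanLogZ m β ≤ meanLogZ (n + m) β := by
  rcases Nat.eq_zero_or_pos n with rfl | hn
  · simp [meanLogZ_zero]
  rcases Nat.eq_zero_or_pos m with rfl | hm
  · simp [meanLogZ_zero]
  have hn' : (0 : ℝ) < n := by exact_mod_cast hn
  have hm' : (0 : ℝ) < m := by exact_mod_cast hm
  set c := β / Real.sqrt ((n + m : ℕ) : ℝ)
  have hov : ∀ a b : Conf n × Conf m, ov (Fin.appendEquiv n m a) (Fin.appendEquiv n m b)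
      = ov a.1 b.1 + ov a.2 b.2 := fun a b => by
    simp [ov, Fin.sum_univ_add, Fin.appendEquiv]
  have hcov : ∀ a b : Conf n × Conf m,
      ∑ i, joinVec n m β a i * joinVec n m β b i
        - ∑ j, (hv (n + m) c ∘ Fin.appendEquiv n m) a j * (hv (n + m) c ∘ Fin.appendEquiv n m) b j
      = β ^ 2 / 2 * (ov a.1 b.1 ^ 2 / n + ov a.2 b.2 ^ 2 / m - (ov a.1 b.1 + ov a.2 b.2) ^ 2 / (n + m))
        - β ^ 2 / 2 := fun a b => by
    simp only [Function.comp, cov_hv, hov, Fintype.sum_sum_type, joinVec, Sum.elim_inl, Sum.elim_inr,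
      c, coef_sq (show 1 ≤ n + m by omega), coef_sq (show 1 ≤ n from hn), coef_sq (show 1 ≤ m from hm)]
    push_cast
    field_simp
    ring
  have h := compare (joinVec n m β) (hv (n + m) c ∘ Fin.appendEquiv n m) (-(β ^ 2 / 2)) (-(β ^ 2 / 2))
    (fun a => by
      rw [hcov, ov_self, ov_self]
      field_simp
      ring_nf
      exact le_refl _)
    (fun a b => by
      rw [hcov]
      have e : ov a.1 b.1 ^ 2 / n + ov a.2 b.2 ^ 2 / m - (ov a.1 b.1 + ov a.2 b.2) ^ 2 / (n + m)
          = (ov a.1 b.1 * m - ov a.2 b.2 * n) ^ 2 / (n * m * (n + m)) := by field_simp; ring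
      have : 0 ≤ β ^ 2 / 2 * (ov a.1 b.1 ^ 2 / n + ov a.2 b.2 ^ 2 / m
          - (ov a.1 b.1 + ov a.2 b.2) ^ 2 / (n + m)) := by rw [e]; positivity
      linarith)
  rw [EL_join] at h
  have : EL (hv (n + m) c ∘ Fin.appendEquiv n m) = meanLogZ (n + m) β := by
    unfold meanLogZ EL lse
    congr 1; funext g
    congr 1
    exact Equiv.sum_comp (Fin.appendEquiv n m) fun x => Real.exp (lin (hv (n + m) c x) g)
  linarith

/-- The pressure exists. -/
theorem meanLogZ_tendsto (β : ℝ) : ∃ P, Tendsto (fun n => meanLogZ n β / n) atTop (𝓝 P) := by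
  have hsub : Subadditive fun n => -meanLogZ n β := fun n m => by
    have := meanLogZ_super (β := β) n m
    dsimp
    linarith
  have hb : BddBelow (Set.range fun n : ℕ => -meanLogZ n β / n) := by
    refine ⟨min 0 (-(Real.log 2 + β ^ 2 / 4)), ?_⟩
    rintro _ ⟨n, rfl⟩
    rcases Nat.eq_zero_or_pos n with rfl | hn
    · simp [meanLogZ_zero]
    refine le_trans (min_le_right _ _) ?_
    have hn' : (0 : ℝ) < n := by exact_mod_cast hn
    have := meanLogZ_le (β := β) hn (le_refl (0 : ℝ))
    simp at this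
    rw [le_div_iff₀ hn']
    linarith
  refine ⟨-hsub.lim, ?_⟩
  have h := (hsub.tendsto_lim hb).neg
  refine h.congr fun n => ?_
  rw [neg_div, neg_neg]

/-- Weighted energy. -/
noncomputable def energyMean (n : ℕ) (β : ℝ) (g : Pair n → ℝ) : ℝ :=
  ∑ a, mu n β g a * energy n β g a

theorem jensen_lse {S ι : Type*} [Fintype ι] [Fintype S] [Nonempty S] (v w : S → ι → ℝ) (g : ι → ℝ) :
    ∑ a, soft v g a * (lin (w a) g - lin (v a) g) ≤ lse w g - lse v g := by
  set d := fun a => lin (w a) g - lin (v a) g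
  set s := ∑ a, soft v g a * d a
  have h2 : Real.exp s * ∑ a, Real.exp (lin (v a) g) ≤ ∑ a, Real.exp (lin (w a) g) := by
    have h3 : ∀ a, Real.exp s * (Real.exp (lin (v a) g) * (d a - s + 1)) ≤ Real.exp (lin (w a) g) :=
      fun a => by
      have : Real.exp (lin (w a) g) = Real.exp s * (Real.exp (lin (v a) g) * Real.exp (d a - s)) := by
        rw [← Real.exp_add, ← Real.exp_add]; congr 1; simp only [d]; ring
      rw [this]
      exact mul_le_mul_of_nonneg_left (mul_le_mul_of_nonneg_left (Real.add_one_le_exp _)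
        (Real.exp_pos _).le) (Real.exp_pos _).le
    refine (le_of_eq ?_).trans ((Finset.sum_le_sum fun a _ => h3 a))
    have hz := lse_den_pos v g
    have h4 : ∑ a, Real.exp (lin (v a) g) * d a = s * ∑ a, Real.exp (lin (v a) g) := by
      simp only [s, soft, Finset.sum_mul]
      exact Finset.sum_congr rfl fun a _ => by field_simp
    rw [← Finset.mul_sum]
    congr 1
    simp only [mul_add, mul_sub, Finset.sum_add_distrib, Finset.sum_sub_distrib, h4, ← Finset.sum_mul,
      mul_one]
    ring
  have := Real.log_le_log (mul_pos (Real.exp_pos s) (lse_den_pos v g)) h2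
  rw [Real.log_mul (Real.exp_pos s).ne' (lse_den_pos v g).ne', Real.log_exp] at this
  simp only [lse]
  linarith

theorem energy_scale (n : ℕ) (hβ : β ≠ 0) (t : ℝ) (g : Pair n → ℝ) (a : Conf n) :
    energy n t g a = t / β * energy n β g a := by
  simp only [energy]; field_simp

theorem lse_eq_energy (n : ℕ) (t : ℝ) (g : Pair n → ℝ) (a : Conf n) :
    lin (hv n (t / Real.sqrt n) a) g = energy n t g a := (energy_eq n t g a).symm

/-- Convexity of the log partition function in the inverse temperature. -/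
theorem tangent (n : ℕ) (hβ : 0 < β) (t : ℝ) (g : Pair n → ℝ) :
    (t / β - 1) * energyMean n β g
      ≤ lse (hv n (t / Real.sqrt n)) g - lse (hv n (β / Real.sqrt n)) g := by
  refine le_trans (le_of_eq ?_) (jensen_lse (hv n (β / Real.sqrt n)) (hv n (t / Real.sqrt n)) g)
  simp only [energyMean, Finset.mul_sum, ← mu_eq, lse_eq_energy, energy_scale n hβ.ne' t g]
  exact Finset.sum_congr rfl fun a _ => by ring

end Vale.Agent.P150
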