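import Mathlib
import Vale.Agent.P150.Energy
import Vale.Agent.P150.Limit

/-!
Gaussian integration by parts weighted by `exp (-k Q)`, for P150.
-/

open MeasureTheory ProbabilityTheory

namespace Vale.Agent.P150

variable {n : ℕ} {β : ℝ}

/-- Mean squared overlap with a fixed configuration. -/
noncomputable def qx (n : ℕ) (β : ℝ) (g : Pair n → ℝ) (x : Conf n) : ℝ :=
  ∑ y, mu n β g y * (ov x y / n) ^ 2

theorem Qsq_eq (g : Pair n → ℝ) : Qsq n β g = ∑ x, mu n β g x * qx n β g x := by
  simp only [Qsq, qx, Finset.mul_sum, mul_assoc]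

/-- `q(x)² ≤ Q`. -/
theorem qx_sq_le (g : Pair n → ℝ) (x : Conf n) : qx n β g x ^ 2 ≤ Qsq n β g := by
  classical
  rcases Nat.eq_zero_or_pos n with rfl | hn
  · simp [qx, Qsq]
  have hn' : (0 : ℝ) < n := by exact_mod_cast hn
  set M : Fin n × Fin n → ℝ := fun p => ∑ y, mu n β g y * (spin (y p.1) * spin (y p.2))
  have hov : ∀ a b : Conf n, (ov a b / n) ^ 2 * n ^ 2
      = ∑ p : Fin n × Fin n, (spin (a p.1) * spin (a p.2)) * (spin (b p.1) * spin (b p.2)) := fun a b => by
    rw [← mul_pow, div_mul_cancel₀ _ hn'.ne', pow_two, ov, Finset.sum_mul_sum, Fintype.sum_prod_type]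
    exact Finset.sum_congr rfl fun i _ => Finset.sum_congr rfl fun j _ => by ring
  have e1 : qx n β g x * n ^ 2 = ∑ p : Fin n × Fin n, (spin (x p.1) * spin (x p.2)) * M p := by
    simp only [qx, Finset.sum_mul, mul_assoc (mu n β g _), hov, M]
    simp only [Finset.mul_sum]
    rw [Finset.sum_comm]
    exact Finset.sum_congr rfl fun p _ => Finset.sum_congr rfl fun y _ => by ring
  have e2 : ∑ p, M p ^ 2 = n ^ 2 * Qsq n β g := by
    rw [mul_comm]
    simp only [Qsq, Finset.sum_mul, mul_assoc (mu n β g _ * mu n β g _), hov, M, pow_two (∑ _, _)]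
    simp only [Finset.mul_sum, Finset.sum_mul]
    rw [Finset.sum_comm]
    refine Finset.sum_congr rfl fun a _ => ?_
    rw [Finset.sum_comm]
    exact Finset.sum_congr rfl fun b _ => Finset.sum_congr rfl fun p _ => by ring
  have e3 : ∑ p : Fin n × Fin n, (spin (x p.1) * spin (x p.2)) ^ 2 = (n : ℝ) ^ 2 := by
    have : ∀ b, spin b ^ 2 = 1 := fun b => by rw [pow_two, spin_sq]
    simp [mul_pow, this]; ring
  have h := Finset.sum_mul_sq_le_sq_mul_sq Finset.univ
    (fun p : Fin n × Fin n => spin (x p.1) * spin (x p.2)) M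
  rw [← e1, e2, e3] at h
  have h4 : (n : ℝ) ^ 4 * qx n β g x ^ 2 ≤ (n : ℝ) ^ 4 * Qsq n β g := by linarith
  exact le_of_mul_le_mul_left h4 (by positivity)

theorem hasDeriv_Qsq (g : Pair n → ℝ) (p : Pair n) :
    HasDerivAt (fun r => Qsq n β (Function.update g p r))
      (2 * ∑ x, mu n β g x * qx n β g x * (hv n (β / Real.sqrt n) x p
        - ∑ s, mu n β g s * hv n (β / Real.sqrt n) s p)) (g p) := by
  classical
  set c := β / Real.sqrt n
  set d := fun x => mu n β g x * (hv n c x p - ∑ s, mu n β g s * hv n c s p)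
  have hmu : ∀ x, HasDerivAt (fun r => mu n β (Function.update g p r) x) (d x) (g p) := fun x => by
    simp only [mu_eq, d]
    exact hasDeriv_soft_update (hv n c) g p x
  have h : HasDerivAt (fun r => Qsq n β (Function.update g p r))
      (∑ x, ∑ y, (d x * mu n β g y + mu n β g x * d y) * (ov x y / n) ^ 2) (g p) := by
    unfold Qsq
    refine HasDerivAt.fun_sum fun x _ => HasDerivAt.fun_sum fun y _ => ?_
    refine (((hmu x).mul (hmu y)).mul_const ((ov x y / n) ^ 2)).congr_deriv ?_
    simp only [Function.update_eq_self]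
  refine h.congr_deriv ?_
  have sym : ∀ x y : Conf n, ov x y = ov y x := fun x y => by simp [ov, mul_comm]
  simp only [add_mul, Finset.sum_add_distrib]
  rw [two_mul]
  congr 1
  · refine Finset.sum_congr rfl fun x _ => ?_
    simp only [qx, d, Finset.mul_sum, Finset.sum_mul]
    exact Finset.sum_congr rfl fun y _ => by ring
  · rw [Finset.sum_comm]
    refine Finset.sum_congr rfl fun x _ => ?_
    simp only [qx, d, Finset.mul_sum, Finset.sum_mul]
    exact Finset.sum_congr rfl fun y _ => by rw [sym x y]; ring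

theorem abs_hv_le (c : ℝ) (x : Conf n) (p : Pair n) : |hv n c x p| ≤ |c| := by
  simp [hv, abs_mul, abs_spin]

theorem sum_mean_dot (hn : 1 ≤ n) (g : Pair n → ℝ) (x : Conf n) :
    ∑ p, (∑ s, mu n β g s * hv n (β / Real.sqrt n) s p) * hv n (β / Real.sqrt n) x p
      = β ^ 2 / 2 * (n * qx n β g x - 1) := by
  have hn' : (0 : ℝ) < n := by exact_mod_cast hn
  simp only [Finset.sum_mul, mul_assoc]
  rw [Finset.sum_comm]
  simp only [← Finset.mul_sum, cov_hv, coef_sq hn, qx]
  have sym : ∀ x y : Conf n, ov x y = ov y x := fun x y => by simp [ov, mul_comm]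
  have : ∀ s, mu n β g s * (β ^ 2 / n * ((ov s x ^ 2 - n) / 2))
      = β ^ 2 / 2 * (n * (mu n β g s * (ov x s / n) ^ 2) - mu n β g s) := fun s => by
    rw [sym s x]; field_simp
  simp only [this, ← Finset.mul_sum, Finset.sum_sub_distrib, mu_sum]

theorem sum_mean_sq (hn : 1 ≤ n) (g : Pair n → ℝ) :
    ∑ p, (∑ s, mu n β g s * hv n (β / Real.sqrt n) s p) ^ 2
      = β ^ 2 / 2 * (n * Qsq n β g - 1) := by
  have : ∑ p, (∑ s, mu n β g s * hv n (β / Real.sqrt n) s p) ^ 2
      = ∑ x, mu n β g x * ∑ p, (∑ s, mu n β g s * hv n (β / Real.sqrt n) s p)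
          * hv n (β / Real.sqrt n) x p := by
    simp only [Finset.mul_sum]
    rw [Finset.sum_comm]
    refine Finset.sum_congr rfl fun p _ => ?_
    rw [pow_two, Finset.mul_sum]
    exact Finset.sum_congr rfl fun x _ => by ring
  rw [this]
  simp only [sum_mean_dot hn]
  have : ∀ x, mu n β g x * (β ^ 2 / 2 * (n * qx n β g x - 1))
      = β ^ 2 / 2 * (n * (mu n β g x * qx n β g x) - mu n β g x) := fun x => by ring
  simp only [this, ← Finset.mul_sum, Finset.sum_sub_distrib, mu_sum, ← Qsq_eq]

/-- The weight. -/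
noncomputable def wgt (n : ℕ) (β k : ℝ) (g : Pair n → ℝ) : ℝ := Real.exp (-k * Qsq n β g)

theorem wgt_le_one {k : ℝ} (hk : 0 ≤ k) (g : Pair n → ℝ) : wgt n β k g ≤ 1 :=
  Real.exp_le_one_iff.2 (by nlinarith [Qsq_nonneg (β := β) g])

@[fun_prop]
theorem continuous_wgt (k : ℝ) : Continuous (wgt n β k) := by unfold wgt; fun_prop

@[fun_prop]
theorem continuous_qx (x : Conf n) : Continuous fun g => qx n β g x := by unfold qx; fun_prop

@[fun_prop]
theorem continuous_energyMean : Continuous (energyMean n β) := by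
  unfold energyMean energy; fun_prop

theorem qx_mem (g : Pair n → ℝ) (x : Conf n) : qx n β g x ∈ Set.Icc (0 : ℝ) 1 := by
  have h : ∀ y : Conf n, (ov x y / n) ^ 2 ≤ 1 := fun y => by
    rw [sq_le_one_iff_abs_le_one, abs_div, Nat.abs_cast]
    exact div_le_one_of_le₀ (abs_ov_le x y) (Nat.cast_nonneg n)
  exact ⟨Finset.sum_nonneg fun y _ => mul_nonneg (mu_pos g y).le (sq_nonneg _),
    (Finset.sum_le_sum fun y _ => mul_le_of_le_one_right (mu_pos g y).le (h y)).trans_eq (mu_sum g)⟩

/-- The weighted energy identity. -/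
theorem weighted_energy (hn : 1 ≤ n) {k : ℝ} (hk : 0 ≤ k) :
    Integrable (fun g => wgt n β k g * energyMean n β g) (gp (Pair n)) ∧
    ∫ g, wgt n β k g * energyMean n β g ∂gp (Pair n)
      = ∫ g, wgt n β k g * (β ^ 2 * n / 2 * (1 - Qsq n β g)
          - k * (β ^ 2 * n) * (∑ x, mu n β g x * qx n β g x ^ 2 - Qsq n β g ^ 2)) ∂gp (Pair n) := by
  classical
  set v := hv n (β / Real.sqrt n)
  have hw1 : ∀ g, |wgt n β k g| ≤ 1 := fun g => by
    rw [wgt, abs_of_pos (Real.exp_pos _)]; exact wgt_le_one hk g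
  have hp : ∀ g a, |mu n β g a| ≤ 1 := fun g a => by
    rw [mu_eq, abs_of_nonneg (soft_nonneg _ _ _)]; exact soft_le_one _ _ _
  set D : (Pair n → ℝ) → Pair n → ℝ := fun g i =>
    2 * ∑ x, mu n β g x * qx n β g x * (v x i - ∑ s, mu n β g s * v s i)
  set F' : Conf n → Pair n → (Pair n → ℝ) → ℝ := fun a i g =>
    wgt n β k g * (-k * D g i) * mu n β g a
      + wgt n β k g * (mu n β g a * (v a i - ∑ s, mu n β g s * v s i))
  have i1 : ∀ a i, Integrable (fun g => g i * (wgt n β k g * mu n β g a)) (gp (Pair n)) := fun a i =>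
    (integrable_coord i).norm.mono' (Continuous.aestronglyMeasurable (by fun_prop))
      (ae_of_all _ fun g => by
        rw [Real.norm_eq_abs, Real.norm_eq_abs, abs_mul, abs_mul]
        exact mul_le_of_le_one_right (abs_nonneg (g i)) (mul_le_one₀ (hw1 g) (abs_nonneg _) (hp g a)))
  have hDb : ∀ g i, |D g i| ≤ 2 * (Fintype.card (Conf n) * (2 * |β / Real.sqrt n|)) := fun g i => by
    simp only [D, abs_mul, abs_two]
    refine mul_le_mul_of_nonneg_left ?_ zero_le_two
    refine (Finset.abs_sum_le_sum_abs _ _).trans ((Finset.sum_le_sum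
      (g := fun _ => 2 * |β / Real.sqrt n|) fun x _ => ?_).trans_eq (by simp))
    rw [abs_mul, abs_mul, two_mul]
    have hq : |qx n β g x| ≤ 1 := by rw [abs_of_nonneg (qx_mem g x).1]; exact (qx_mem g x).2
    refine (mul_le_of_le_one_left (abs_nonneg _) (mul_le_one₀ (hp g x) (abs_nonneg _) hq)).trans
      ((abs_sub _ _).trans (add_le_add (abs_hv_le _ x i) ?_))
    refine (Finset.abs_sum_le_sum_abs _ _).trans ((Finset.sum_le_sum
      (g := fun s => mu n β g s * |β / Real.sqrt n|) fun s _ => ?_).trans_eq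
        (by rw [← Finset.sum_mul, mu_sum, one_mul]))
    rw [abs_mul, abs_of_pos (mu_pos g s)]
    exact mul_le_mul_of_nonneg_left (abs_hv_le _ s i) (mu_pos g s).le
  have hm : ∀ g a i, |v a i - ∑ s, mu n β g s * v s i| ≤ 2 * |β / Real.sqrt n| := fun g a i => by
    rw [two_mul]
    refine (abs_sub _ _).trans (add_le_add (abs_hv_le _ a i) ?_)
    refine (Finset.abs_sum_le_sum_abs _ _).trans ((Finset.sum_le_sum
      (g := fun s => mu n β g s * |β / Real.sqrt n|) fun s _ => ?_).trans_eq
        (by rw [← Finset.sum_mul, mu_sum, one_mul]))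
    rw [abs_mul, abs_of_pos (mu_pos g s)]
    exact mul_le_mul_of_nonneg_left (abs_hv_le _ s i) (mu_pos g s).le
  have i2 : ∀ a i, Integrable (F' a i) (gp (Pair n)) := fun a i =>
    Integrable.of_bound (Continuous.aestronglyMeasurable (by fun_prop))
      (1 * (k * (2 * (Fintype.card (Conf n) * (2 * |β / Real.sqrt n|)))) * 1
        + 1 * (1 * (2 * |β / Real.sqrt n|)))
      (ae_of_all _ fun g => by
        rw [Real.norm_eq_abs]
        refine (abs_add_le _ _).trans (add_le_add ?_ ?_)
        · rw [abs_mul, abs_mul, abs_mul, abs_neg, abs_of_nonneg hk]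
          exact mul_le_mul (mul_le_mul (hw1 g) (mul_le_mul_of_nonneg_left (hDb g i) hk)
            (by positivity) zero_le_one) (hp g a) (abs_nonneg _) (by positivity)
        · rw [abs_mul, abs_mul]
          exact mul_le_mul (hw1 g) (mul_le_mul (hp g a) (hm g a i) (abs_nonneg _) zero_le_one)
            (by positivity) zero_le_one)
  have hd : ∀ a i g, HasDerivAt (fun r => wgt n β k (Function.update g i r) * mu n β (Function.update g i r) a)
      (F' a i g) (g i) := fun a i g => by
    have h1 : HasDerivAt (fun r => wgt n β k (Function.update g i r)) (wgt n β k g * (-k * D g i)) (g i) := by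
      have := ((hasDeriv_Qsq (β := β) g i).const_mul (-k)).exp
      simpa [wgt, Function.update_eq_self, D, v] using this
    have h2 : HasDerivAt (fun r => mu n β (Function.update g i r) a)
        (mu n β g a * (v a i - ∑ s, mu n β g s * v s i)) (g i) := by
      simp only [mu_eq, v]; exact hasDeriv_soft_update _ g i a
    refine (h1.mul h2).congr_deriv ?_
    simp only [F', Function.update_eq_self]
  have hF : ∀ a, Integrable (fun g => wgt n β k g * mu n β g a) (gp (Pair n)) := fun a =>
    Integrable.of_bound (Continuous.aestronglyMeasurable (by fun_prop)) 1 (ae_of_all _ fun g => by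
      rw [Real.norm_eq_abs, abs_mul]; exact mul_le_one₀ (hw1 g) (abs_nonneg _) (hp g a))
  have e : ∀ g, wgt n β k g * energyMean n β g
      = ∑ a, ∑ i, v a i * (g i * (wgt n β k g * mu n β g a)) := fun g => by
    simp only [energyMean, energy_eq, lin, Finset.mul_sum]
    exact Finset.sum_congr rfl fun a _ => Finset.sum_congr rfl fun i _ => by ring
  simp only [e]
  refine ⟨integrable_finsetSum _ fun a _ => integrable_finsetSum _ fun i _ => (i1 a i).const_mul _, ?_⟩
  rw [integral_finsetSum _ fun a _ => integrable_finsetSum _ fun i _ => (i1 a i).const_mul _]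
  simp only [integral_finsetSum _ fun i _ => (i1 _ i).const_mul _, integral_const_mul,
    fun a i => ibp_gen i (hF a) (i2 a i) (i1 a i) (hd a i)]
  simp only [← integral_const_mul, ← integral_finsetSum _ fun i _ => (i2 _ i).const_mul _]
  rw [← integral_finsetSum _ fun a _ => integrable_finsetSum _ fun i _ => (i2 a i).const_mul _]
  refine integral_congr_ae (ae_of_all _ fun g => ?_)
  set m := fun i => ∑ s, mu n β g s * v s i
  have t1 : ∑ a, ∑ i, v a i * (wgt n β k g * (mu n β g a * (v a i - m i)))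
      = wgt n β k g * (β ^ 2 * n / 2 * (1 - Qsq n β g)) := by
    have hn' : (0 : ℝ) < n := by exact_mod_cast hn
    have : ∀ a, ∑ i, v a i * (wgt n β k g * (mu n β g a * (v a i - m i)))
        = wgt n β k g * (mu n β g a * (∑ i, v a i * v a i - ∑ i, m i * v a i)) := fun a => by
      rw [← Finset.sum_sub_distrib, Finset.mul_sum, Finset.mul_sum]
      exact Finset.sum_congr rfl fun i _ => by ring
    simp only [this, m, v, sum_mean_dot hn, cov_hv, ov_self, coef_sq hn, ← Finset.mul_sum]
    congr 1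
    have : ∀ a, mu n β g a * (β ^ 2 / n * (((n : ℝ) ^ 2 - n) / 2) - β ^ 2 / 2 * (n * qx n β g a - 1))
        = β ^ 2 * n / 2 * (mu n β g a - mu n β g a * qx n β g a) := fun a => by field_simp; ring
    simp only [this, ← Finset.mul_sum, Finset.sum_sub_distrib, mu_sum, ← Qsq_eq]
  have t2 : ∑ a, ∑ i, v a i * (wgt n β k g * (-k * D g i) * mu n β g a)
      = -(wgt n β k g * (k * (β ^ 2 * n) * (∑ x, mu n β g x * qx n β g x ^ 2 - Qsq n β g ^ 2))) := by
    have h5 : ∑ a, ∑ i, v a i * (wgt n β k g * (-k * D g i) * mu n β g a)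
        = -(wgt n β k g * k) * ∑ i, m i * D g i := by
      rw [Finset.sum_comm, Finset.mul_sum]
      refine Finset.sum_congr rfl fun i _ => ?_
      simp only [m, Finset.sum_mul, Finset.mul_sum]
      exact Finset.sum_congr rfl fun a _ => by ring
    have h6 : ∑ i, m i * D g i = β ^ 2 * n * (∑ x, mu n β g x * qx n β g x ^ 2 - Qsq n β g ^ 2) := by
      have h7 : ∑ i, m i * D g i
          = 2 * ∑ x, mu n β g x * qx n β g x * (∑ i, m i * v x i - ∑ i, m i ^ 2) := by
        simp only [D, ← Finset.sum_sub_distrib, Finset.mul_sum]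
        rw [Finset.sum_comm]
        refine Finset.sum_congr rfl fun x _ => Finset.sum_congr rfl fun i _ => ?_
        simp only [m]; ring
      rw [h7]
      simp only [m, v, sum_mean_dot hn, sum_mean_sq hn]
      have : ∀ x, mu n β g x * qx n β g x * (β ^ 2 / 2 * (n * qx n β g x - 1)
          - β ^ 2 / 2 * (n * Qsq n β g - 1))
          = β ^ 2 * n / 2 * (mu n β g x * qx n β g x ^ 2 - Qsq n β g * (mu n β g x * qx n β g x)) :=
        fun x => by ring
      simp only [this, ← Finset.mul_sum, Finset.sum_sub_distrib, ← Qsq_eq]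
      ring
    rw [h5, h6]; ring
  show ∑ a, ∑ i, v a i * F' a i g = _
  simp only [F', mul_add, Finset.sum_add_distrib]
  rw [show (∑ a, ∑ i, v a i * (wgt n β k g * (mu n β g a * (v a i - ∑ s, mu n β g s * v s i))))
      = ∑ a, ∑ i, v a i * (wgt n β k g * (mu n β g a * (v a i - m i))) from rfl, t1, t2]
  ring

/-- A high energy forces a small weight. -/
theorem weight_le (hn : 1 ≤ n) {k : ℝ} (hk : 1 ≤ k) :
    β ^ 2 * n / 2 * ∫ g, wgt n β k g ∂gp (Pair n)
      ≤ ∫ g, wgt n β k g * energyMean n β g ∂gp (Pair n) + 2 * β ^ 2 * n / Real.sqrt k := by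
  have hk0 : 0 < k := one_pos.trans_le hk
  have hsk : 0 < Real.sqrt k := Real.sqrt_pos.2 hk0
  obtain ⟨iE, eE⟩ := weighted_energy (β := β) hn hk0.le
  have hw : Integrable (wgt n β k) (gp (Pair n)) :=
    Integrable.of_bound (continuous_wgt k).aestronglyMeasurable 1 (ae_of_all _ fun g => by
      rw [Real.norm_eq_abs, wgt, abs_of_pos (Real.exp_pos _)]; exact wgt_le_one hk0.le g)
  have hbound : ∀ g, β ^ 2 * n / 2 * wgt n β k g - 2 * β ^ 2 * n / Real.sqrt k
      ≤ wgt n β k g * (β ^ 2 * n / 2 * (1 - Qsq n β g)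
        - k * (β ^ 2 * n) * (∑ x, mu n β g x * qx n β g x ^ 2 - Qsq n β g ^ 2)) := fun g => by
    set z := Qsq n β g
    have hz := Qsq_nonneg (β := β) g
    set s := Real.sqrt z
    have hs : 0 ≤ s := Real.sqrt_nonneg _
    have hs2 : s * s = z := Real.mul_self_sqrt hz
    have hw0 : 0 < wgt n β k g := Real.exp_pos _
    have hW : ∑ x, mu n β g x * qx n β g x ^ 2 ≤ s * z := by
      refine (Finset.sum_le_sum (g := fun x => s * (mu n β g x * qx n β g x)) fun x _ => ?_).trans_eq
        (by rw [← Finset.mul_sum, ← Qsq_eq])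
      obtain ⟨h0, -⟩ := qx_mem (β := β) g x
      have h1 : qx n β g x ≤ s := Real.le_sqrt_of_sq_le (qx_sq_le g x)
      rw [mul_left_comm, pow_two]
      exact mul_le_mul_of_nonneg_left (mul_le_mul_of_nonneg_right h1 h0) (mu_pos g x).le
    set u := k * z
    have hu : 0 ≤ u := mul_nonneg hk0.le hz
    set r := Real.sqrt u
    have hr : 0 ≤ r := Real.sqrt_nonneg _
    have hr2 : r * r = u := Real.mul_self_sqrt hu
    have hexp := Real.quadratic_le_exp_of_nonneg hu
    have he : wgt n β k g * Real.exp u = 1 := by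
      rw [wgt, ← Real.exp_add]; simp [u, z]
    have h3 : r * u ≤ Real.exp u := by linarith [sq_nonneg (r - 1), sq_nonneg (u - r)]
    have h4 : u ≤ Real.exp u := by linarith [sq_nonneg u]
    have h5 : wgt n β k g * (r * u) ≤ 1 := he ▸ mul_le_mul_of_nonneg_left h3 hw0.le
    have h6 : wgt n β k g * u ≤ 1 := he ▸ mul_le_mul_of_nonneg_left h4 hw0.le
    have hrs : r = Real.sqrt k * s := Real.sqrt_mul hk0.le z
    have hksq : Real.sqrt k * Real.sqrt k = k := Real.mul_self_sqrt hk0.le
    have h7 : wgt n β k g * (k * (s * z)) ≤ 1 / Real.sqrt k := by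
      rw [le_div_iff₀ hsk]
      refine le_trans (le_of_eq ?_) h5
      rw [hrs]
      simp only [u]
      ring
    have h8 : wgt n β k g * z ≤ 1 / Real.sqrt k := by
      rw [le_div_iff₀ hsk]
      refine le_trans ?_ h6
      rw [mul_assoc]
      refine mul_le_mul_of_nonneg_left ?_ hw0.le
      simp only [u]
      rw [mul_comm z]
      exact mul_le_mul_of_nonneg_right ((le_mul_of_one_le_left hsk.le (Real.one_le_sqrt.2 hk)).trans_eq hksq) hz
    have hb2 : 0 ≤ β ^ 2 * n := by positivity
    have h9 : wgt n β k g * (k * (∑ x, mu n β g x * qx n β g x ^ 2 - z ^ 2)) ≤ 1 / Real.sqrt k := by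
      refine le_trans (mul_le_mul_of_nonneg_left (mul_le_mul_of_nonneg_left ?_ hk0.le) hw0.le) h7
      linarith [sq_nonneg z]
    have h10 := mul_le_mul_of_nonneg_left h9 hb2
    have h11 := mul_le_mul_of_nonneg_left h8 (by positivity : 0 ≤ β ^ 2 * n / 2)
    have e3 : 2 * β ^ 2 * n / Real.sqrt k = 2 * (β ^ 2 * n) * (1 / Real.sqrt k) := by ring
    rw [e3]
    linarith [mul_nonneg hb2 (by positivity : 0 ≤ 1 / Real.sqrt k)]
  have hrhs : Integrable (fun g => wgt n β k g * (β ^ 2 * n / 2 * (1 - Qsq n β g)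
      - k * (β ^ 2 * n) * (∑ x, mu n β g x * qx n β g x ^ 2 - Qsq n β g ^ 2))) (gp (Pair n)) := by
    refine Integrable.of_bound (Continuous.aestronglyMeasurable (by fun_prop))
      (1 * (β ^ 2 * n / 2 + k * (β ^ 2 * n) * 2)) (ae_of_all _ fun g => ?_)
    rw [Real.norm_eq_abs, abs_mul]
    refine mul_le_mul ?_ ?_ (abs_nonneg _) zero_le_one
    · rw [wgt, abs_of_pos (Real.exp_pos _)]; exact wgt_le_one hk0.le g
    have h0 := Qsq_nonneg (β := β) g
    have h1 := Qsq_le_one (β := β) g
    refine (abs_sub _ _).trans (add_le_add ?_ ?_)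
    · rw [abs_mul, abs_of_nonneg (by positivity : 0 ≤ β ^ 2 * n / 2), abs_of_nonneg (by linarith)]
      exact mul_le_of_le_one_right (by positivity) (by linarith)
    · rw [abs_mul, abs_of_nonneg (by positivity : 0 ≤ k * (β ^ 2 * n))]
      refine mul_le_mul_of_nonneg_left ((abs_sub _ _).trans ?_) (by positivity)
      have hA : 0 ≤ ∑ x, mu n β g x * qx n β g x ^ 2 :=
        Finset.sum_nonneg fun x _ => mul_nonneg (mu_pos g x).le (sq_nonneg _)
      have hB : ∑ x, mu n β g x * qx n β g x ^ 2 ≤ 1 :=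
        (Finset.sum_le_sum fun x _ => mul_le_of_le_one_right (mu_pos g x).le
          (pow_le_one₀ (qx_mem g x).1 (qx_mem g x).2)).trans_eq (mu_sum g)
      rw [abs_of_nonneg hA, abs_of_nonneg (sq_nonneg _)]
      nlinarith
  have := integral_mono ((hw.const_mul (β ^ 2 * n / 2)).sub (integrable_const (2 * β ^ 2 * n / Real.sqrt k)))
    hrhs hbound
  simp only [Pi.sub_apply] at this
  rw [integral_sub (hw.const_mul _) (integrable_const _), integral_const_mul, ← eE] at this
  simp only [integral_const, probReal_univ, one_smul] at this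
  linarith

end Vale.Agent.P150
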