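import Mathlib
import Vale.Agent.P150.Energy
import Vale.Agent.P150.Weighted
import Vale.Agent.P150.Conc
import Vale.Agent.P150.Semigroup

/-!
Linearly slow relaxation with probability close to one, for every `β > 1`.
-/

open MeasureTheory ProbabilityTheory Filter Topology

namespace Vale.Agent.P150

variable {β : ℝ}

theorem telescope {τ : ℝ} (hτ : 0 < τ) : ∀ N : ℕ, 1 ≤ N →
    ((N : ℝ) - 1) * (Real.log 2 + β ^ 2 / 4 - τ) + Real.log 2
      - β ^ 2 / 4 * ∑ n ∈ Finset.Ico 1 N, (1 / (n : ℝ))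
      - cavK β / (4 * τ) * ∑ n ∈ Finset.Ico 1 N, Qmean n β ≤ meanLogZ N β := by
  intro N hN
  induction N, hN using Nat.le_induction with
  | base => simp [meanLogZ_one]
  | succ N hN ih =>
    rw [Finset.sum_Ico_succ_top hN, Finset.sum_Ico_succ_top hN]
    have h := cavity_step (β := β) hN hτ
    have e : β ^ 2 / 4 * (1 / (N : ℝ)) = β ^ 2 / (4 * N) := by ring
    push_cast
    rw [mul_add, mul_add, e]
    linarith

theorem harmonic_small {τ : ℝ} (hτ : 0 < τ) :
    ∃ j : ℕ, ∀ N : ℕ, ∑ n ∈ Finset.Ico 1 N, (1 / (n : ℝ)) ≤ τ * N + j := by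
  obtain ⟨j, hj⟩ := exists_nat_gt (1 / τ)
  refine ⟨j, fun N => ?_⟩
  have h : ∀ n ∈ Finset.Ico 1 N, 1 / (n : ℝ) ≤ τ + if n < j then 1 else 0 := fun n hn => by
    have h1 : (1 : ℝ) ≤ n := by exact_mod_cast (Finset.mem_Ico.1 hn).1
    split_ifs with h
    · linarith [(div_le_one (by linarith : (0 : ℝ) < n)).2 h1]
    · have hjn : (j : ℝ) ≤ n := by exact_mod_cast not_lt.1 h
      rw [add_zero, div_le_iff₀ (by linarith)]
      have := (div_lt_iff₀ hτ).1 (lt_of_lt_of_le hj hjn)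
      linarith
  refine (Finset.sum_le_sum h).trans ?_
  rw [Finset.sum_add_distrib, Finset.sum_const, nsmul_eq_mul, Nat.card_Ico, mul_comm]
  refine add_le_add (mul_le_mul_of_nonneg_left (by exact_mod_cast Nat.sub_le N 1) hτ.le) ?_
  rw [Finset.sum_boole]
  have : ((Finset.Ico 1 N).filter fun n => n < j).card ≤ j := by
    refine (Finset.card_le_card fun n hn => ?_).trans_eq (Finset.card_range j)
    exact Finset.mem_range.2 (Finset.mem_filter.1 hn).2
  exact_mod_cast this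

theorem Qmean_mem (n : ℕ) (β : ℝ) : Qmean n β ∈ Set.Icc (0 : ℝ) 1 := by
  refine ⟨integral_nonneg fun g => Qsq_nonneg g, ?_⟩
  refine (integral_mono integrable_Qsq (integrable_const 1) fun g => Qsq_le_one g).trans_eq ?_
  simp

theorem cavK_mono {β t : ℝ} (hβ : 0 ≤ β) (h : β ≤ t) : cavK β ≤ cavK t := by
  unfold cavK
  gcongr

/-- The averaged mean overlap, uniformly on `[β, 2β]`. -/
theorem avg_lower (hβ : 1 < β) : ∃ a : ℝ, 0 < a ∧ a ≤ 1 ∧ ∀ t ∈ Set.Icc β (2 * β),
    ∀ᶠ N : ℕ in atTop, a * N ≤ ∑ n ∈ Finset.Ico 1 N, Qmean n t := by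
  have hβ0 : 0 < β := by linarith
  have h1 : 0 < β ^ 2 - 1 := by nlinarith
  set q := β ^ 2 * (β ^ 2 - 1) / 4 / (2 * ((2 * β) ^ 6 / 3)) with hq
  have hq0 : 0 < q := by positivity
  set δ := q ^ 2 * (β ^ 2 * (β ^ 2 - 1) / 4 / 2) with hδdef
  have hδ : 0 < δ := by positivity
  set τ := δ / (4 * (1 + (2 * β) ^ 2)) with hτdef
  have hτ : 0 < τ := by positivity
  have hK : 0 < cavK (2 * β) := by unfold cavK; positivity
  obtain ⟨j, hj⟩ := harmonic_small hτ
  refine ⟨min (2 * τ * δ / cavK (2 * β)) 1, lt_min (by positivity) one_pos, min_le_right _ _,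
    fun t ht => ?_⟩
  obtain ⟨ht1, ht2⟩ := ht
  have ht0 : 0 < t := by linarith
  have hrs : (∫ z, Real.log (Real.cosh (t * Real.sqrt q * z)) ∂gaussianReal 0 1)
      + t ^ 2 * (1 - q) ^ 2 / 4 ≤ t ^ 2 / 4 - δ := by
    have h := integral_log_cosh_le (t * Real.sqrt q)
    have e2 : (t * Real.sqrt q) ^ 2 = t ^ 2 * q := by rw [mul_pow, Real.sq_sqrt hq0.le]
    rw [show (t * Real.sqrt q) ^ 4 = ((t * Real.sqrt q) ^ 2) ^ 2 by ring,
      show (t * Real.sqrt q) ^ 6 = ((t * Real.sqrt q) ^ 2) ^ 3 by ring, e2] at h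
    have hk : (2 * β) ^ 6 / 3 * q = β ^ 2 * (β ^ 2 - 1) / 4 / 2 := by
      rw [hq]; field_simp
    have hsq : β ^ 2 ≤ t ^ 2 := pow_le_pow_left₀ hβ0.le ht1 2
    have h6 : t ^ 6 ≤ (2 * β) ^ 6 := pow_le_pow_left₀ ht0.le ht2 6
    have h7 : β ^ 2 * (β ^ 2 - 1) ≤ t ^ 2 * (t ^ 2 - 1) :=
      mul_le_mul hsq (by linarith) h1.le (by positivity)
    have h8 := mul_le_mul_of_nonneg_left h7 (sq_nonneg q)
    have h9 := mul_le_mul_of_nonneg_left h6 (pow_nonneg hq0.le 3)
    linear_combination h + h8 / 4 + h9 / 3 + q ^ 2 * hk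
  set C := t ^ 2 / 4 + t ^ 2 / 4 * j
  filter_upwards [eventually_ge_atTop (max 1 ⌈4 * C / δ⌉₊)] with N hN
  have hN1 : 1 ≤ N := le_trans (le_max_left _ _) hN
  have hN4 : 4 * C / δ ≤ (N : ℝ) :=
    (Nat.le_ceil _).trans (by exact_mod_cast le_trans (le_max_right _ _) hN)
  rw [div_le_iff₀ hδ] at hN4
  have h1' := telescope (β := t) hτ N hN1
  have h2 := meanLogZ_le (β := t) hN1 hq0.le
  have h3 := mul_le_mul_of_nonneg_left (hj N) (by positivity : 0 ≤ t ^ 2 / 4)
  have hN0 : (0 : ℝ) ≤ N := Nat.cast_nonneg N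
  have h4 := mul_le_mul_of_nonneg_left hrs hN0
  set S := ∑ n ∈ Finset.Ico 1 N, Qmean n t
  have hS : 0 ≤ S := Finset.sum_nonneg fun n _ => (Qmean_mem n t).1
  have h5 : τ * (1 + t ^ 2 / 4) ≤ δ / 4 := by
    have : t ^ 2 ≤ (2 * β) ^ 2 := pow_le_pow_left₀ ht0.le ht2 2
    refine (mul_le_mul_of_nonneg_left (by linarith [sq_nonneg (2 * β)] : 1 + t ^ 2 / 4 ≤ 1 + (2 * β) ^ 2)
      hτ.le).trans_eq ?_
    rw [hτdef]; field_simp
  have h5' := mul_le_mul_of_nonneg_left h5 hN0
  have h6 : δ / 2 * N ≤ cavK t / (4 * τ) * S := by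
    linarith only [h1', h2, h3, h4, h5', hN4, hτ, show C = t ^ 2 / 4 + t ^ 2 / 4 * j from rfl]
  have hK' : cavK t ≤ cavK (2 * β) := cavK_mono ht0.le ht2
  have h7 : δ / 2 * N ≤ cavK (2 * β) / (4 * τ) * S :=
    h6.trans (mul_le_mul_of_nonneg_right (div_le_div_of_nonneg_right hK' (by positivity)) hS)
  refine le_trans (mul_le_mul_of_nonneg_right (min_le_left _ _) hN0) ?_
  rw [div_mul_eq_mul_div, div_le_iff₀ hK]
  have := mul_le_mul_of_nonneg_left h7 (by positivity : 0 ≤ 4 * τ)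
  rw [show 4 * τ * (cavK (2 * β) / (4 * τ) * S) = S * cavK (2 * β) by field_simp] at this
  linarith

theorem energyMean_eq (n : ℕ) (t : ℝ) :
    Integrable (energyMean n t) (gp (Pair n)) ∧
    (1 ≤ n → ∫ g, energyMean n t g ∂gp (Pair n) = t ^ 2 * n / 2 * (1 - Qmean n t)) := by
  refine ⟨?_, fun hn => ?_⟩
  · refine ((mean_lin (hv n (t / Real.sqrt n))).1).congr (ae_of_all _ fun g => ?_)
    simp only [energyMean, mu_eq, energy_eq]
  · obtain ⟨-, h⟩ := weighted_energy (β := t) hn (le_refl 0)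
    simp only [wgt, neg_zero, zero_mul, Real.exp_zero, one_mul, sub_zero] at h
    rw [h, integral_const_mul, integral_sub (integrable_const _) integrable_Qsq, Qmean]
    simp

/-- Convexity bound on the increase of the pressure. -/
theorem incr_le {n : ℕ} (hn : 1 ≤ n) (hβ : 0 < β) {t : ℝ} (ht : β ≤ t) :
    meanLogZ n t - meanLogZ n β ≤ n * ((t - β) * (t / 2) * (1 - Qmean n t)) := by
  have ht0 : 0 < t := lt_of_lt_of_le hβ ht
  obtain ⟨iE, eE⟩ := energyMean_eq n t
  have h := integral_mono (iE.const_mul (β / t - 1))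
    ((integrable_lse (hv n (β / Real.sqrt n))).sub (integrable_lse (hv n (t / Real.sqrt n))))
    fun g => tangent n ht0 β g
  simp only [Pi.sub_apply] at h
  rw [integral_const_mul, integral_sub (integrable_lse _) (integrable_lse _), eE hn] at h
  have e : meanLogZ n t = ∫ g, lse (hv n (t / Real.sqrt n)) g ∂gp (Pair n) := rfl
  have e' : meanLogZ n β = ∫ g, lse (hv n (β / Real.sqrt n)) g ∂gp (Pair n) := rfl
  have e2 : (β / t - 1) * (t ^ 2 * n / 2 * (1 - Qmean n t))
      = -(n * ((t - β) * (t / 2) * (1 - Qmean n t))) := by field_simp; ring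
  rw [e2] at h
  linarith

/-- For every size large enough the increase of the pressure is strictly below the annealed slope. -/
theorem slope_le (hβ : 0 < β) {t a η : ℝ} (ht : β ≤ t) (hη : 0 < η)
    (ha : ∀ᶠ N : ℕ in atTop, a * N ≤ ∑ n ∈ Finset.Ico 1 N, Qmean n t) :
    ∀ᶠ n : ℕ in atTop, meanLogZ n t - meanLogZ n β ≤ n * ((t - β) * (t / 2) * (1 - a) + η) := by
  obtain ⟨P₁, h₁⟩ := meanLogZ_tendsto t
  obtain ⟨P₀, h₀⟩ := meanLogZ_tendsto β
  have hu := h₁.sub h₀
  have hb : 0 ≤ (t - β) * (t / 2) := mul_nonneg (sub_nonneg.2 ht) (by linarith)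
  have hlim : P₁ - P₀ ≤ (t - β) * (t / 2) * (1 - a) := by
    refine le_of_tendsto hu.cesaro ?_
    filter_upwards [ha, eventually_ge_atTop 1] with N hN hN1
    have hN' : (0 : ℝ) < N := by exact_mod_cast hN1
    rw [inv_mul_le_iff₀ hN', Finset.range_eq_Ico, Finset.sum_eq_sum_Ico_succ_bot hN1]
    simp only [meanLogZ_zero, zero_div, sub_zero, zero_add]
    refine (Finset.sum_le_sum (g := fun n => (t - β) * (t / 2) * (1 - Qmean n t)) fun n hn => ?_).trans ?_
    · have h1 := (Finset.mem_Ico.1 hn).1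
      have hn' : (0 : ℝ) < n := by exact_mod_cast h1
      rw [← sub_div, div_le_iff₀ hn', mul_comm]
      exact (incr_le h1 hβ ht).trans_eq (by ring)
    · rw [← Finset.mul_sum, Finset.sum_sub_distrib, Finset.sum_const, nsmul_eq_mul, Nat.card_Ico,
        mul_one]
      have : ((N - 1 : ℕ) : ℝ) ≤ N := by exact_mod_cast Nat.sub_le N 1
      have := mul_le_mul_of_nonneg_left (show ((N - 1 : ℕ) : ℝ) - ∑ n ∈ Finset.Ico 1 N, Qmean n t
        ≤ (1 - a) * N by linarith) hb
      linarith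
  filter_upwards [hu.eventually_lt_const (show P₁ - P₀ < (t - β) * (t / 2) * (1 - a) + η by linarith),
    eventually_ge_atTop 1] with n hn hn1
  have hn' : (0 : ℝ) < n := by exact_mod_cast hn1
  rw [← sub_div, div_lt_iff₀ hn'] at hn
  linarith

theorem lse_dev_hv {n : ℕ} (hn : 1 ≤ n) (t : ℝ) {s : ℝ} (hs : 0 < s) :
    Integrable (fun g => |lse (hv n (t / Real.sqrt n)) g - meanLogZ n t|) (gp (Pair n)) ∧
    ∫ g, |lse (hv n (t / Real.sqrt n)) g - meanLogZ n t| ∂gp (Pair n) ≤ s + t ^ 2 * n / (8 * s) := by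
  obtain ⟨h1, h2⟩ := lse_dev (hv n (t / Real.sqrt n)) (fun _ => |t / Real.sqrt n|)
    (fun _ => abs_nonneg _) (fun a i => abs_hv_le _ a i) hs
  refine ⟨h1, h2.trans (add_le_add le_rfl ?_)⟩
  have hn' : (0 : ℝ) < n := by exact_mod_cast hn
  have e : ∑ p : Pair n, |t / Real.sqrt n| ^ 2 = t ^ 2 * (n - 1) / 2 := by
    have h := cov_hv (n := n) (t / Real.sqrt n) (fun _ => true) (fun _ => true)
    have h0 : ∀ p : Pair n, hv n (t / Real.sqrt n) (fun _ => true) p
        * hv n (t / Real.sqrt n) (fun _ => true) p = |t / Real.sqrt n| ^ 2 := fun p => by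
      simp [hv, spin, pow_two]
    simp only [h0, ov_self, coef_sq hn] at h
    rw [h]
    field_simp
  rw [e, div_le_div_iff₀ (by positivity) (by positivity)]
  linarith [mul_nonneg (sq_nonneg t) hs.le]

/-- The mean weight is small. -/
theorem weight_small (hβ : 1 < β) : ∃ a : ℝ, 0 < a ∧ ∀ k : ℝ, 1 ≤ k → ∀ ξ : ℝ, 0 < ξ →
    ∀ᶠ n : ℕ in atTop, ∫ g, wgt n β k g ∂gp (Pair n) ≤ 16 / (a * Real.sqrt k) + ξ := by
  obtain ⟨a, ha, ha1, hA⟩ := avg_lower hβ
  refine ⟨a, ha, fun k hk ξ hξ => ?_⟩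
  have hβ0 : 0 < β := by linarith
  set L := β * a / 4 with hL
  set t := β + L with ht
  have hL0 : 0 < L := by positivity
  have htm : t ∈ Set.Icc β (2 * β) := ⟨by linarith, by rw [ht, hL]; nlinarith⟩
  set G := L * β * a / 8 with hG
  have hG0 : 0 < G := by positivity
  set σ := ξ * G / 4 with hσ
  have hσ0 : 0 < σ := by positivity
  filter_upwards [slope_le hβ0 htm.1 hG0 (hA t htm),
    eventually_ge_atTop (max 1 ⌈(t ^ 2 + β ^ 2) / (8 * σ) / (ξ * G / 2)⌉₊)] with n hn hn2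
  have hn1 : 1 ≤ n := le_trans (le_max_left _ _) hn2
  have hn' : (0 : ℝ) < n := by exact_mod_cast hn1
  have hn3 : (t ^ 2 + β ^ 2) / (8 * σ) / (ξ * G / 2) ≤ (n : ℝ) :=
    (Nat.le_ceil _).trans (by exact_mod_cast le_trans (le_max_right _ _) hn2)
  rw [div_le_iff₀ (by positivity)] at hn3
  have hk0 : 0 < k := one_pos.trans_le hk
  obtain ⟨d1, e1⟩ := lse_dev_hv hn1 t (mul_pos hσ0 hn')
  obtain ⟨d0, e0⟩ := lse_dev_hv hn1 β (mul_pos hσ0 hn')
  obtain ⟨iE, -⟩ := weighted_energy (β := β) hn1 hk0.le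
  have hw : Integrable (wgt n β k) (gp (Pair n)) :=
    Integrable.of_bound (continuous_wgt k).aestronglyMeasurable 1 (ae_of_all _ fun g => by
      rw [Real.norm_eq_abs, wgt, abs_of_pos (Real.exp_pos _)]; exact wgt_le_one hk0.le g)
  set W := ∫ g, wgt n β k g ∂gp (Pair n)
  have hW0 : 0 ≤ W := integral_nonneg fun g => (Real.exp_pos _).le
  have hpt : ∀ g, (t / β - 1) * (wgt n β k g * energyMean n β g)
      ≤ (meanLogZ n t - meanLogZ n β) * wgt n β k g
        + (|lse (hv n (t / Real.sqrt n)) g - meanLogZ n t|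
          + |lse (hv n (β / Real.sqrt n)) g - meanLogZ n β|) := fun g => by
    have h := tangent n hβ0 t g
    have hw0 : 0 ≤ wgt n β k g := (Real.exp_pos _).le
    have hw1 := wgt_le_one (β := β) hk0.le g
    have h2 := mul_le_mul_of_nonneg_left h hw0
    have u1 := le_abs_self (lse (hv n (t / Real.sqrt n)) g - meanLogZ n t)
    have u0 := neg_le_abs (lse (hv n (β / Real.sqrt n)) g - meanLogZ n β)
    have h3 := mul_le_mul_of_nonneg_left (add_le_add u1 u0) hw0
    have h4 := mul_le_of_le_one_left (add_nonneg (abs_nonneg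
      (lse (hv n (t / Real.sqrt n)) g - meanLogZ n t)) (abs_nonneg
        (lse (hv n (β / Real.sqrt n)) g - meanLogZ n β))) hw1
    linarith
  have d10 : Integrable (fun g => |lse (hv n (t / Real.sqrt n)) g - meanLogZ n t|
      + |lse (hv n (β / Real.sqrt n)) g - meanLogZ n β|) (gp (Pair n)) := d1.add d0
  have h5 := integral_mono (iE.const_mul _) ((hw.const_mul _).add d10) hpt
  simp only [Pi.add_apply] at h5
  rw [integral_const_mul, integral_add (hw.const_mul _) d10, integral_const_mul, integral_add d1 d0] at h5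
  have h6 := weight_le (β := β) hn1 hk
  have hLt : t / β - 1 = L / β := by rw [ht]; field_simp; ring
  rw [hLt] at h5
  have h7 := mul_le_mul_of_nonneg_left h6 (by positivity : 0 ≤ L / β)
  have h8 := mul_le_mul_of_nonneg_right hn hW0
  have e3 : L / β * (β ^ 2 * n / 2 * W) = n * (L * β / 2) * W := by field_simp
  have e4 : L / β * (∫ g, wgt n β k g * energyMean n β g ∂gp (Pair n) + 2 * β ^ 2 * n / Real.sqrt k)
      = L / β * (∫ g, wgt n β k g * energyMean n β g ∂gp (Pair n))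
        + n * (2 * L * β / Real.sqrt k) := by field_simp
  rw [e3, e4] at h7
  have h9 : t ^ 2 * n / (8 * (σ * n)) + β ^ 2 * n / (8 * (σ * n)) ≤ n * (ξ * G / 2) := by
    rw [← add_div, ← add_mul]
    refine le_trans (le_of_eq ?_) hn3
    field_simp
  have h10 : G ≤ L * β / 2 - ((t - β) * (t / 2) * (1 - a) + G) := by
    have hta : t * (1 - a) ≤ β * (1 - a / 2) := by rw [ht, hL]; nlinarith [sq_nonneg a]
    have := mul_le_mul_of_nonneg_left hta hL0.le
    rw [show t - β = L by rw [ht]; ring, hG]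
    linarith
  have h11 := mul_le_mul_of_nonneg_left h10 (mul_nonneg hn'.le hW0)
  have h12 : n * (G * W) ≤ n * (2 * L * β / Real.sqrt k + ξ * G) := by
    rw [hσ] at e1 e0 h9
    linarith only [h5, h7, h8, h9, h11, e1, e0]
  have h13 := le_of_mul_le_mul_left h12 hn'
  have h14 : 2 * L * β / Real.sqrt k = G * (16 / (a * Real.sqrt k)) := by
    rw [hG]; field_simp; ring
  rw [h14] at h13
  refine le_of_mul_le_mul_left (h13.trans_eq ?_) hG0
  ring

/-- Linearly slow relaxation and mixing with probability close to one. -/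
theorem slow_tight (hβ : 1 < β) {ε : ℝ} (hε : 0 < ε) : ∃ c : ℝ, 0 < c ∧ ∀ᶠ n : ℕ in atTop,
    ENNReal.ofReal (1 - ε) ≤ disorder n
      {g | gap n β g ≤ 1 / (c * n) ∧ ∀ t, 0 ≤ t → MixedBy n β g t → c * n ≤ t} := by
  obtain ⟨a, ha, hW⟩ := weight_small hβ
  set e := Real.exp 1
  have he : 0 < e := Real.exp_pos _
  set k := max 1 ((32 * e / (a * ε)) ^ 2)
  have hk : 1 ≤ k := le_max_left _ _
  have hk0 : 0 < k := one_pos.trans_le hk
  obtain ⟨m, hm⟩ := exists_pow_lt_of_lt_one (by positivity : 0 < 1 / k / 2)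
    (show (1 / 2 : ℝ) < 1 by norm_num)
  refine ⟨1 / k / (2 * (m + 1)), by positivity, ?_⟩
  filter_upwards [hW k hk (ε / (2 * e)) (by positivity), eventually_ge_atTop 1] with n hn hn1
  have hn' : (0 : ℝ) < n := by exact_mod_cast hn1
  set A := {g : Pair n → ℝ | 1 / k ≤ Qsq n β g}
  have hA : MeasurableSet A := measurableSet_le measurable_const continuous_Qsq.measurable
  have hsub : A ⊆ {g | gap n β g ≤ 1 / (1 / k / (2 * (m + 1)) * n) ∧
      ∀ t, 0 ≤ t → MixedBy n β g t → 1 / k / (2 * (m + 1)) * n ≤ t} := fun g hg => by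
    refine ⟨(gap_le g hn1 (by positivity) hg).trans (one_div_le_one_div_of_le (by positivity) ?_),
      fun t ht hmx => ?_⟩
    · refine mul_le_mul_of_nonneg_right (div_le_self (by positivity) ?_) hn'.le
      linarith [(Nat.cast_nonneg m : (0 : ℝ) ≤ m)]
    · rw [div_mul_eq_mul_div]
      exact mix_ge hn1 (by positivity) hg hm.le ht hmx
  refine le_trans ?_ (measure_mono hsub)
  change ENNReal.ofReal (1 - ε) ≤ gp (Pair n) A
  refine ENNReal.ofReal_le_of_le_toReal ?_
  rw [← measureReal_def]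
  have hw : Integrable (wgt n β k) (gp (Pair n)) :=
    Integrable.of_bound (continuous_wgt k).aestronglyMeasurable 1 (ae_of_all _ fun g => by
      rw [Real.norm_eq_abs, wgt, abs_of_pos (Real.exp_pos _)]; exact wgt_le_one hk0.le g)
  have hp : ∀ g, 1 - A.indicator (fun _ => (1 : ℝ)) g ≤ e * wgt n β k g := fun g => by
    by_cases hg : g ∈ A
    · rw [Set.indicator_of_mem hg, sub_self]
      exact mul_nonneg he.le (Real.exp_pos _).le
    · rw [Set.indicator_of_notMem hg, sub_zero, wgt, ← Real.exp_add]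
      refine Real.one_le_exp ?_
      have : Qsq n β g < 1 / k := not_le.1 hg
      rw [lt_div_iff₀ hk0] at this
      linarith
  have hi : Integrable (fun g => 1 - A.indicator (fun _ => (1 : ℝ)) g) (gp (Pair n)) :=
    (integrable_const _).sub ((integrable_const _).indicator hA)
  have h := integral_mono hi (hw.const_mul e) hp
  rw [integral_sub (integrable_const _) ((integrable_const _).indicator hA),
    integral_indicator_const _ hA, integral_const_mul] at h
  simp only [integral_const, probReal_univ, smul_eq_mul, mul_one] at h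
  have hsk : 32 * e / (a * ε) ≤ Real.sqrt k :=
    Real.le_sqrt_of_sq_le (le_max_right _ _)
  have hsk0 : 0 < Real.sqrt k := Real.sqrt_pos.2 hk0
  rw [div_le_iff₀ (by positivity)] at hsk
  have h2 : e * (16 / (a * Real.sqrt k)) ≤ ε / 2 := by
    rw [mul_div_assoc', div_le_div_iff₀ (by positivity) (by norm_num)]
    linarith
  have h3 : e * (ε / (2 * e)) = ε / 2 := by field_simp
  have h4 := mul_le_mul_of_nonneg_left hn he.le
  rw [mul_add, h3] at h4
  linarith

end Vale.Agent.P150
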