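import Mathlib
import Vale.Agent.P150.Model

/-!
Linear combinations of normalised exponentials of Gaussian linear forms, for P150.
-/

open MeasureTheory ProbabilityTheory

namespace Vale.Agent.P150

variable {ι S T : Type*} [Fintype ι] [Fintype S] [Fintype T]

/-- Inner product of weight vectors. -/
def dot (a b : ι → ℝ) : ℝ := ∑ i, a i * b i

/-- Normalised exponential of a linear form. -/
noncomputable def ee (v : ι → ℝ) (g : ι → ℝ) : ℝ := Real.exp (lin v g - dot v v / 2)

/-- Linear combination of normalised exponentials. -/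
noncomputable def comb (α : S → ℝ) (v : S → ι → ℝ) (g : ι → ℝ) : ℝ := ∑ s, α s * ee (v s) g

theorem dot_comm (a b : ι → ℝ) : dot a b = dot b a :=
  Finset.sum_congr rfl fun _ _ => mul_comm _ _

theorem dot_add_left (a b c : ι → ℝ) : dot (a + b) c = dot a c + dot b c := by
  simp [dot, add_mul, Finset.sum_add_distrib]

theorem dot_add_right (a b c : ι → ℝ) : dot a (b + c) = dot a b + dot a c := by
  simp [dot, mul_add, Finset.sum_add_distrib]

theorem lin_add (a b g : ι → ℝ) : lin (a + b) g = lin a g + lin b g := by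
  simp [lin, mul_add, Finset.sum_add_distrib]

theorem ee_pos (v g : ι → ℝ) : 0 < ee v g := Real.exp_pos _

theorem ee_mul (v w g : ι → ℝ) : ee v g * ee w g = Real.exp (dot v w) * ee (v + w) g := by
  simp only [ee, ← Real.exp_add, lin_add, dot_add_left, dot_add_right, dot_comm w v]
  congr 1
  ring

theorem ee_int (v : ι → ℝ) : Integrable (ee v) (gp ι) ∧ ∫ g, ee v g ∂gp ι = 1 := by
  obtain ⟨h1, h2⟩ := mgf_lin v
  have e : ee v = fun g => Real.exp (lin v g) * Real.exp (-(dot v v / 2)) := by
    funext g; rw [ee, ← Real.exp_add, sub_eq_add_neg]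
  rw [e]
  refine ⟨h1.mul_const _, ?_⟩
  rw [integral_mul_const, h2, ← Real.exp_add, dot]
  simp [pow_two]

@[fun_prop]
theorem continuous_comb (α : S → ℝ) (v : S → ι → ℝ) : Continuous (comb α v) := by
  unfold comb ee; fun_prop

theorem integrable_comb (α : S → ℝ) (v : S → ι → ℝ) : Integrable (comb α v) (gp ι) :=
  integrable_finsetSum _ fun s _ => (ee_int (v s)).1.const_mul _

theorem integral_comb (α : S → ℝ) (v : S → ι → ℝ) : ∫ g, comb α v g ∂gp ι = ∑ s, α s := by
  unfold comb
  rw [integral_finsetSum _ fun s _ => (ee_int (v s)).1.const_mul _]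
  simp [integral_const_mul, (ee_int _).2]

/-- Coefficients of a product. -/
noncomputable def cmul (α : S → ℝ) (v : S → ι → ℝ) (γ : T → ℝ) (w : T → ι → ℝ) (p : S × T) : ℝ :=
  α p.1 * γ p.2 * Real.exp (dot (v p.1) (w p.2))

theorem comb_mul (α : S → ℝ) (v : S → ι → ℝ) (γ : T → ℝ) (w : T → ι → ℝ) (g : ι → ℝ) :
    comb α v g * comb γ w g = comb (cmul α v γ w) (fun p => v p.1 + w p.2) g := by
  simp only [comb, Fintype.sum_prod_type, Finset.sum_mul_sum]
  refine Finset.sum_congr rfl fun s _ => Finset.sum_congr rfl fun t _ => ?_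
  simp only [cmul]
  linear_combination (α s * γ t) * ee_mul (v s) (w t) g

theorem integrable_mul (α : S → ℝ) (v : S → ι → ℝ) (γ : T → ℝ) (w : T → ι → ℝ) :
    Integrable (fun g => comb α v g * comb γ w g) (gp ι) := by
  simp only [comb_mul]; exact integrable_comb _ _

theorem integrable_sq_comb (α : S → ℝ) (v : S → ι → ℝ) :
    Integrable (fun g => comb α v g ^ 2) (gp ι) := by
  simp only [pow_two]; exact integrable_mul α v α v

theorem integral_mul (α : S → ℝ) (v : S → ι → ℝ) (γ : T → ℝ) (w : T → ι → ℝ) :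
    ∫ g, comb α v g * comb γ w g ∂gp ι
      = ∑ s, ∑ t, α s * γ t * Real.exp (dot (v s) (w t)) := by
  simp only [comb_mul, integral_comb, Fintype.sum_prod_type, cmul]

theorem integral_mul_indep (α : S → ℝ) (v : S → ι → ℝ) (γ : T → ℝ) (w : T → ι → ℝ)
    (h : ∀ s t, dot (v s) (w t) = 0) :
    ∫ g, comb α v g * comb γ w g ∂gp ι = (∑ s, α s) * ∑ t, γ t := by
  simp [integral_mul, h, Finset.sum_mul_sum]

theorem integral_sq (α : S → ℝ) (v : S → ι → ℝ) :
    ∫ g, comb α v g ^ 2 ∂gp ι = ∑ s, ∑ t, α s * α t * Real.exp (dot (v s) (v t)) := by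
  simp only [pow_two]; exact integral_mul α v α v

/-- Second moment around the mean. -/
theorem comb_var (α : S → ℝ) (v : S → ι → ℝ) :
    Integrable (fun g => (comb α v g - ∑ s, α s) ^ 2) (gp ι) ∧
    ∫ g, (comb α v g - ∑ s, α s) ^ 2 ∂gp ι
      = ∑ s, ∑ t, α s * α t * (Real.exp (dot (v s) (v t)) - 1) := by
  have e : ∀ g, (comb α v g - ∑ s, α s) ^ 2
      = comb α v g ^ 2 - (2 * ∑ s, α s) * comb α v g + (∑ s, α s) ^ 2 := fun g => by ring
  simp only [e]
  have i1 := integrable_sq_comb α v
  have i2 := (integrable_comb α v).const_mul (2 * ∑ s, α s)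
  have i12 : Integrable (fun g => comb α v g ^ 2 - (2 * ∑ s, α s) * comb α v g) (gp ι) := i1.sub i2
  refine ⟨i12.add (integrable_const _), ?_⟩
  rw [integral_add i12 (integrable_const _), integral_sub i1 i2, integral_const_mul, integral_sq,
    integral_comb]
  simp only [integral_const, probReal_univ, one_smul, mul_sub, mul_one, Finset.sum_sub_distrib,
    ← Finset.mul_sum, ← Finset.sum_mul]
  ring

/-- Difference of two combinations with the same coefficients. -/
theorem comb_diff (α : S → ℝ) (v w : S → ι → ℝ) :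
    Integrable (fun g => (comb α v g - comb α w g) ^ 2) (gp ι) ∧
    ∫ g, (comb α v g - comb α w g) ^ 2 ∂gp ι
      = ∑ s, ∑ t, α s * α t * (Real.exp (dot (v s) (v t)) - Real.exp (dot (v s) (w t))
          - Real.exp (dot (w s) (v t)) + Real.exp (dot (w s) (w t))) := by
  have e : ∀ g, (comb α v g - comb α w g) ^ 2
      = (comb α v g * comb α v g - comb α v g * comb α w g)
        - (comb α w g * comb α v g - comb α w g * comb α w g) := fun g => by ring
  simp only [e]
  have i1 : Integrable (fun g => comb α v g * comb α v g - comb α v g * comb α w g) (gp ι) :=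
    (integrable_mul α v α v).sub (integrable_mul α v α w)
  have i2 : Integrable (fun g => comb α w g * comb α v g - comb α w g * comb α w g) (gp ι) :=
    (integrable_mul α w α v).sub (integrable_mul α w α w)
  refine ⟨i1.sub i2, ?_⟩
  rw [integral_sub i1 i2, integral_sub (integrable_mul α v α v) (integrable_mul α v α w),
    integral_sub (integrable_mul α w α v) (integrable_mul α w α w)]
  simp only [integral_mul, mul_sub, mul_add, Finset.sum_sub_distrib, Finset.sum_add_distrib]
  ring

/-- Markov's inequality, as a real bound. -/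
theorem markov {f : (ι → ℝ) → ℝ} (h0 : ∀ g, 0 ≤ f g) (hi : Integrable f (gp ι)) {e : ℝ} (he : 0 < e) :
    (gp ι).real {g | e ≤ f g} ≤ (∫ g, f g ∂gp ι) / e := by
  rw [le_div_iff₀' he]
  exact mul_meas_ge_le_integral_of_nonneg (ae_of_all _ h0) hi e

end Vale.Agent.P150
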