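import Vale.Agent.P150.Defs

/-!
Row sums of squares of the disorder are at most `(1 + ε) n` with high probability. Used for P150.
-/

open MeasureTheory ProbabilityTheory Filter Topology

namespace Vale.Agent.P150

variable {n : ℕ}

/-- The pairs at site `i`. -/
noncomputable def pairsAt (i : Fin n) : Finset (Pair n) :=
  Finset.univ.filter fun p => p.1.1 = i ∨ p.1.2 = i

theorem card_pairsAt_le (i : Fin n) : (pairsAt i).card ≤ n := by
  refine le_trans (Finset.card_le_card_of_injOn (t := (Finset.univ : Finset (Fin n)))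
    (fun p => if p.1.1 = i then p.1.2 else p.1.1) (fun _ _ => Finset.mem_univ _) ?_)
    (le_of_eq (Finset.card_fin n))
  intro p hp q hq h
  obtain ⟨⟨a, b⟩, hab⟩ := p
  obtain ⟨⟨c, d⟩, hcd⟩ := q
  simp only [pairsAt, Finset.coe_filter, Finset.mem_univ, true_and, Set.mem_ofPred_eq] at hp hq
  simp only [Fin.lt_def] at hab hcd
  simp only [Fin.ext_iff] at hp hq
  simp only [Subtype.mk.injEq, Prod.mk.injEq, Fin.ext_iff]
  dsimp only at h
  split_ifs at h <;> simp only [Fin.ext_iff] at * <;> omega

/-- The `j`-th entry of row `i` of the symmetric array of the disorder. -/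
def entry (g : Pair n → ℝ) (i j : Fin n) : ℝ :=
  if h : i < j then g ⟨(i, j), h⟩ else if h : j < i then g ⟨(j, i), h⟩ else 0

theorem sum_entry_sq (g : Pair n → ℝ) (i : Fin n) :
    ∑ j, entry g i j ^ 2 = ∑ p ∈ pairsAt i, g p ^ 2 := by
  rw [← Finset.sum_subset (Finset.subset_univ ((Finset.univ : Finset (Fin n)).filter (· ≠ i)))
    (fun j _ hj => by
      have : j = i := by simpa using hj
      subst this
      simp [entry])]
  refine Finset.sum_bij'
    (fun j hj => if h : i < j then (⟨(i, j), h⟩ : Pair n)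
      else ⟨(j, i), lt_of_le_of_ne (not_lt.1 h) (Finset.mem_filter.1 hj).2⟩)
    (fun p _ => if p.1.1 = i then p.1.2 else p.1.1) ?_ ?_ ?_ ?_ ?_
  · intro j hj
    by_cases h : i < j <;> simp [pairsAt, h]
  · intro p hp
    obtain ⟨⟨a, b⟩, hab⟩ := p
    simp [pairsAt] at hp ⊢
    by_cases ha : a = i
    · simp [ha]; exact fun h => absurd (ha ▸ h ▸ hab) (lt_irrefl _)
    · simp [ha]
  · intro j hj
    by_cases h : i < j
    · simp [h]
    · have hne : j ≠ i := (Finset.mem_filter.1 hj).2
      simp [h, hne]
  · intro p hp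
    obtain ⟨⟨a, b⟩, hab⟩ := p
    simp [pairsAt] at hp
    by_cases ha : a = i
    · subst ha; simp [hab]
    · rcases hp with hp | hp
      · exact absurd hp ha
      · subst hp; simp [ha, not_lt.2 hab.le]
  · intro j hj
    have hne : j ≠ i := (Finset.mem_filter.1 hj).2
    by_cases h : i < j
    · simp [entry, h]
    · simp [entry, h, lt_of_le_of_ne (not_lt.1 h) hne]

theorem integral_exp_sq_le {s : ℝ} (hs : s < 1 / 2) :
    Integrable (fun x : ℝ => Real.exp (s * x ^ 2)) (gaussianReal 0 1) ∧
      ∫ x, Real.exp (s * x ^ 2) ∂gaussianReal 0 1 ≤ Real.exp (s / (1 - 2 * s)) := by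
  have hb : 0 < 1 / 2 - s := by linarith
  have he : ∀ x : ℝ, gaussianPDFReal 0 1 x * Real.exp (s * x ^ 2) =
      (Real.sqrt (2 * Real.pi))⁻¹ * Real.exp (-(1 / 2 - s) * x ^ 2) := by
    intro x
    simp only [gaussianPDFReal, NNReal.coe_one, mul_one, sub_zero, mul_assoc, ← Real.exp_add]
    ring_nf
  constructor
  · rw [gaussianReal_of_var_ne_zero 0 one_ne_zero, integrable_withDensity_iff (measurable_gaussianPDF 0 1)
      (ae_of_all _ fun x => by simp [gaussianPDF])]
    refine ((integrable_exp_neg_mul_sq hb).const_mul (Real.sqrt (2 * Real.pi))⁻¹).congr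
      (ae_of_all _ fun x => ?_)
    simp only [toReal_gaussianPDF]
    rw [← he x, mul_comm]
  · rw [integral_gaussianReal_eq_integral_smul one_ne_zero]
    simp only [smul_eq_mul, he]
    rw [integral_const_mul, integral_gaussian, ← Real.sqrt_inv, ← Real.sqrt_mul (by positivity),
      Real.sqrt_le_left (Real.exp_pos _).le]
    have h1 : (2 * Real.pi)⁻¹ * (Real.pi / (1 / 2 - s)) = (1 - 2 * s)⁻¹ := by
      field_simp
    rw [h1]
    have h2 : (0 : ℝ) < 1 - 2 * s := by linarith
    have h3 := Real.add_one_le_exp (2 * (s / (1 - 2 * s)))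
    have h4 : 2 * (s / (1 - 2 * s)) + 1 = (1 - 2 * s)⁻¹ := by field_simp; ring
    rw [← Real.exp_nat_mul]
    push_cast
    linarith

/-- With high probability every row has squared sum at most `(1 + ε) n`. -/
theorem rows_bound {ε δ : ℝ} (hε : 0 < ε) (hδ : 0 < δ) :
    ∀ᶠ n : ℕ in atTop, ENNReal.ofReal (1 - δ) ≤
      disorder n {g | ∀ i, ∑ j, entry g i j ^ 2 ≤ (1 + ε) * n} := by
  set s : ℝ := ε / (4 * (1 + ε)) with hs
  have hs0 : 0 < s := by positivity
  have hs2 : s < 1 / 2 := by rw [hs, div_lt_iff₀ (by positivity)]; linarith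
  have hkey : s / (1 - 2 * s) < s * (1 + ε) := by
    rw [div_lt_iff₀ (by linarith), mul_assoc]
    refine lt_mul_of_one_lt_right hs0 ?_
    have : (1 + ε) * (2 * s) = ε / 2 := by rw [hs]; field_simp; ring
    nlinarith
  set q : ℝ := Real.exp (s / (1 - 2 * s) - s * (1 + ε)) with hq
  have hq0 : 0 ≤ q := (Real.exp_pos _).le
  have hq1 : q < 1 := Real.exp_lt_one_iff.2 (by linarith)
  filter_upwards [(tendsto_self_mul_const_pow_of_lt_one hq0 hq1).eventually
    (eventually_le_nhds hδ)] with n hn
  have : IsProbabilityMeasure (disorder n) := by unfold disorder; infer_instance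
  set G : Set (Pair n → ℝ) := {g | ∀ i, ∑ j, entry g i j ^ 2 ≤ (1 + ε) * n} with hG
  obtain ⟨hint, hM⟩ := integral_exp_sq_le hs2
  have hi : ∀ i : Fin n, (disorder n).real
      {g | Real.exp (s * ((1 + ε) * n)) ≤ ∏ p, if p ∈ pairsAt i then Real.exp (s * g p ^ 2) else 1}
        ≤ q ^ n := by
    intro i
    have hI : Integrable (fun g : Pair n → ℝ =>
        ∏ p, if p ∈ pairsAt i then Real.exp (s * g p ^ 2) else 1) (disorder n) := by
      refine Integrable.fintype_prod (f := fun p (x : ℝ) =>
        if p ∈ pairsAt i then Real.exp (s * x ^ 2) else 1) fun p => ?_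
      split_ifs
      · exact hint
      · exact integrable_const _
    have h := mul_meas_ge_le_integral_of_nonneg (Eventually.of_forall fun g : Pair n → ℝ =>
      Finset.prod_nonneg fun p _ => by split_ifs <;> positivity) hI (Real.exp (s * ((1 + ε) * n)))
    have hint2 : ∫ g, (∏ p, if p ∈ pairsAt i then Real.exp (s * g p ^ 2) else 1) ∂disorder n ≤
        Real.exp (s / (1 - 2 * s)) ^ n := by
      unfold disorder
      rw [integral_fintype_prod_eq_prod (f := fun p (x : ℝ) =>
        if p ∈ pairsAt i then Real.exp (s * x ^ 2) else 1)]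
      calc ∏ p, ∫ x, (if p ∈ pairsAt i then Real.exp (s * x ^ 2) else 1) ∂gaussianReal 0 1
          ≤ ∏ p, if p ∈ pairsAt i then Real.exp (s / (1 - 2 * s)) else 1 := by
            refine Finset.prod_le_prod (fun p _ => ?_) fun p _ => ?_
            · exact integral_nonneg fun x => by dsimp only [Pi.zero_apply]; split_ifs <;> positivity
            · split_ifs
              · exact hM
              · simp
        _ = Real.exp (s / (1 - 2 * s)) ^ (pairsAt i).card := by
            rw [Finset.prod_ite_mem, Finset.univ_inter, Finset.prod_const]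
        _ ≤ _ := pow_le_pow_right₀ (Real.one_le_exp (div_nonneg hs0.le (by linarith)))
            (card_pairsAt_le i)
    have hpos := Real.exp_pos (s * ((1 + ε) * n))
    refine le_of_mul_le_mul_left (le_trans h (le_trans hint2 (le_of_eq ?_))) hpos
    rw [hq, ← Real.exp_nat_mul, ← Real.exp_nat_mul, ← Real.exp_add]
    ring_nf
  have hbad : (disorder n).real Gᶜ ≤ δ := by
    calc (disorder n).real Gᶜ
        ≤ (disorder n).real (⋃ i : Fin n, {g | Real.exp (s * ((1 + ε) * n)) ≤
            ∏ p, if p ∈ pairsAt i then Real.exp (s * g p ^ 2) else 1}) := by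
          refine measureReal_mono (fun g hg => ?_) (measure_ne_top _ _)
          simp only [hG, Set.mem_compl_iff, Set.mem_ofPred_eq, not_forall, not_le] at hg
          obtain ⟨i, hi⟩ := hg
          refine Set.mem_iUnion.2 ⟨i, ?_⟩
          refine Set.mem_ofPred_eq.mpr ?_
          rw [Finset.prod_ite_mem, Finset.univ_inter, ← Real.exp_sum, ← Finset.mul_sum,
            ← sum_entry_sq]
          exact Real.exp_le_exp.2 (mul_le_mul_of_nonneg_left hi.le hs0.le)
      _ ≤ ∑ _i : Fin n, q ^ n :=
          le_trans (measureReal_iUnion_fintype_le _) (Finset.sum_le_sum fun i _ => hi i)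
      _ ≤ δ := by simpa using hn
  have hGm : MeasurableSet G := by
    rw [hG, Set.ofPred_forall]
    refine MeasurableSet.iInter fun i => measurableSet_le ?_ measurable_const
    simp only [sum_entry_sq]
    fun_prop
  rw [← ofReal_measureReal (μ := disorder n) (s := G)]
  refine ENNReal.ofReal_le_ofReal ?_
  rw [probReal_compl_eq_one_sub hGm] at hbad
  linarith

end Vale.Agent.P150
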