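import Mathlib
import Vale.Agent.P150.Model
import Vale.Agent.P150.Semigroup

/-!
Consequences of a Poincaré inequality for the Gibbs measure, and Poincaré from mixing, for P150.
-/

open MeasureTheory ProbabilityTheory

namespace Vale.Agent.P150

variable {n : ℕ} {β : ℝ}

/-- Poincaré inequality with constant `K`. -/
def Poinc (n : ℕ) (β : ℝ) (g : Pair n → ℝ) (K : ℝ) : Prop :=
  ∀ f : Conf n → ℝ, gibbsVar n β g f ≤ K * dirichlet n β g f

/-- Bounded covariance and exponentially integrable overlaps. -/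
def Good (n : ℕ) (β : ℝ) (g : Pair n → ℝ) (L : ℝ) : Prop :=
  (∀ v : Fin n → ℝ, ∑ x, mu n β g x * (∑ k, v k * spin (x k)) ^ 2 ≤ L * ∑ k, v k ^ 2) ∧
  ∀ y : Conf n, ∑ x, mu n β g x * Real.exp (|ov y x| / (2 * L * Real.sqrt n)) ≤ 6

theorem isClosed_good (n : ℕ) (β L : ℝ) : IsClosed {g : Pair n → ℝ | Good n β g L} := by
  simp only [Good, Set.setOf_and, Set.setOf_forall]
  exact (isClosed_iInter fun v => isClosed_le (by fun_prop) continuous_const).inter
    (isClosed_iInter fun y => isClosed_le (by fun_prop) continuous_const)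

theorem dirichlet_le_half (g : Pair n → ℝ) (f : Conf n → ℝ) :
    dirichlet n β g f ≤ ∑ i, (∑ x, mu n β g x * (f (flipAt x i) - f x) ^ 2) / 2 := by
  rw [dirichlet_eq]
  refine Finset.sum_le_sum fun i _ =>
    div_le_div_of_nonneg_right (Finset.sum_le_sum fun x _ => ?_) zero_le_two
  exact mul_le_mul_of_nonneg_right (mul_le_of_le_one_right (mu_pos g x).le (rate_mem g x i).2)
    (sq_nonneg _)

theorem sinh_step (u : ℝ) {δ s : ℝ} (h : |δ| ≤ s) :
    |Real.sinh (u + δ) - Real.sinh u| ≤ Real.cosh u * (Real.exp s - 1) := by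
  have e : Real.sinh (u + δ) - Real.sinh u
      = Real.sinh u * (Real.cosh δ - 1) + Real.cosh u * Real.sinh δ := by rw [Real.sinh_add]; ring
  have h1 : |Real.sinh u| ≤ Real.cosh u := by
    refine abs_le.2 ⟨?_, (Real.sinh_lt_cosh u).le⟩
    have := Real.sinh_lt_cosh (-u); rw [Real.sinh_neg, Real.cosh_neg] at this; linarith
  have h2 : 0 ≤ Real.cosh δ - 1 := by linarith [Real.one_le_cosh δ]
  rw [e]
  refine (abs_add_le _ _).trans ?_
  rw [abs_mul, abs_mul, abs_of_nonneg h2, abs_of_pos (Real.cosh_pos u), Real.abs_sinh δ]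
  refine (add_le_add (mul_le_mul_of_nonneg_right h1 h2) le_rfl).trans ?_
  rw [← mul_add]
  refine mul_le_mul_of_nonneg_left ?_ (Real.cosh_pos u).le
  have := Real.cosh_add_sinh |δ|
  rw [Real.cosh_abs] at this
  linarith [Real.exp_le_exp.2 h]

theorem good_of_poinc {g : Pair n → ℝ} (hn : 1 ≤ n) {K L : ℝ} (hL : 1 ≤ L) (hK : 2 * K ≤ L)
    (hK0 : 0 ≤ K) (hP : Poinc n β g K) : Good n β g L := by
  have hL0 : 0 < L := one_pos.trans_le hL
  have hn' : (0 : ℝ) < n := by exact_mod_cast hn
  refine ⟨fun v => ?_, fun y => ?_⟩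
  · set f : Conf n → ℝ := fun x => ∑ k, v k * spin (x k)
    have h0 : ∑ x, mu n β g x * f x = 0 :=
      mean_zero g f fun x => by simp [f, negConf, spin_not]
    have hd : ∀ x i, (f (flipAt x i) - f x) ^ 2 = 4 * v i ^ 2 := fun x i => by
      have : f (flipAt x i) - f x = -2 * (v i * spin (x i)) := by
        simp only [f]
        rw [← Finset.sum_sub_distrib, Finset.sum_eq_single i]
        · rw [flipAt, Function.update_self, spin_not]; ring
        · intro j _ hj; rw [flipAt, Function.update_of_ne hj, sub_self]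
        · simp
      rw [this]
      linear_combination (4 * v i ^ 2) * spin_sq (x i)
    have hD : dirichlet n β g f ≤ 2 * ∑ k, v k ^ 2 := by
      refine (dirichlet_le_half g f).trans_eq ?_
      simp only [hd, ← Finset.sum_mul, mu_sum, one_mul, Finset.mul_sum]
      exact Finset.sum_congr rfl fun i _ => by ring
    have h := hP f
    rw [gibbsVar, h0] at h
    simp only [ne_eq, OfNat.ofNat_ne_zero, not_false_eq_true, zero_pow, sub_zero] at h
    refine h.trans ((mul_le_mul_of_nonneg_left hD hK0).trans ?_)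
    rw [← mul_assoc, mul_comm K 2]
    exact mul_le_mul_of_nonneg_right hK (Finset.sum_nonneg fun k _ => sq_nonneg _)
  · set s := 1 / (4 * L * Real.sqrt n) with hs
    have hsq : 0 < Real.sqrt n := Real.sqrt_pos.2 hn'
    have hs0 : 0 < s := by positivity
    have hs1 : 2 * s ≤ 1 := by
      rw [hs, mul_one_div, div_le_one (by positivity)]
      have : 1 ≤ Real.sqrt n := Real.one_le_sqrt.2 (by exact_mod_cast hn)
      nlinarith
    set f : Conf n → ℝ := fun x => Real.sinh (s * ov y x)
    have h0 : ∑ x, mu n β g x * f x = 0 := mean_zero g f fun x => by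
      have : ov y (negConf x) = -ov y x := by simp [ov, negConf, spin_not]
      simp [f, this]
    set S := ∑ x, mu n β g x * f x ^ 2
    have hd : ∀ x i, (f (flipAt x i) - f x) ^ 2 ≤ Real.cosh (s * ov y x) ^ 2 * (4 * s) ^ 2 := fun x i => by
      have e : ov y (flipAt x i) - ov y x = -2 * (spin (y i) * spin (x i)) := by
        rw [ov, ov, ← Finset.sum_sub_distrib, Finset.sum_eq_single i]
        · rw [flipAt, Function.update_self, spin_not]; ring
        · intro j _ hj; rw [flipAt, Function.update_of_ne hj, sub_self]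
        · simp
      have h := sinh_step (s * ov y x) (δ := s * (ov y (flipAt x i) - ov y x)) (s := 2 * s) (by
        rw [e, abs_mul, abs_mul, abs_mul, abs_spin, abs_spin, abs_of_pos hs0]; norm_num; linarith)
      rw [show s * ov y x + s * (ov y (flipAt x i) - ov y x) = s * ov y (flipAt x i) by ring] at h
      have h2 : Real.exp (2 * s) - 1 ≤ 4 * s := by
        have := Real.abs_exp_sub_one_le (x := 2 * s) (by rw [abs_of_pos (by positivity)]; exact hs1)
        rw [abs_of_pos (by positivity : 0 < 2 * s)] at this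
        linarith [le_abs_self (Real.exp (2 * s) - 1)]
      rw [← mul_pow, ← sq_abs]
      exact pow_le_pow_left₀ (abs_nonneg _)
        (h.trans (mul_le_mul_of_nonneg_left h2 (Real.cosh_pos _).le)) 2
    have hD : dirichlet n β g f ≤ n * (8 * s ^ 2) * (S + 1) := by
      refine (dirichlet_le_half g f).trans ((Finset.sum_le_sum (g := fun _ => 8 * s ^ 2 * (S + 1))
        fun i _ => ?_).trans_eq (by simp; ring))
      rw [div_le_iff₀ two_pos]
      refine (Finset.sum_le_sum fun x _ => mul_le_mul_of_nonneg_left (hd x i) (mu_pos g x).le).trans_eq ?_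
      simp only [Real.cosh_sq, ← mul_assoc, ← Finset.sum_mul, mul_add, mul_one, Finset.sum_add_distrib,
        mu_sum, S, f]
      ring
    have h := hP f
    rw [gibbsVar, h0] at h
    simp only [ne_eq, OfNat.ofNat_ne_zero, not_false_eq_true, zero_pow, sub_zero] at h
    have hS0 : 0 ≤ S := Finset.sum_nonneg fun x _ => mul_nonneg (mu_pos g x).le (sq_nonneg _)
    have e : (n : ℝ) * (8 * s ^ 2) = 1 / (2 * L ^ 2) := by
      rw [hs, div_pow, mul_pow, mul_pow, Real.sq_sqrt hn'.le]; field_simp; ring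
    rw [e] at hD
    have h1 : S ≤ 1 / 4 * (S + 1) := by
      refine h.trans ((mul_le_mul_of_nonneg_left hD hK0).trans ?_)
      rw [← mul_assoc]
      refine mul_le_mul_of_nonneg_right ?_ (by linarith)
      rw [mul_one_div, div_le_iff₀ (by positivity)]
      nlinarith
    have hb : ∀ x, Real.exp (|ov y x| / (2 * L * Real.sqrt n)) ≤ 2 * (1 + 2 * f x ^ 2) := fun x => by
      have e1 : |ov y x| / (2 * L * Real.sqrt n) = |2 * (s * ov y x)| := by
        rw [abs_mul, abs_mul, abs_of_pos hs0, hs]; norm_num; field_simp; ring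
      rw [e1]
      have h3 := Real.cosh_add_sinh |2 * (s * ov y x)|
      have h4 := (Real.sinh_lt_cosh |2 * (s * ov y x)|).le
      rw [Real.cosh_abs, Real.cosh_two_mul, Real.cosh_sq] at h3 h4
      linarith
    refine (Finset.sum_le_sum fun x _ => mul_le_mul_of_nonneg_left (hb x) (mu_pos g x).le).trans ?_
    have : ∑ x, mu n β g x * (2 * (1 + 2 * f x ^ 2)) = 2 * 1 + 4 * S := by
      simp only [mul_add, mul_one, Finset.sum_add_distrib, ← Finset.sum_mul, mu_sum, one_mul, S,
        Finset.mul_sum]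
      congr 1
      exact Finset.sum_congr rfl fun x _ => by ring
    rw [this]
    linarith

theorem poinc_of_gap {g : Pair n → ℝ} {K : ℝ} (hK : 0 < K) (h : 1 / K < gap n β g) :
    Poinc n β g K := fun f => by
  rcases le_or_gt (gibbsVar n β g f) 0 with h0 | h0
  · exact h0.trans (mul_nonneg hK.le (dirichlet_nonneg g f))
  · have h1 : gap n β g ≤ dirichlet n β g f / gibbsVar n β g f :=
      csInf_le ⟨0, by rintro r ⟨f', hf', rfl⟩; exact div_nonneg (dirichlet_nonneg g f') hf'.le⟩
        ⟨f, h0, rfl⟩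
    have h2 := (h.trans_le h1).le
    rw [div_le_div_iff₀ hK h0, one_mul] at h2
    linarith

theorem ip_sq_le (g : Pair n → ℝ) (a b : Conf n → ℝ) :
    ip n β g a b ^ 2 ≤ ip n β g a a * ip n β g b b := by
  have h := Finset.sum_mul_sq_le_sq_mul_sq Finset.univ (fun x => Real.sqrt (mu n β g x) * a x)
    (fun x => Real.sqrt (mu n β g x) * b x)
  have e : ∀ u v : Conf n → ℝ, ∑ x, Real.sqrt (mu n β g x) * u x * (Real.sqrt (mu n β g x) * v x)
      = ip n β g u v := fun u v => Finset.sum_congr rfl fun x _ => by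
    linear_combination (u x * v x) * Real.mul_self_sqrt (mu_pos (β := β) g x).le
  simp only [pow_two] at h ⊢
  simpa only [e] using h

/-- Mixing by time `t` gives a Poincaré inequality with constant `2t`. -/
theorem poinc_of_mixed {g : Pair n → ℝ} {t : ℝ} (ht : 0 ≤ t) (hm : MixedBy n β g t) :
    Poinc n β g (2 * t) := fun f => by
  set a := ∑ x, mu n β g x * f x
  set f0 : Conf n → ℝ := fun x => f x - a
  have h0 : ∑ x, mu n β g x * f0 x = 0 := by
    simp only [f0, mul_sub, Finset.sum_sub_distrib, ← Finset.sum_mul, mu_sum, one_mul]; exact sub_self a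
  have eD : dirichlet n β g f0 = dirichlet n β g f := by simp [dirichlet_eq, f0]
  have eV : gibbsVar n β g f = ip n β g f0 f0 := by
    have : ∀ x, mu n β g x * f0 x * f0 x
        = mu n β g x * f x ^ 2 - 2 * a * (mu n β g x * f x) + a ^ 2 * mu n β g x := fun x => by
      simp only [f0]; ring
    simp only [ip, this, Finset.sum_add_distrib, Finset.sum_sub_distrib, ← Finset.mul_sum, mu_sum]
    rw [gibbsVar, show (∑ x, mu n β g x * f x) = a from rfl]; ring
  set V := ip n β g f0 f0
  set b : ℝ → ℝ := fun s => ip n β g (semigroup n β g s f0) (semigroup n β g s f0)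
  have hV : 0 ≤ V := ip_self_nonneg _
  have hb0 : ∀ s, 0 ≤ b s := fun s => ip_self_nonneg _
  have hb2 : ∀ s, b s ^ 2 ≤ V * b (2 * s) := fun s => by
    have e : b s = ip n β g f0 (semigroup n β g (2 * s) f0) := by
      rw [two_mul, semigroup_add, semigroup_symm]
    rw [e]; exact ip_sq_le g _ _
  have hpow : ∀ k : ℕ, ∀ s, b s ^ (2 ^ k) ≤ V ^ (2 ^ k - 1) * b ((2 : ℝ) ^ k * s) := fun k => by
    induction k with
    | zero => intro s; simp
    | succ k ih =>
      intro s
      have h1 : b s ^ 2 ^ (k + 1) = (b s ^ 2) ^ 2 ^ k := by rw [pow_succ, mul_comm, pow_mul]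
      rw [h1]
      refine (pow_le_pow_left₀ (sq_nonneg _) (hb2 s) _).trans ?_
      rw [mul_pow]
      refine (mul_le_mul_of_nonneg_left (ih (2 * s)) (pow_nonneg hV _)).trans_eq ?_
      rw [← mul_assoc, ← pow_add, show (2 : ℝ) ^ k * (2 * s) = 2 ^ (k + 1) * s by ring]
      congr 2
      have := Nat.one_le_two_pow (n := k)
      rw [pow_succ]; omega
  set B := ∑ x, |f0 x|
  have it : ∀ j : ℕ, (∀ x, |semigroup n β g (j * t) f0 x| ≤ B * (1 / 2) ^ j) ∧
      ∑ x, mu n β g x * semigroup n β g (j * t) f0 x = 0 := fun j => by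
    induction j with
    | zero =>
      exact ⟨fun x => by
        simpa [semigroup_zero] using Finset.single_le_sum (f := fun y => |f0 y|)
          (fun y _ => abs_nonneg _) (Finset.mem_univ x),
        by simpa [semigroup_zero] using h0⟩
    | succ j ih =>
      refine ⟨fun x => ?_, by rw [semigroup_mean]; exact h0⟩
      rw [Nat.cast_succ, show ((j : ℝ) + 1) * t = t + j * t by ring, semigroup_add]
      exact (contract hm _ ih.1 ih.2 x).trans_eq (by ring)
  have hup : ∀ j : ℕ, b (j * t) ≤ B ^ 2 * (1 / 4) ^ j := fun j => by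
    refine (Finset.sum_le_sum (g := fun x => mu n β g x * (B ^ 2 * (1 / 4) ^ j)) fun x _ => ?_).trans_eq
      (by rw [← Finset.sum_mul, mu_sum, one_mul])
    rw [mul_assoc, show B ^ 2 * (1 / 4 : ℝ) ^ j = (B * (1 / 2) ^ j) * (B * (1 / 2) ^ j) by
      rw [show (1 / 4 : ℝ) = 1 / 2 * (1 / 2) by norm_num, mul_pow]; ring]
    refine mul_le_mul_of_nonneg_left ?_ (mu_pos g x).le
    rw [← abs_mul_abs_self]
    exact mul_self_le_mul_self (abs_nonneg _) ((it j).1 x)
  have hbt : b t ≤ V / 4 := by
    by_contra hc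
    rw [not_le] at hc
    have hb' : 0 < b t := lt_of_le_of_lt (by positivity) hc
    have hV0 : 0 < V := lt_of_le_of_ne hV fun e => by
      have := hb2 t; rw [← e, zero_mul] at this; nlinarith
    have h1 : 1 < 4 * b t / V := by rw [lt_div_iff₀ hV0]; linarith
    obtain ⟨j, hj⟩ := pow_unbounded_of_one_lt (B ^ 2 / V) h1
    have h2 : (4 * b t / V) ^ 2 ^ j ≤ B ^ 2 / V := by
      have hk := (hpow j t).trans (mul_le_mul_of_nonneg_left (by exact_mod_cast hup (2 ^ j))
        (pow_nonneg hV _))
      have hN : V ^ 2 ^ j = V ^ (2 ^ j - 1) * V := by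
        rw [← pow_succ, Nat.sub_add_cancel Nat.one_le_two_pow]
      rw [div_pow, mul_pow, div_le_div_iff₀ (by positivity) hV0, hN]
      have h4 : (4 : ℝ) ^ 2 ^ j * (1 / 4) ^ 2 ^ j = 1 := by
        rw [← mul_pow]; norm_num
      calc (4 : ℝ) ^ 2 ^ j * b t ^ 2 ^ j * V
          ≤ 4 ^ 2 ^ j * (V ^ (2 ^ j - 1) * (B ^ 2 * (1 / 4) ^ 2 ^ j)) * V := by gcongr
        _ = B ^ 2 * (V ^ (2 ^ j - 1) * V) := by
          linear_combination (V ^ (2 ^ j - 1) * B ^ 2 * V) * h4
    have h3 : (4 * b t / V) ^ j ≤ (4 * b t / V) ^ 2 ^ j :=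
      pow_le_pow_right₀ h1.le Nat.lt_two_pow_self.le
    linarith
  have hmid : ip n β g f0 (semigroup n β g t f0) ≤ V / 2 := by
    have h1 : ip n β g f0 (semigroup n β g t f0) ^ 2 ≤ V * b t := ip_sq_le g _ _
    nlinarith [mul_le_mul_of_nonneg_left hbt hV]
  have lo := decay_lower (β := β) (g := g) f0 ht
  rw [eV, ← eD]
  linarith

end Vale.Agent.P150
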