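import Mathlib
import Vale.Agent.P150.Comb
import Vale.Agent.P150.CritBase

/-!
Adding `m` spins to a system with good overlaps: exact Gaussian second moments, for P150.
-/

open MeasureTheory ProbabilityTheory Real

namespace Vale.Agent.P150

/-- New couplings: old-new and new-new. -/
abbrev Ext (n m : ℕ) : Type := (Fin m × Fin n) ⊕ Pair m

/-- Old and new spins. -/
abbrev Idx (n m : ℕ) : Type := Conf n × Conf m

variable {n m : ℕ} {β b : ℝ}

/-- Weight vector of the new part of the energy. -/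
noncomputable def ev (n m : ℕ) (b : ℝ) (p : Idx n m) : Ext n m → ℝ :=
  Sum.elim (fun q => b * (spin (p.2 q.1) * spin (p.1 q.2))) (hv m b p.2)

/-- Weight vector of the field at the new site `l`. -/
noncomputable def ev1 (n m : ℕ) (b : ℝ) (l : Fin m) (p : Idx n m) : Ext n m → ℝ :=
  Sum.elim (fun q => if q.1 = l then b * (spin (p.2 q.1) * spin (p.1 q.2)) else 0) fun _ => 0

theorem dot_ev (p q : Idx n m) : dot (ev n m b p) (ev n m b q)
    = b ^ 2 * (ov p.1 q.1 * ov p.2 q.2) + b ^ 2 * ((ov p.2 q.2 ^ 2 - m) / 2) := by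
  rw [dot, Fintype.sum_sum_type]
  simp only [ev, Sum.elim_inl, Sum.elim_inr, cov_hv]
  congr 1
  rw [Fintype.sum_prod_type, mul_comm (ov p.1 q.1), ov, ov, Finset.sum_mul_sum, Finset.mul_sum]
  exact Finset.sum_congr rfl fun i _ => by
    rw [Finset.mul_sum]; exact Finset.sum_congr rfl fun k _ => by ring

theorem dot_ev_ev1 (l : Fin m) (p q : Idx n m) : dot (ev n m b p) (ev1 n m b l q)
    = b ^ 2 * (ov p.1 q.1 * (spin (p.2 l) * spin (q.2 l))) := by
  rw [dot, Fintype.sum_sum_type]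
  simp only [ev, ev1, Sum.elim_inl, Sum.elim_inr, mul_zero, Finset.sum_const_zero, add_zero,
    Fintype.sum_prod_type, mul_ite]
  rw [Finset.sum_eq_single l (fun i _ hi => by simp [hi]) (by simp), ov, Finset.sum_mul, Finset.mul_sum]
  exact Finset.sum_congr rfl fun k _ => by simp; ring

theorem dot_ev1_ev (l : Fin m) (p q : Idx n m) : dot (ev1 n m b l p) (ev n m b q)
    = b ^ 2 * (ov q.1 p.1 * (spin (q.2 l) * spin (p.2 l))) := by
  rw [dot_comm, dot_ev_ev1]

theorem dot_ev1 (l l' : Fin m) (p q : Idx n m) : dot (ev1 n m b l p) (ev1 n m b l' q)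
    = if l = l' then b ^ 2 * (ov p.1 q.1 * (spin (p.2 l) * spin (q.2 l))) else 0 := by
  rw [dot, Fintype.sum_sum_type]
  simp only [ev1, Sum.elim_inl, Sum.elim_inr, mul_zero, Finset.sum_const_zero, add_zero,
    Fintype.sum_prod_type]
  rw [Finset.sum_eq_single l (fun i _ hi => by simp [hi]) (by simp)]
  rcases eq_or_ne l l' with rfl | h
  · simp only [if_true, ov, Finset.sum_mul, Finset.mul_sum]
    exact Finset.sum_congr rfl fun k _ => by ring
  · simp [h]

theorem card_conf (m : ℕ) : (Fintype.card (Conf m) : ℝ) = 2 ^ m := by simp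

theorem sum_spin (l : Fin m) : ∑ s : Conf m, spin (s l) = 0 := by
  have h := Equiv.sum_comp (flip_involutive (n := m) l).toPerm fun s => spin (s l)
  simp only [Function.Involutive.coe_toPerm, flipAt, Function.update_self, spin_not,
    Finset.sum_neg_distrib] at h
  linarith

theorem sum_spin2 (i l : Fin m) :
    ∑ s : Conf m, spin (s i) * spin (s l) = if i = l then 2 ^ m else 0 := by
  split_ifs with h
  · subst h; simp [spin_sq]
  · have h2 := Equiv.sum_comp (flip_involutive (n := m) l).toPerm fun s => spin (s i) * spin (s l)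
    simp only [Function.Involutive.coe_toPerm, flipAt, Function.update_self, Function.update_of_ne h,
      spin_not, mul_neg, Finset.sum_neg_distrib] at h2
    linarith

theorem sum_spin_fun (f : ℝ → ℝ) (l : Fin m) :
    ∑ s : Conf m, f (spin (s l)) = 2 ^ m * ((f 1 + f (-1)) / 2) := by
  have h := Equiv.sum_comp (flip_involutive (n := m) l).toPerm fun s => f (spin (s l))
  simp only [Function.Involutive.coe_toPerm, flipAt, Function.update_self, spin_not] at h
  have h2 : ∀ s : Conf m, f (spin (s l)) + f (-spin (s l)) = f 1 + f (-1) := fun s => by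
    cases s l <;> simp [spin, add_comm]
  have h3 : ∑ s : Conf m, (f (spin (s l)) + f (-spin (s l))) = 2 ^ m * (f 1 + f (-1)) := by
    simp [h2, mul_add]
  rw [Finset.sum_add_distrib, h] at h3
  linarith

theorem sum_tz (i : Fin m) :
    ∑ s : Conf m, ∑ s' : Conf m, spin (s i) * spin (s' i) * ov s s' = 4 ^ m := by
  have e : ∀ s s' : Conf m, spin (s i) * spin (s' i) * ov s s'
      = ∑ l, (spin (s i) * spin (s l)) * (spin (s' i) * spin (s' l)) := fun s s' => by
    rw [ov, Finset.mul_sum]; exact Finset.sum_congr rfl fun l _ => by ring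
  simp only [e]
  rw [Finset.sum_congr rfl fun s _ => Finset.sum_comm, Finset.sum_comm]
  simp only [← Finset.mul_sum, ← Finset.sum_mul, sum_spin2]
  simp [← mul_pow]
  norm_num

theorem swap3 {A B C : Type*} [Fintype A] [Fintype B] [Fintype C] (f : A → B → C → ℝ) :
    ∑ a, ∑ b, ∑ c, f a b c = ∑ b, ∑ c, ∑ a, f a b c := by
  rw [Finset.sum_comm]; exact Finset.sum_congr rfl fun b _ => Finset.sum_comm

theorem swap4 {A B C D : Type*} [Fintype A] [Fintype B] [Fintype C] [Fintype D]
    (f : A → B → C → D → ℝ) :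
    ∑ a, ∑ b, ∑ c, ∑ d, f a b c d = ∑ c, ∑ d, ∑ a, ∑ b, f a b c d := by
  rw [Finset.sum_congr rfl fun a _ => swap3 (f a), swap3 fun a c d => ∑ b, f a b c d]

theorem abs_exp_sub_one (u : ℝ) : |exp u - 1| ≤ |u| * exp |u| := by
  have h1 := add_one_le_exp u
  have h2 : exp u - 1 ≤ u * exp u := by
    have := mul_le_mul_of_nonneg_left (add_one_le_exp (-u)) (exp_pos u).le
    rw [← exp_add, add_neg_cancel, exp_zero] at this; linarith
  rcases le_or_gt 0 u with h | h
  · rw [abs_of_nonneg (by linarith), abs_of_nonneg h]; exact h2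
  · rw [abs_of_neg h, abs_of_nonpos (by nlinarith [exp_pos u])]
    nlinarith [one_le_exp (neg_nonneg.2 h.le)]

theorem exp_taylor (u : ℝ) : |exp u - 1 - u| ≤ u ^ 2 * exp |u| := by
  rw [abs_of_nonneg (by linarith [add_one_le_exp u])]
  have h2 : exp u - 1 ≤ u * exp u := by
    have := mul_le_mul_of_nonneg_left (add_one_le_exp (-u)) (exp_pos u).le
    rw [← exp_add, add_neg_cancel, exp_zero] at this; linarith
  have h3 : u * (exp u - 1) ≤ |u| * (|u| * exp |u|) :=
    (le_abs_self _).trans (by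
      rw [abs_mul]; exact mul_le_mul_of_nonneg_left (abs_exp_sub_one u) (abs_nonneg u))
  rw [← mul_assoc, ← pow_two, sq_abs, mul_sub, mul_one] at h3
  linarith

/-- Coefficient of a configuration. -/
noncomputable def wt (n m : ℕ) (β : ℝ) (g : Pair n → ℝ) (p : Idx n m) : ℝ := mu n β g p.1 / 2 ^ m

theorem wt_nonneg (g : Pair n → ℝ) (p : Idx n m) : 0 ≤ wt n m β g p :=
  div_nonneg (mu_pos g _).le (by positivity)

theorem sum_wt (g : Pair n → ℝ) : ∑ p, wt n m β g p = 1 := by
  simp [wt, Fintype.sum_prod_type, ← Finset.mul_sum, mul_div_cancel₀, mu_sum]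

/-- Average of a function of two replicas. -/
noncomputable def av (n m : ℕ) (β : ℝ) (g : Pair n → ℝ) (F : Idx n m → Idx n m → ℝ) : ℝ :=
  ∑ p, ∑ q, wt n m β g p * wt n m β g q * F p q

theorem av_mono {g : Pair n → ℝ} {F G : Idx n m → Idx n m → ℝ} (h : ∀ p q, F p q ≤ G p q) :
    av n m β g F ≤ av n m β g G :=
  Finset.sum_le_sum fun p _ => Finset.sum_le_sum fun q _ =>
    mul_le_mul_of_nonneg_left (h p q) (mul_nonneg (wt_nonneg g p) (wt_nonneg g q))

theorem av_abs (g : Pair n → ℝ) (F : Idx n m → Idx n m → ℝ) :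
    |av n m β g F| ≤ av n m β g fun p q => |F p q| := by
  refine (Finset.abs_sum_le_sum_abs _ _).trans (Finset.sum_le_sum fun p _ =>
    (Finset.abs_sum_le_sum_abs _ _).trans_eq (Finset.sum_congr rfl fun q _ => ?_))
  rw [abs_mul, abs_of_nonneg (mul_nonneg (wt_nonneg g p) (wt_nonneg g q))]

theorem av_old (g : Pair n → ℝ) (φ : Conf n → Conf n → ℝ) :
    av n m β g (fun p q => φ p.1 q.1) = ∑ x, ∑ y, mu n β g x * mu n β g y * φ x y := by
  simp only [av, wt, Fintype.sum_prod_type, Finset.sum_const, Finset.card_univ, nsmul_eq_mul,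
    card_conf, Finset.mul_sum]
  refine Finset.sum_congr rfl fun x _ => Finset.sum_congr rfl fun y _ => ?_
  field_simp

/-- Overlap moments. -/
theorem av_pow {g : Pair n → ℝ} {L : ℝ} (hn : 1 ≤ n) (hL : 1 ≤ L) (hg : Good n β g L) (j : ℕ) :
    av n m β g (fun p q => |ov p.1 q.1| ^ j * exp (|ov p.1 q.1| / (4 * L * √n)))
      ≤ 6 * j.factorial * (4 * L * √n) ^ j := by
  have hτ : 0 < 4 * L * √n := by
    have : (0 : ℝ) < n := by exact_mod_cast hn
    positivity
  rw [av_old g fun x y => |ov x y| ^ j * exp (|ov x y| / (4 * L * √n))]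
  set τ := 4 * L * √n with hτd
  have hb : ∀ w : ℝ, 0 ≤ w →
      w ^ j * exp (w / τ) ≤ j.factorial * τ ^ j * exp (w / (2 * L * √n)) := fun w hw => by
    have h := Real.pow_div_factorial_le_exp (w / τ) (div_nonneg hw hτ.le) j
    rw [div_le_iff₀ (by positivity), div_pow, div_le_iff₀ (by positivity)] at h
    have e : exp (w / (2 * L * √n)) = exp (w / τ) * exp (w / τ) := by
      rw [← exp_add]; congr 1; rw [hτd]; field_simp; ring
    rw [e, ← mul_assoc]
    exact mul_le_mul_of_nonneg_right (h.trans_eq (by ring)) (exp_pos _).le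
  calc ∑ x, ∑ y, mu n β g x * mu n β g y * (|ov x y| ^ j * exp (|ov x y| / τ))
      ≤ ∑ x, ∑ y, mu n β g x * mu n β g y
          * (j.factorial * τ ^ j * exp (|ov x y| / (2 * L * √n))) :=
        Finset.sum_le_sum fun x _ => Finset.sum_le_sum fun y _ =>
          mul_le_mul_of_nonneg_left (hb _ (abs_nonneg _)) (mul_nonneg (mu_pos g x).le (mu_pos g y).le)
    _ = j.factorial * τ ^ j
          * ∑ x, mu n β g x * ∑ y, mu n β g y * exp (|ov x y| / (2 * L * √n)) := by
        simp only [Finset.mul_sum]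
        exact Finset.sum_congr rfl fun x _ => Finset.sum_congr rfl fun y _ => by ring
    _ ≤ j.factorial * τ ^ j * ∑ x, mu n β g x * 6 :=
        mul_le_mul_of_nonneg_left
          (Finset.sum_le_sum fun x _ => mul_le_mul_of_nonneg_left (hg.2 x) (mu_pos g x).le)
          (by positivity)
    _ = _ := by rw [← Finset.sum_mul, mu_sum]; ring

/-- Mean of the normalising factor, numerators. -/
noncomputable def cD (n m : ℕ) (β : ℝ) (g : Pair n → ℝ) (b : ℝ) : (Ext n m → ℝ) → ℝ :=
  comb (wt n m β g) (ev n m b)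

/-- Numerator of an old-new correlation. -/
noncomputable def cN (n m : ℕ) (β : ℝ) (g : Pair n → ℝ) (b : ℝ) (i : Fin m) (k : Fin n) :
    (Ext n m → ℝ) → ℝ :=
  comb (fun p => wt n m β g p * (spin (p.1 k) * spin (p.2 i))) (ev n m b)

/-- Its one-site approximation. -/
noncomputable def cN0 (n m : ℕ) (β : ℝ) (g : Pair n → ℝ) (b : ℝ) (i : Fin m) (k : Fin n) :
    (Ext n m → ℝ) → ℝ :=
  comb (fun p => wt n m β g p * (spin (p.1 k) * spin (p.2 i))) (ev1 n m b i)

/-- Numerator of an old-old correlation. -/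
noncomputable def cP (n m : ℕ) (β : ℝ) (g : Pair n → ℝ) (b : ℝ) (j k : Fin n) :
    (Ext n m → ℝ) → ℝ :=
  comb (fun p => wt n m β g p * (spin (p.1 j) * spin (p.1 k))) (ev n m b)

/-- Old correlation. -/
noncomputable def corr (n : ℕ) (β : ℝ) (g : Pair n → ℝ) (j k : Fin n) : ℝ :=
  ∑ x, mu n β g x * (spin (x j) * spin (x k))

theorem sum_cP_coef (g : Pair n → ℝ) (j k : Fin n) :
    ∑ p : Idx n m, wt n m β g p * (spin (p.1 j) * spin (p.1 k)) = corr n β g j k := by
  simp only [wt, Fintype.sum_prod_type, Finset.sum_const, Finset.card_univ, nsmul_eq_mul, card_conf,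
    corr]
  exact Finset.sum_congr rfl fun x _ => by field_simp

theorem sum_corr_sq (g : Pair n → ℝ) :
    ∑ j, ∑ k, corr n β g j k ^ 2 = ∑ x, ∑ y, mu n β g x * mu n β g y * ov x y ^ 2 := by
  simp only [corr, pow_two, Finset.sum_mul_sum]
  rw [swap4]
  refine Finset.sum_congr rfl fun x _ => Finset.sum_congr rfl fun y _ => ?_
  simp only [ov]
  rw [Finset.sum_mul_sum]
  simp only [Finset.mul_sum]
  exact Finset.sum_congr rfl fun j _ => Finset.sum_congr rfl fun k _ => by ring

/-- Size conditions: the new spins are few. -/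
structure Small (n m : ℕ) (b L : ℝ) : Prop where
  hn : 1 ≤ n
  hm : 1 ≤ m
  hL : 1 ≤ L
  hτ : b ^ 2 * m * (4 * L * √n) ≤ 1
  hq : b ^ 2 * m ^ 2 ≤ 1

theorem dot_bound {L : ℝ} (h : Small n m b L) (p q : Idx n m) :
    |dot (ev n m b p) (ev n m b q)| ≤ b ^ 2 * m * |ov p.1 q.1| + b ^ 2 * m ^ 2 ∧
    exp |dot (ev n m b p) (ev n m b q)| ≤ 3 * exp (|ov p.1 q.1| / (4 * L * √n)) := by
  have hz := abs_ov_le p.2 q.2
  have hm : (1 : ℝ) ≤ m := by exact_mod_cast h.hm
  have hzz : |(ov p.2 q.2 ^ 2 - m) / 2| ≤ (m : ℝ) ^ 2 / 2 := by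
    rw [abs_div, abs_two]
    refine div_le_div_of_nonneg_right (abs_le.2 ⟨?_, ?_⟩) zero_le_two
    · nlinarith
    · nlinarith [sq_abs (ov p.2 q.2), abs_nonneg (ov p.2 q.2)]
  have h1 : |dot (ev n m b p) (ev n m b q)|
      ≤ b ^ 2 * m * |ov p.1 q.1| + b ^ 2 * (m ^ 2 / 2) := by
    rw [dot_ev]
    refine (abs_add_le _ _).trans (add_le_add ?_ ?_)
    · rw [abs_mul, abs_mul, abs_of_nonneg (sq_nonneg b), mul_assoc, mul_comm (m : ℝ)]
      exact mul_le_mul_of_nonneg_left (mul_le_mul_of_nonneg_left hz (abs_nonneg _)) (sq_nonneg _)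
    · rw [abs_mul, abs_of_nonneg (sq_nonneg b)]
      exact mul_le_mul_of_nonneg_left hzz (sq_nonneg _)
  refine ⟨h1.trans (by nlinarith [sq_nonneg b, sq_nonneg (m : ℝ)]), ?_⟩
  have hτ : 0 < 4 * L * √n := by
    have : (0 : ℝ) < n := by exact_mod_cast h.hn
    have := h.hL
    positivity
  have h2 : b ^ 2 * m * |ov p.1 q.1| ≤ |ov p.1 q.1| / (4 * L * √n) := by
    rw [le_div_iff₀ hτ]
    nlinarith [h.hτ, abs_nonneg (ov p.1 q.1)]
  refine (exp_le_exp.2 (h1.trans (add_le_add h2 (show b ^ 2 * ((m : ℝ) ^ 2 / 2) ≤ 1 by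
    linarith [h.hq, mul_nonneg (sq_nonneg b) (sq_nonneg (m : ℝ))])))).trans ?_
  rw [exp_add, mul_comm]
  exact mul_le_mul_of_nonneg_right (by linarith [exp_one_lt_d9]) (exp_pos _).le

theorem av_first {g : Pair n → ℝ} {L : ℝ} (h : Small n m b L) (hg : Good n β g L) (j : ℕ) :
    av n m β g (fun p q => |ov p.1 q.1| ^ j * |exp (dot (ev n m b p) (ev n m b q)) - 1|)
      ≤ 18 * b ^ 2 * (m * (j + 1).factorial * (4 * L * √n) ^ (j + 1)
          + (m : ℝ) ^ 2 * j.factorial * (4 * L * √n) ^ j) := by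
  refine (av_mono (G := fun p q => 3 * (b ^ 2 * m)
      * (|ov p.1 q.1| ^ (j + 1) * exp (|ov p.1 q.1| / (4 * L * √n)))
    + 3 * (b ^ 2 * (m : ℝ) ^ 2) * (|ov p.1 q.1| ^ j * exp (|ov p.1 q.1| / (4 * L * √n))))
      fun p q => ?_).trans ?_
  · obtain ⟨h1, h2⟩ := dot_bound h p q
    refine (mul_le_mul_of_nonneg_left ((abs_exp_sub_one _).trans
      (mul_le_mul h1 h2 (exp_pos _).le (by positivity))) (pow_nonneg (abs_nonneg _) j)).trans_eq ?_
    ring
  · have e : ∀ (c d : ℝ) (F G : Idx n m → Idx n m → ℝ),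
        av n m β g (fun p q => c * F p q + d * G p q) = c * av n m β g F + d * av n m β g G := by
      intro c d F G
      simp only [av, mul_add, Finset.sum_add_distrib, Finset.mul_sum]
      congr 1 <;> exact Finset.sum_congr rfl fun p _ => Finset.sum_congr rfl fun q _ => by ring
    rw [e]
    refine (add_le_add (mul_le_mul_of_nonneg_left (av_pow h.hn h.hL hg (j + 1)) (by positivity))
      (mul_le_mul_of_nonneg_left (av_pow h.hn h.hL hg j) (by positivity))).trans_eq ?_
    ring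

theorem var_D {g : Pair n → ℝ} {L : ℝ} (h : Small n m b L) (hg : Good n β g L) :
    ∫ u, (cD n m β g b u - 1) ^ 2 ∂gp (Ext n m)
      ≤ 18 * b ^ 2 * (m * (4 * L * √n) + (m : ℝ) ^ 2) := by
  have hv := (comb_var (wt n m β g) (ev n m b)).2
  rw [sum_wt] at hv
  rw [cD, hv]
  refine (le_abs_self _).trans ((av_abs g _).trans ?_)
  simpa using av_first h hg 0

theorem var_P {g : Pair n → ℝ} {L : ℝ} (h : Small n m b L) (hg : Good n β g L) :
    ∑ j, ∑ k, ∫ u, (cP n m β g b j k u - corr n β g j k) ^ 2 ∂gp (Ext n m)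
      ≤ 18 * b ^ 2 * (m * 6 * (4 * L * √n) ^ 3 + (m : ℝ) ^ 2 * 2 * (4 * L * √n) ^ 2) := by
  have hv : ∀ j k, ∫ u, (cP n m β g b j k u - corr n β g j k) ^ 2 ∂gp (Ext n m)
      = av n m β g (fun p q => (spin (p.1 j) * spin (q.1 j)) * (spin (p.1 k) * spin (q.1 k))
          * (exp (dot (ev n m b p) (ev n m b q)) - 1)) := fun j k => by
    rw [← sum_cP_coef (m := m) g j k, cP, (comb_var _ _).2]
    exact Finset.sum_congr rfl fun p _ => Finset.sum_congr rfl fun q _ => by ring
  simp only [hv, av]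
  rw [swap4]
  simp only [← Finset.mul_sum, ← Finset.sum_mul]
  refine (le_abs_self _).trans ((av_abs g (fun p q => ov p.1 q.1 * ov p.1 q.1
    * (exp (dot (ev n m b p) (ev n m b q)) - 1))).trans ?_)
  simpa [abs_mul, pow_two, Nat.factorial] using av_first h hg 2

theorem sum_N_coef (g : Pair n → ℝ) (i : Fin m) (F : Idx n m → Idx n m → ℝ) :
    ∑ k, ∑ p : Idx n m, ∑ q : Idx n m, wt n m β g p * (spin (p.1 k) * spin (p.2 i))
        * (wt n m β g q * (spin (q.1 k) * spin (q.2 i))) * F p q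
      = av n m β g fun p q => ov p.1 q.1 * (spin (p.2 i) * spin (q.2 i) * F p q) := by
  rw [swap3]
  simp only [av, ov, Finset.sum_mul, Finset.mul_sum]
  refine Finset.sum_congr rfl fun p _ => Finset.sum_congr rfl fun q _ =>
    Finset.sum_congr rfl fun k _ => ?_
  ring

theorem av_spin_zero (g : Pair n → ℝ) (i : Fin m) (φ : Conf n → Conf n → ℝ) :
    av n m β g (fun p q => φ p.1 q.1 * (spin (p.2 i) * spin (q.2 i))) = 0 := by
  have h0 := sum_spin (m := m) i
  simp only [av, wt, Fintype.sum_prod_type]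
  refine Finset.sum_eq_zero fun x _ => ?_
  rw [Finset.sum_comm]
  refine Finset.sum_eq_zero fun y _ => ?_
  have : ∀ s s' : Conf m, mu n β g x / 2 ^ m * (mu n β g y / 2 ^ m) * (φ x y * (spin (s i) * spin (s' i)))
      = mu n β g x / 2 ^ m * (mu n β g y / 2 ^ m) * φ x y * spin (s i) * spin (s' i) := fun s s' => by ring
  simp only [this, ← Finset.mul_sum, h0]
  simp

theorem cross_N {g : Pair n → ℝ} {L : ℝ} (h : Small n m b L) (hg : Good n β g L) (i : Fin m) :
    ∑ k, ∫ u, cN n m β g b i k u ^ 2 ∂gp (Ext n m)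
      ≤ 18 * b ^ 2 * (m * 2 * (4 * L * √n) ^ 2 + (m : ℝ) ^ 2 * (4 * L * √n)) := by
  simp only [cN, integral_sq]
  rw [sum_N_coef g i fun p q => exp (dot (ev n m b p) (ev n m b q))]
  have e : (fun p q : Idx n m => ov p.1 q.1
      * (spin (p.2 i) * spin (q.2 i) * exp (dot (ev n m b p) (ev n m b q))))
      = fun p q => ov p.1 q.1 * (spin (p.2 i) * spin (q.2 i))
        * (exp (dot (ev n m b p) (ev n m b q)) - 1) + ov p.1 q.1 * (spin (p.2 i) * spin (q.2 i)) := by
    funext p q; ring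
  have hsplit : ∀ F G : Idx n m → Idx n m → ℝ,
      av n m β g (fun p q => F p q + G p q) = av n m β g F + av n m β g G := fun F G => by
    simp only [av, mul_add, Finset.sum_add_distrib]
  rw [e, hsplit, av_spin_zero g i fun x y => ov x y, add_zero]
  refine (le_abs_self _).trans ((av_abs g _).trans ?_)
  simpa [abs_mul, abs_spin, Nat.factorial] using av_first h hg 1

theorem diff_N {g : Pair n → ℝ} {L : ℝ} (h : Small n m b L) (hg : Good n β g L) (i : Fin m) :
    ∑ k, ∫ u, (cN n m β g b i k u - cN0 n m β g b i k u) ^ 2 ∂gp (Ext n m)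
      ≤ 6 * (4 * L * √n) * (b ^ 2 * m ^ 2 / 2 + 6 * b ^ 4 * m ^ 4)
        + 324 * b ^ 4 * m ^ 2 * (4 * L * √n) ^ 3 := by
  set τ := 4 * L * √n with hτd
  set E : Conf n → Conf n → ℝ := fun x y => exp (|ov x y| / τ)
  simp only [cN, cN0, (comb_diff _ _ _).2, dot_ev_ev1, dot_ev1_ev, dot_ev1, if_true]
  rw [sum_N_coef g i]
  have hv : ∀ x y : Conf n, ∀ s s' : Conf m,
      b ^ 2 * (ov y x * (spin (s' i) * spin (s i))) = b ^ 2 * (ov x y * (spin (s i) * spin (s' i))) :=
    fun x y s s' => by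
      rw [show ov y x = ov x y from Finset.sum_congr rfl fun _ _ => mul_comm _ _]; ring
  have hq : ∀ p q : Idx n m, b ^ 2 * (ov q.1 p.1 * (spin (q.2 i) * spin (p.2 i)))
      = b ^ 2 * (ov p.1 q.1 * (spin (p.2 i) * spin (q.2 i))) := fun p q => hv _ _ _ _
  simp only [hq, sub_add_cancel]
  have hL0 : 0 ≤ L := zero_le_one.trans h.hL
  have hn0 : (0 : ℝ) < n := by exact_mod_cast h.hn
  have hτ0 : 0 ≤ τ := by rw [hτd]; positivity
  set r := b ^ 2 with hrd
  have hr : 0 ≤ r := sq_nonneg b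
  have hm : (1 : ℝ) ≤ m := by exact_mod_cast h.hm
  have inner : ∀ x y, ∑ s : Conf m, ∑ s' : Conf m, ov x y * (spin (s i) * spin (s' i)
        * (exp (dot (ev n m b (x, s)) (ev n m b (y, s'))) - exp (r * (ov x y * (spin (s i) * spin (s' i))))))
      ≤ 4 ^ m * (|ov x y| * (r * m ^ 2 / 2 + 6 * r ^ 2 * m ^ 4) * E x y
          + 9 * r ^ 2 * m ^ 2 * (|ov x y| ^ 3 * E x y)) := fun x y => by
    set O := ov x y
    have hE : 1 ≤ E x y := one_le_exp (div_nonneg (abs_nonneg _) (by
      rw [hτd]; have := h.hL; positivity))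
    have hp : ∀ s s' : Conf m, O * (spin (s i) * spin (s' i)
        * (exp (dot (ev n m b (x, s)) (ev n m b (y, s'))) - exp (r * (O * (spin (s i) * spin (s' i))))))
        ≤ O * r * O * (spin (s i) * spin (s' i) * ov s s' - 1)
          + (|O| * (r * m ^ 2 / 2 + 6 * r ^ 2 * m ^ 4) * E x y
            + 9 * r ^ 2 * m ^ 2 * (|O| ^ 3 * E x y)) := fun s s' => by
      set t := spin (s i) * spin (s' i)
      set X := dot (ev n m b (x, s)) (ev n m b (y, s'))
      have ht : |t| = 1 := by simp [t, abs_mul, abs_spin]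
      have ht2 : t * t = 1 := by rw [← abs_mul_abs_self, ht]; ring
      have hX : X = r * (O * ov s s') + r * ((ov s s' ^ 2 - m) / 2) := dot_ev (x, s) (y, s')
      obtain ⟨hb1, hb2⟩ := dot_bound h (x, s) (y, s')
      have hA : |r * (O * t)| = r * |O| := by rw [abs_mul, abs_mul, ht, abs_of_nonneg hr, mul_one]
      have hA2 : exp |r * (O * t)| ≤ 3 * E x y := by
        rw [hA]
        refine (exp_le_exp.2 ?_).trans (le_mul_of_one_le_left (exp_pos _).le (by norm_num))
        rw [le_div_iff₀ (show 0 < τ by rw [hτd]; have := h.hL; have : (0 : ℝ) < n := by exact_mod_cast h.hn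
                                       positivity)]
        have h1 := h.hτ
        rw [← hτd, ← hrd] at h1
        have h3 : 0 ≤ τ := by rw [hτd]; have := h.hL; positivity
        nlinarith [mul_le_mul_of_nonneg_left hm (mul_nonneg hr h3), abs_nonneg O]
      have e : O * (t * (exp X - exp (r * (O * t))))
          = O * r * O * (t * ov s s' - 1) + O * t * (r * ((ov s s' ^ 2 - m) / 2))
            + O * t * (exp X - 1 - X) - O * t * (exp (r * (O * t)) - 1 - r * (O * t)) := by
        linear_combination (O * t) * hX - (O * r * O) * ht2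
      rw [e]
      have b1 : O * t * (r * ((ov s s' ^ 2 - m) / 2)) ≤ |O| * (r * m ^ 2 / 2) := by
        refine (le_abs_self _).trans ?_
        rw [abs_mul, abs_mul O t, ht, mul_one, abs_mul, abs_of_nonneg hr, abs_div, abs_two]
        refine mul_le_mul_of_nonneg_left ?_ (abs_nonneg _)
        rw [← mul_div_assoc]
        refine div_le_div_of_nonneg_right (mul_le_mul_of_nonneg_left (abs_le.2 ⟨?_, ?_⟩) hr) zero_le_two
        · nlinarith
        · nlinarith [sq_abs (ov s s'), abs_ov_le s s', abs_nonneg (ov s s')]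
      have b2 : O * t * (exp X - 1 - X) ≤ |O| * ((r * m * |O| + r * m ^ 2) ^ 2 * (3 * E x y)) := by
        refine (le_abs_self _).trans ?_
        rw [abs_mul, abs_mul O t, ht, mul_one]
        refine mul_le_mul_of_nonneg_left ((exp_taylor X).trans
          (mul_le_mul ?_ hb2 (exp_pos _).le (sq_nonneg _))) (abs_nonneg _)
        rw [← sq_abs]; exact pow_le_pow_left₀ (abs_nonneg _) hb1 2
      have b3 : -(O * t * (exp (r * (O * t)) - 1 - r * (O * t))) ≤ |O| * ((r * |O|) ^ 2 * (3 * E x y)) := by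
        refine (neg_le_abs _).trans ?_
        rw [abs_mul, abs_mul O t, ht, mul_one]
        refine mul_le_mul_of_nonneg_left ((exp_taylor _).trans
          (mul_le_mul (le_of_eq (by rw [← sq_abs, hA])) hA2 (exp_pos _).le (sq_nonneg _))) (abs_nonneg _)
      have q1 : |O| * (r * m ^ 2 / 2) ≤ |O| * (r * m ^ 2 / 2) * E x y :=
        le_mul_of_one_le_right (by positivity) hE
      have hE0 : 0 ≤ |O| * (3 * E x y) := by positivity
      have q2 : (r * m * |O| + r * m ^ 2) ^ 2 + (r * |O|) ^ 2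
          ≤ 3 * r ^ 2 * m ^ 2 * |O| ^ 2 + 2 * r ^ 2 * m ^ 4 := by
        have : r ^ 2 * |O| ^ 2 ≤ r ^ 2 * m ^ 2 * |O| ^ 2 :=
          mul_le_mul_of_nonneg_right (le_mul_of_one_le_right (sq_nonneg r) (one_le_pow₀ hm)) (sq_nonneg _)
        linarith [sq_nonneg (r * m * |O| - r * m ^ 2)]
      have q3 := mul_le_mul_of_nonneg_right q2 hE0
      linarith
    refine (Finset.sum_le_sum fun s _ => Finset.sum_le_sum fun s' _ => hp s s').trans_eq ?_
    simp only [Finset.sum_add_distrib, ← Finset.mul_sum, Finset.sum_sub_distrib, sum_tz]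
    simp [← mul_assoc, ← mul_pow]
    norm_num
    ring
  refine le_trans (b := ∑ x, ∑ y, mu n β g x * mu n β g y
    * (|ov x y| * (r * m ^ 2 / 2 + 6 * r ^ 2 * m ^ 4) * E x y
      + 9 * r ^ 2 * m ^ 2 * (|ov x y| ^ 3 * E x y))) ?_ ?_
  · simp only [av, wt, Fintype.sum_prod_type]
    refine Finset.sum_le_sum fun x _ => ?_
    rw [Finset.sum_comm]
    refine Finset.sum_le_sum fun y _ => ?_
    simp only [← Finset.mul_sum]
    have hin := inner x y
    simp only [← Finset.mul_sum] at hin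
    refine (mul_le_mul_of_nonneg_left hin
      (mul_nonneg (div_nonneg (mu_pos g x).le (by positivity : (0 : ℝ) ≤ 2 ^ m))
        (div_nonneg (mu_pos g y).le (by positivity : (0 : ℝ) ≤ 2 ^ m)))).trans_eq ?_
    rw [show (4 : ℝ) ^ m = 2 ^ m * 2 ^ m by rw [← mul_pow]; norm_num]
    field_simp
  · have h1 := av_pow (m := m) h.hn h.hL hg 1
    have h3 := av_pow (m := m) h.hn h.hL hg 3
    rw [av_old g fun x y => |ov x y| ^ 1 * E x y] at h1
    rw [av_old g fun x y => |ov x y| ^ 3 * E x y] at h3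
    have e : ∀ x y, mu n β g x * mu n β g y
        * (|ov x y| * (r * m ^ 2 / 2 + 6 * r ^ 2 * m ^ 4) * E x y
          + 9 * r ^ 2 * m ^ 2 * (|ov x y| ^ 3 * E x y))
        = (r * m ^ 2 / 2 + 6 * r ^ 2 * m ^ 4) * (mu n β g x * mu n β g y * (|ov x y| ^ 1 * E x y))
          + 9 * r ^ 2 * m ^ 2 * (mu n β g x * mu n β g y * (|ov x y| ^ 3 * E x y)) := fun x y => by ring
    simp only [e, Finset.sum_add_distrib, ← Finset.mul_sum]
    simp only [Nat.factorial] at h1 h3
    norm_num at h1 h3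
    have c1 : 0 ≤ r * (m : ℝ) ^ 2 / 2 + 6 * r ^ 2 * (m : ℝ) ^ 4 := by positivity
    have c2 : 0 ≤ 9 * r ^ 2 * (m : ℝ) ^ 2 := by positivity
    simp only [pow_one]
    refine (add_le_add (mul_le_mul_of_nonneg_left h1 c1)
      (mul_le_mul_of_nonneg_left h3 c2)).trans_eq ?_
    rw [hrd, hτd]; ring

/-- Squared norm of the one-site numerator. -/
noncomputable def Y (n m : ℕ) (β : ℝ) (g : Pair n → ℝ) (b : ℝ) (i : Fin m) (u : Ext n m → ℝ) : ℝ :=
  ∑ k, cN0 n m β g b i k u ^ 2

theorem integrable_Y (g : Pair n → ℝ) (i : Fin m) : Integrable (Y n m β g b i) (gp (Ext n m)) :=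
  integrable_finsetSum _ fun _ _ => integrable_sq_comb _ _

/-- The mean of `Y` is at least `a F`. -/
theorem mean_Y (g : Pair n → ℝ) (i : Fin m) :
    ∫ u, Y n m β g b i u ∂gp (Ext n m) = (∑ x, ∑ y, mu n β g x * mu n β g y
        * (ov x y * sinh (b ^ 2 * ov x y))) ∧
    b ^ 2 * ∑ x, ∑ y, mu n β g x * mu n β g y * ov x y ^ 2 ≤ ∫ u, Y n m β g b i u ∂gp (Ext n m) := by
  have e : ∫ u, Y n m β g b i u ∂gp (Ext n m) = ∑ x, ∑ y, mu n β g x * mu n β g y
      * (ov x y * sinh (b ^ 2 * ov x y)) := by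
    unfold Y
    rw [integral_finsetSum _ fun k _ => by exact integrable_sq_comb _ _]
    simp only [cN0, integral_sq, dot_ev1, if_true]
    rw [sum_N_coef g i]
    simp only [av, wt, Fintype.sum_prod_type]
    refine Finset.sum_congr rfl fun x _ => ?_
    rw [Finset.sum_comm]
    refine Finset.sum_congr rfl fun y _ => ?_
    simp only [← Finset.mul_sum]
    have hs : ∀ s : Conf m, ∑ s' : Conf m, spin (s i) * spin (s' i)
        * exp (b ^ 2 * (ov x y * (spin (s i) * spin (s' i)))) = 2 ^ m * sinh (b ^ 2 * ov x y) := fun s => by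
      rw [sum_spin_fun (fun w => spin (s i) * w * exp (b ^ 2 * (ov x y * (spin (s i) * w)))) i]
      cases s i <;> simp [spin, sinh_eq] <;> ring
    simp only [hs, Finset.sum_const, Finset.card_univ, nsmul_eq_mul, card_conf]
    field_simp
  refine ⟨e, ?_⟩
  rw [e, Finset.mul_sum]
  refine Finset.sum_le_sum fun x _ => ?_
  rw [Finset.mul_sum]
  refine Finset.sum_le_sum fun y _ => ?_
  rw [mul_left_comm]
  refine mul_le_mul_of_nonneg_left ?_ (mul_nonneg (mu_pos g x).le (mu_pos g y).le)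
  have hb := sq_nonneg b
  rcases le_or_gt 0 (ov x y) with h | h
  · nlinarith [self_le_sinh_iff.2 (mul_nonneg hb h)]
  · nlinarith [sinh_le_self_iff.2 (mul_nonpos_of_nonneg_of_nonpos hb h.le)]

theorem bessel {g : Pair n → ℝ} {L : ℝ} (hL : 0 ≤ L) (hg : Good n β g L) (φ : Conf n → ℝ) :
    ∑ k, (∑ x, mu n β g x * (spin (x k) * φ x)) ^ 2 ≤ L * ∑ x, mu n β g x * φ x ^ 2 := by
  set v : Fin n → ℝ := fun k => ∑ x, mu n β g x * (spin (x k) * φ x)
  set S := ∑ k, v k ^ 2
  have hS : S = ip n β g (fun x => ∑ k, v k * spin (x k)) φ := by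
    simp only [S, ip, Finset.mul_sum, Finset.sum_mul]
    rw [Finset.sum_comm]
    refine Finset.sum_congr rfl fun k _ => ?_
    rw [show v k ^ 2 = v k * v k by ring]
    conv_lhs => arg 2; simp only [v]
    rw [Finset.mul_sum]
    exact Finset.sum_congr rfl fun x _ => by ring
  have h := ip_sq_le (β := β) g (fun x => ∑ k, v k * spin (x k)) φ
  rw [← hS] at h
  have h1 : ip n β g (fun x => ∑ k, v k * spin (x k)) (fun x => ∑ k, v k * spin (x k)) ≤ L * S := by
    refine le_trans (le_of_eq ?_) (hg.1 v)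
    exact Finset.sum_congr rfl fun x _ => by ring
  have h2 : ip n β g φ φ = ∑ x, mu n β g x * φ x ^ 2 := Finset.sum_congr rfl fun x _ => by ring
  rw [h2] at h
  have h3 : 0 ≤ ∑ x, mu n β g x * φ x ^ 2 :=
    Finset.sum_nonneg fun x _ => mul_nonneg (mu_pos g x).le (sq_nonneg _)
  have hS0 : 0 ≤ S := Finset.sum_nonneg fun k _ => sq_nonneg _
  rcases hS0.lt_or_eq with hp | hp
  · refine le_of_mul_le_mul_left ?_ hp
    linarith [mul_le_mul_of_nonneg_right h1 h3]
  · have := mul_nonneg hL h3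
    linarith

/-- Second moment of `Y`. -/
theorem sq_Y {g : Pair n → ℝ} {L : ℝ} (hL : 0 ≤ L) (hg : Good n β g L) (i : Fin m) :
    Integrable (fun u => Y n m β g b i u ^ 2) (gp (Ext n m)) ∧
    ∫ u, Y n m β g b i u ^ 2 ∂gp (Ext n m) ≤ L ^ 2 * exp (6 * (b ^ 2 * n)) := by
  set c : Conf m → ℝ := fun s => spin (s i) / 2 ^ m
  set φ : Conf n → (Ext n m → ℝ) → ℝ := fun x => comb c fun s => ev1 n m b i (x, s)
  have hk : ∀ k u, cN0 n m β g b i k u = ∑ x, mu n β g x * (spin (x k) * φ x u) := fun k u => by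
    simp only [cN0, φ, comb, c, wt, Fintype.sum_prod_type, Finset.mul_sum]
    exact Finset.sum_congr rfl fun x _ => Finset.sum_congr rfl fun s _ => by ring
  have h4i : ∀ x, Integrable (fun u => (φ x u ^ 2) ^ 2) (gp (Ext n m)) ∧
      ∫ u, (φ x u ^ 2) ^ 2 ∂gp (Ext n m) ≤ exp (6 * (b ^ 2 * n)) := fun x => by
    set v : Conf m → Ext n m → ℝ := fun s => ev1 n m b i (x, s)
    have hd : ∀ s s', |dot (v s) (v s')| ≤ b ^ 2 * n := fun s s' => by
      simp only [v, dot_ev1, if_true, ov_self]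
      rw [abs_mul, abs_mul, abs_mul, abs_spin, abs_spin, abs_of_nonneg (sq_nonneg b), Nat.abs_cast]
      simp
    have e : ∀ u, φ x u ^ 2 = comb (cmul c v c v) (fun p => v p.1 + v p.2) u := fun u => by
      rw [pow_two, ← comb_mul]
    simp only [e]
    refine ⟨integrable_sq_comb _ _, ?_⟩
    rw [integral_sq]
    refine (Finset.sum_le_sum (g := fun _ => ∑ _q : Conf m × Conf m,
      exp (6 * (b ^ 2 * n)) / (2 ^ m * 2 ^ m * (2 ^ m * 2 ^ m)))
      fun p _ => Finset.sum_le_sum fun q _ => ?_).trans_eq ?_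
    · refine (le_abs_self _).trans ?_
      have hc : ∀ s, |c s| = 1 / 2 ^ m := fun s => by
        simp [c, abs_div, abs_spin]
      simp only [cmul, abs_mul, hc, abs_exp, dot_add_left, dot_add_right]
      have := hd p.1 p.2
      have := hd q.1 q.2
      have := hd p.1 q.1
      have := hd p.1 q.2
      have := hd p.2 q.1
      have := hd p.2 q.2
      calc _ = exp (dot (v p.1) (v p.2) + dot (v q.1) (v q.2)
            + (dot (v p.1) (v q.1) + dot (v p.1) (v q.2)
              + (dot (v p.2) (v q.1) + dot (v p.2) (v q.2)))) / (2 ^ m * 2 ^ m * (2 ^ m * 2 ^ m)) := by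
              simp only [exp_add]; field_simp
        _ ≤ _ := by
              refine div_le_div_of_nonneg_right (exp_le_exp.2 ?_) (by positivity)
              simp only [abs_le] at *
              linarith
    · simp; field_simp
  have hpt : ∀ u, Y n m β g b i u ^ 2 ≤ L ^ 2 * ∑ x, mu n β g x * (φ x u ^ 2) ^ 2 := fun u => by
    have h1 : Y n m β g b i u ≤ L * ∑ x, mu n β g x * φ x u ^ 2 := by
      simp only [Y, hk]; exact bessel hL hg fun x => φ x u
    refine (pow_le_pow_left₀ (Finset.sum_nonneg fun k _ => sq_nonneg _) h1 2).trans ?_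
    rw [mul_pow]
    refine mul_le_mul_of_nonneg_left ?_ (sq_nonneg _)
    exact Real.pow_arith_mean_le_arith_mean_pow Finset.univ (fun x => mu n β g x) _
      (fun x _ => (mu_pos g x).le) (mu_sum g) (fun x _ => sq_nonneg _) 2
  have hI : Integrable (fun u => L ^ 2 * ∑ x, mu n β g x * (φ x u ^ 2) ^ 2) (gp (Ext n m)) :=
    (integrable_finsetSum _ fun x _ => (h4i x).1.const_mul _).const_mul _
  have hc : Continuous fun u => Y n m β g b i u ^ 2 := by unfold Y cN0; fun_prop
  have hi : Integrable (fun u => Y n m β g b i u ^ 2) (gp (Ext n m)) :=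
    hI.mono' hc.aestronglyMeasurable (ae_of_all _ fun u => by
      rw [norm_eq_abs, abs_of_nonneg (sq_nonneg _)]; exact hpt u)
  refine ⟨hi, (integral_mono hi hI hpt).trans ?_⟩
  rw [integral_const_mul, integral_finsetSum _ fun x _ => (h4i x).1.const_mul _]
  refine mul_le_mul_of_nonneg_left ?_ (sq_nonneg _)
  refine (Finset.sum_le_sum fun x _ => ?_).trans_eq
    (by rw [← Finset.sum_mul, mu_sum, one_mul] : ∑ x, mu n β g x * exp (6 * (b ^ 2 * n)) = _)
  rw [integral_const_mul]
  exact mul_le_mul_of_nonneg_left (h4i x).2 (mu_pos g x).le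

/-- Distinct new sites are independent in the one-site approximation. -/
theorem mul_Y (g : Pair n → ℝ) {i l : Fin m} (h : i ≠ l) :
    Integrable (fun u => Y n m β g b i u * Y n m β g b l u) (gp (Ext n m)) ∧
    ∫ u, Y n m β g b i u * Y n m β g b l u ∂gp (Ext n m)
      = (∫ u, Y n m β g b i u ∂gp (Ext n m)) * ∫ u, Y n m β g b l u ∂gp (Ext n m) := by
  have e : ∀ (α : Idx n m → ℝ) (v : Idx n m → Ext n m → ℝ) u,
      comb α v u ^ 2 = comb (cmul α v α v) (fun p => v p.1 + v p.2) u := fun α v u => by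
    rw [pow_two, ← comb_mul]
  simp only [Y, cN0, e, Finset.sum_mul_sum]
  refine ⟨integrable_finsetSum _ fun j _ => integrable_finsetSum _ fun k _ => integrable_mul _ _ _ _, ?_⟩
  rw [integral_finsetSum _ fun j _ => integrable_finsetSum _ fun k _ => integrable_mul _ _ _ _,
    integral_finsetSum _ fun j _ => integrable_comb _ _,
    integral_finsetSum _ fun j _ => integrable_comb _ _, Finset.sum_mul_sum]
  refine Finset.sum_congr rfl fun j _ => ?_
  rw [integral_finsetSum _ fun k _ => integrable_mul _ _ _ _]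
  refine Finset.sum_congr rfl fun k _ => ?_
  rw [integral_mul_indep _ _ _ _ fun s t => ?_, integral_comb, integral_comb]
  simp [dot_add_left, dot_add_right, dot_ev1, h]

end Vale.Agent.P150
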