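import Mathlib
import Vale.Agent.P150.CritExt

/-!
Sampling sites from an exchangeable system, and splitting off `m` sites, for P150.
-/

open MeasureTheory ProbabilityTheory

namespace Vale.Agent.P150

variable {N n m : ℕ}

/-- Two-point function. -/
noncomputable def Mc (N : ℕ) (c : ℝ) (u : Pair N → ℝ) (i l : Fin N) : ℝ :=
  ∑ y, soft (hv N c) u y * (spin (y i) * spin (y l))

/-- Truncated off-diagonal squared correlations of a site. -/
noncomputable def qf (N : ℕ) (c T : ℝ) (u : Pair N → ℝ) (i : Fin N) : ℝ :=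
  min (∑ l, Mc N c u i l ^ 2 - 1) T

theorem Mc_self (c : ℝ) (u : Pair N → ℝ) (i : Fin N) : Mc N c u i i = 1 := by
  simp [Mc, spin_sq, soft_sum]

theorem abs_Mc (c : ℝ) (u : Pair N → ℝ) (i l : Fin N) : |Mc N c u i l| ≤ 1 := by
  refine (Finset.abs_sum_le_sum_abs _ _).trans ((Finset.sum_le_sum fun y _ => le_of_eq ?_).trans_eq
    (soft_sum (hv N c) u))
  rw [abs_mul, abs_mul, abs_spin, abs_spin, abs_of_nonneg (soft_nonneg _ _ _)]; ring

@[fun_prop]
theorem continuous_qf (c T : ℝ) (i : Fin N) : Continuous fun u => qf N c T u i := by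
  unfold qf Mc; fun_prop

theorem qf_mem (c : ℝ) {T : ℝ} (hT : 0 ≤ T) (u : Pair N → ℝ) (i : Fin N) :
    qf N c T u i ∈ Set.Icc (0 : ℝ) T := by
  refine ⟨le_min ?_ hT, min_le_right _ _⟩
  have h := Finset.single_le_sum (f := fun l => Mc N c u i l ^ 2) (fun l _ => sq_nonneg _)
    (Finset.mem_univ i)
  simp only [Mc_self, one_pow] at h
  linarith

/-- The action of a site permutation on pairs. -/
def pairMap (σ : Equiv.Perm (Fin N)) (p : Pair N) : Pair N :=
  if h : σ p.1.1 < σ p.1.2 then ⟨(σ p.1.1, σ p.1.2), h⟩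
  else ⟨(σ p.1.2, σ p.1.1), lt_of_le_of_ne (not_lt.1 h) (σ.injective.ne p.2.ne')⟩

theorem pairMap_injective (σ : Equiv.Perm (Fin N)) : Function.Injective (pairMap σ) := by
  intro p q h
  have hp := p.2
  have hq := q.2
  unfold pairMap at h
  split_ifs at h <;>
    simp only [Subtype.mk.injEq, Prod.mk.injEq, EmbeddingLike.apply_eq_iff_eq] at h
  · exact Subtype.ext (Prod.ext h.1 h.2)
  · exact absurd hq (by rw [← h.1, ← h.2]; exact hp.not_gt)
  · exact absurd hq (by rw [← h.1, ← h.2]; exact hp.not_gt)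
  · exact Subtype.ext (Prod.ext h.2 h.1)

/-- The same as an equivalence. -/
noncomputable def pairEquiv (σ : Equiv.Perm (Fin N)) : Pair N ≃ Pair N :=
  Equiv.ofBijective _ (Finite.injective_iff_bijective.1 (pairMap_injective σ))

theorem lin_perm (c : ℝ) (σ : Equiv.Perm (Fin N)) (u : Pair N → ℝ) (y : Conf N) :
    lin (hv N c y) (fun p => u (pairEquiv σ p)) = lin (hv N c fun i => y (σ.symm i)) u := by
  unfold lin
  rw [← Equiv.sum_comp (pairEquiv σ) fun q => u q * hv N c (fun i => y (σ.symm i)) q]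
  refine Finset.sum_congr rfl fun p _ => ?_
  congr 1
  simp only [pairEquiv, Equiv.ofBijective_apply, pairMap]
  split_ifs <;> simp [hv, mul_comm]

theorem Mc_perm (c : ℝ) (σ : Equiv.Perm (Fin N)) (u : Pair N → ℝ) (i l : Fin N) :
    Mc N c (fun p => u (pairEquiv σ p)) i l = Mc N c u (σ i) (σ l) := by
  set e : Conf N ≃ Conf N := Equiv.arrowCongr σ (Equiv.refl Bool)
  have he : ∀ y, e y = fun i => y (σ.symm i) := fun y => rfl
  simp only [Mc, soft, lin_perm]
  rw [← Equiv.sum_comp e fun y => Real.exp (lin (hv N c y) u)]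
  conv_rhs => rw [← Equiv.sum_comp e]
  exact Finset.sum_congr rfl fun y _ => by simp [he]

theorem qf_perm (c T : ℝ) (σ : Equiv.Perm (Fin N)) (u : Pair N → ℝ) (i : Fin N) :
    qf N c T (fun p => u (pairEquiv σ p)) i = qf N c T u (σ i) := by
  simp only [qf, Mc_perm]
  rw [Equiv.sum_comp σ fun l => Mc N c u (σ i) l ^ 2]

theorem mp_comp {ι κ : Type*} [Fintype ι] [Fintype κ] (e : ι ≃ κ) :
    MeasurePreserving (fun u : ι → ℝ => fun k => u (e.symm k)) (gp ι) (gp κ) := by
  have h := measurePreserving_piCongrLeft (fun _ : κ => gaussianReal 0 1) e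
  unfold gp
  convert h using 1
  funext u k
  obtain ⟨j, rfl⟩ := e.surjective k
  simp [MeasurableEquiv.coe_piCongrLeft]

/-- Site exchangeability controls sample averages. -/
theorem sampling (c : ℝ) {T L : ℝ} (hT : 0 ≤ T) (hL : 0 ≤ L) (B : Finset (Fin N)) (hB : 0 < B.card) :
    (gp (Pair N)).real {u | (∑ i, qf N c T u i) / N ≤ L ∧
      (∑ i, qf N c T u i) / N + 1 / 4 ≤ (∑ i ∈ B, qf N c T u i) / B.card}
      ≤ 16 * T * L / B.card := by
  classical
  have hNB : B.card ≤ N := (Finset.card_le_univ B).trans_eq (by simp)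
  have hN : (0 : ℝ) < N := by exact_mod_cast hB.trans_le hNB
  have hm : (0 : ℝ) < B.card := by exact_mod_cast hB
  set p : (Pair N → ℝ) → ℝ := fun u => (∑ i, qf N c T u i) / N
  set d : (Pair N → ℝ) → Fin N → ℝ := fun u i => qf N c T u i - p u
  set A : Set (Pair N → ℝ) := {u | p u ≤ L}
  have hpc : Continuous p := by fun_prop
  have hA : MeasurableSet A := measurableSet_le hpc.measurable measurable_const
  have hp0 : ∀ u, p u ∈ Set.Icc (0 : ℝ) T := fun u => by
    refine ⟨div_nonneg (Finset.sum_nonneg fun i _ => (qf_mem c hT u i).1) hN.le, ?_⟩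
    rw [div_le_iff₀ hN]
    refine (Finset.sum_le_sum fun i _ => (qf_mem c hT u i).2).trans_eq ?_
    simp; ring
  have hd : ∀ u i, |d u i| ≤ T := fun u i => abs_sub_le_iff.2
    ⟨by linarith [(qf_mem c hT u i).2, (hp0 u).1], by linarith [(qf_mem c hT u i).1, (hp0 u).2]⟩
  set G : Fin N → Fin N → ℝ := fun i l => ∫ u, A.indicator (fun u => d u i * d u l) u ∂gp (Pair N)
  have hint : ∀ i l, Integrable (A.indicator fun u => d u i * d u l) (gp (Pair N)) := fun i l => by
    refine (Integrable.of_bound (Continuous.aestronglyMeasurable (by fun_prop)) (T * T)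
      (ae_of_all _ fun u => ?_)).indicator hA
    rw [Real.norm_eq_abs, abs_mul]
    exact mul_le_mul (hd u i) (hd u l) (abs_nonneg _) hT
  have inv : ∀ (σ : Equiv.Perm (Fin N)) i l, G (σ i) (σ l) = G i l := fun σ i l => by
    have hmp := mp_comp (pairEquiv σ).symm
    simp only [Equiv.symm_symm] at hmp
    have hp : ∀ u, p (fun q => u (pairEquiv σ q)) = p u := fun u => by
      simp only [p, qf_perm]; rw [Equiv.sum_comp σ fun i => qf N c T u i]
    show _ = ∫ u, A.indicator (fun u => d u i * d u l) u ∂gp (Pair N)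
    conv_rhs => rw [← hmp.map_eq,
      integral_map hmp.measurable.aemeasurable (hmp.map_eq.symm ▸ (hint i l).aestronglyMeasurable)]
    refine integral_congr_ae (ae_of_all _ fun u => ?_)
    simp only [Set.indicator, A, Set.mem_setOf_eq, hp, d, qf_perm]
  have i0 : Fin N := ⟨0, hB.trans_le hNB⟩
  set D0 := G i0 i0
  obtain ⟨A0, hA0⟩ : ∃ a, ∀ i l, i ≠ l → G i l = a := by
    by_cases h : ∃ i l : Fin N, i ≠ l
    · obtain ⟨a, b, hab⟩ := h
      refine ⟨G a b, fun i l hil => ?_⟩
      set σ1 := Equiv.swap a i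
      set b' := σ1 b
      have hb' : b' ≠ i := fun e => hab (σ1.injective ((Equiv.swap_apply_left a i).trans e.symm))
      have := inv (σ1.trans (Equiv.swap b' l)) a b
      rwa [Equiv.trans_apply, Equiv.trans_apply, show σ1 a = i from Equiv.swap_apply_left a i,
        Equiv.swap_apply_of_ne_of_ne hb'.symm hil, show σ1 b = b' from rfl, Equiv.swap_apply_left] at this
    · exact ⟨0, fun i l hil => absurd ⟨i, l, hil⟩ h⟩
  have hG : ∀ i l, G i l = A0 + if i = l then D0 - A0 else 0 := fun i l => by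
    split_ifs with h
    · subst h
      have := inv (Equiv.swap i0 i) i0 i0
      rw [Equiv.swap_apply_left] at this
      rw [this]; ring
    · rw [hA0 i l h, add_zero]
  have sumG : ∀ S : Finset (Fin N),
      ∫ u, A.indicator (fun u => (∑ i ∈ S, d u i) ^ 2) u ∂gp (Pair N)
        = S.card * (D0 - A0) + (S.card : ℝ) ^ 2 * A0 := fun S => by
    have e : A.indicator (fun u => (∑ i ∈ S, d u i) ^ 2)
        = fun u => ∑ i ∈ S, ∑ l ∈ S, A.indicator (fun u => d u i * d u l) u := by
      funext u
      by_cases hu : u ∈ A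
      · simp [hu, pow_two, Finset.sum_mul_sum]
      · simp [hu]
    rw [e, integral_finsetSum _ fun i _ => integrable_finsetSum _ fun l _ => hint i l]
    simp only [integral_finsetSum _ fun l _ => hint _ l]
    refine (Finset.sum_congr rfl fun i _ => Finset.sum_congr rfl fun l _ => hG i l).trans ?_
    simp [Finset.sum_add_distrib, Finset.sum_ite_eq, pow_two]
    ring
  have hz : ∀ u, ∑ i, d u i = 0 := fun u => by
    simp only [d, p, Finset.sum_sub_distrib, Finset.sum_const, Finset.card_univ, Fintype.card_fin,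
      nsmul_eq_mul]
    field_simp; ring
  have h0 := sumG Finset.univ
  simp only [hz, Finset.card_univ, Fintype.card_fin] at h0
  simp at h0
  have hD : D0 ≤ T * L ∧ 0 ≤ D0 := by
    refine ⟨?_, integral_nonneg fun u => Set.indicator_nonneg (fun u _ => mul_self_nonneg _) u⟩
    have hs : ∑ i, G i i = N * D0 := by simp [hG]
    refine le_of_mul_le_mul_left ?_ hN
    rw [← hs]
    simp only [G]
    rw [← integral_finsetSum _ fun i _ => hint i i]
    refine (integral_mono (integrable_finsetSum _ fun i _ => hint i i) (integrable_const ((N : ℝ) * (T * max L 0)))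
      fun u => ?_).trans ?_
    · by_cases hu : u ∈ A
      · simp only [Set.indicator_of_mem hu]
        have h1 : ∀ i, d u i * d u i ≤ T * qf N c T u i - p u * (2 * qf N c T u i - p u) := fun i => by
          have := mul_le_mul_of_nonneg_right (qf_mem c hT u i).2 (qf_mem c hT u i).1
          simp only [d]; linarith
        refine (Finset.sum_le_sum fun i _ => h1 i).trans ?_
        simp only [mul_sub, Finset.sum_sub_distrib, ← Finset.mul_sum, Finset.sum_const, Finset.card_univ,
          Fintype.card_fin, nsmul_eq_mul]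
        have h2 : ∑ i, qf N c T u i = N * p u := by simp only [p]; field_simp
        rw [h2]
        have h3 : p u ≤ max L 0 := le_trans hu (le_max_left _ _)
        nlinarith [sq_nonneg (p u), mul_le_mul_of_nonneg_left h3 (mul_nonneg hN.le hT)]
      · simp only [Set.indicator_of_notMem hu, Finset.sum_const_zero]
        positivity
    · simp [max_eq_left hL]
  set E : Set (Pair N → ℝ) := {u | p u ≤ L ∧ p u + 1 / 4 ≤ (∑ i ∈ B, qf N c T u i) / B.card}
  have hEm : MeasurableSet E :=
    (measurableSet_le hpc.measurable measurable_const).inter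
      (measurableSet_le (hpc.measurable.add_const _) (Continuous.measurable (by fun_prop)))
  show (gp (Pair N)).real E ≤ _
  have hpt : ∀ u, E.indicator (fun _ => (B.card : ℝ) ^ 2 / 16) u
      ≤ A.indicator (fun u => (∑ i ∈ B, d u i) ^ 2) u := fun u => by
    by_cases hu : u ∈ E
    · rw [Set.indicator_of_mem hu, Set.indicator_of_mem (show u ∈ A from hu.1)]
      have e : ∑ i ∈ B, d u i = (∑ i ∈ B, qf N c T u i) - B.card * p u := by
        simp [d, Finset.sum_sub_distrib]
      have h2 := hu.2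
      rw [le_div_iff₀ hm] at h2
      rw [e, show (B.card : ℝ) ^ 2 / 16 = (B.card / 4 : ℝ) ^ 2 by ring]
      exact pow_le_pow_left₀ (div_nonneg hm.le (by norm_num : (0:ℝ) ≤ 4)) (by linarith) 2
    · rw [Set.indicator_of_notMem hu]
      exact Set.indicator_nonneg (fun _ _ => sq_nonneg _) u
  have hI : Integrable (A.indicator fun u => (∑ i ∈ B, d u i) ^ 2) (gp (Pair N)) := by
    refine (Integrable.of_bound (Continuous.aestronglyMeasurable (by fun_prop)) ((B.card * T) ^ 2)
      (ae_of_all _ fun u => ?_)).indicator hA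
    rw [Real.norm_eq_abs, abs_pow]
    refine pow_le_pow_left₀ (abs_nonneg _) ((Finset.abs_sum_le_sum_abs _ _).trans
      ((Finset.sum_le_sum fun i _ => hd u i).trans_eq (by rw [Finset.sum_const, nsmul_eq_mul]))) 2
  have h1 := integral_mono ((integrable_const _).indicator hEm) hI hpt
  rw [integral_indicator_const _ hEm, smul_eq_mul, sumG] at h1
  have h2 : (B.card : ℝ) * (D0 - A0) + (B.card : ℝ) ^ 2 * A0 ≤ B.card * (T * L) := by
    have hA1 : (B.card : ℝ) * ((B.card : ℝ) - 1) * A0 ≤ 0 := by
      rcases Nat.lt_or_ge 1 B.card with hc | hc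
      · have hN1 : (1 : ℝ) < N := by exact_mod_cast hc.trans_le hNB
        have hc1 : (1 : ℝ) < B.card := by exact_mod_cast hc
        have : A0 ≤ 0 := by
          by_contra hA'
          nlinarith [mul_pos (mul_pos hN (sub_pos.2 hN1)) (not_le.1 hA'), mul_nonneg hN.le hD.2]
        exact mul_nonpos_of_nonneg_of_nonpos (mul_nonneg hm.le (by linarith)) this
      · rw [show B.card = 1 by omega]; simp
    nlinarith [mul_le_mul_of_nonneg_left hD.1 hm.le]
  rw [le_div_iff₀ hm]
  nlinarith

/-- Embedding of old pairs and new couplings into all pairs. -/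
def splitMap (n m : ℕ) : Pair n ⊕ Ext n m → Pair (n + m)
  | Sum.inl p => ⟨(Fin.castAdd m p.1.1, Fin.castAdd m p.1.2), p.2⟩
  | Sum.inr (Sum.inl q) => ⟨(Fin.castAdd m q.2, Fin.natAdd n q.1), by
      simp only [Fin.lt_def, Fin.val_castAdd, Fin.val_natAdd]; omega⟩
  | Sum.inr (Sum.inr p) => ⟨(Fin.natAdd n p.1.1, Fin.natAdd n p.1.2), by
      have := p.2; simp only [Fin.lt_def, Fin.val_natAdd] at *; omega⟩

theorem splitMap_bijective (n m : ℕ) : Function.Bijective (splitMap n m) := by
  constructor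
  · rintro (⟨⟨a, b⟩, h⟩ | ⟨a, b⟩ | ⟨⟨a, b⟩, h⟩) (⟨⟨a', b'⟩, h'⟩ | ⟨a', b'⟩ | ⟨⟨a', b'⟩, h'⟩) he <;>
      simp only [splitMap, Subtype.mk.injEq, Prod.mk.injEq, Fin.ext_iff, Fin.val_castAdd,
        Fin.val_natAdd] at he <;>
      simp [Fin.ext_iff] <;> omega
  · rintro ⟨⟨u, v⟩, h⟩
    induction u using Fin.addCases with
    | left a =>
      induction v using Fin.addCases with
      | left b => exact ⟨Sum.inl ⟨(a, b), h⟩, rfl⟩
      | right b => exact ⟨Sum.inr (Sum.inl (b, a)), rfl⟩
    | right a =>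
      induction v using Fin.addCases with
      | left b => exact absurd h (by simp only [Fin.lt_def, Fin.val_castAdd, Fin.val_natAdd]; omega)
      | right b =>
        exact ⟨Sum.inr (Sum.inr ⟨(a, b), by simp only [Fin.lt_def, Fin.val_natAdd] at *; omega⟩), rfl⟩

/-- The splitting of the couplings. -/
noncomputable def splitEquiv (n m : ℕ) : Pair n ⊕ Ext n m ≃ Pair (n + m) :=
  Equiv.ofBijective _ (splitMap_bijective n m)

/-- Glue old and new couplings. -/
noncomputable def glue (n m : ℕ) (z : (Pair n → ℝ) × (Ext n m → ℝ)) : Pair (n + m) → ℝ :=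
  fun q => Sum.elim z.1 z.2 ((splitEquiv n m).symm q)

theorem mp_glue (n m : ℕ) :
    MeasurePreserving (glue n m) ((gp (Pair n)).prod (gp (Ext n m))) (gp (Pair (n + m))) := by
  have h := measurePreserving_sumPiEquivProdPi_symm (fun _ : Pair n ⊕ Ext n m => gaussianReal 0 1)
  have h2 := (mp_comp (splitEquiv n m)).comp h
  unfold gp at h2 ⊢
  convert h2 using 1
  funext z q
  simp only [glue, Function.comp, MeasurableEquiv.coe_sumPiEquivProdPi_symm]
  rcases (splitEquiv n m).symm q with a | a <;> rfl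

theorem lin_glue (b : ℝ) (x : Conf n) (s : Conf m) (g : Pair n → ℝ) (h : Ext n m → ℝ) :
    lin (hv (n + m) b (Fin.append x s)) (glue n m (g, h))
      = lin (hv n b x) g + lin (ev n m b (x, s)) h := by
  unfold lin
  rw [← Equiv.sum_comp (splitEquiv n m)]
  simp only [glue, Equiv.symm_apply_apply, Fintype.sum_sum_type, Sum.elim_inl, Sum.elim_inr]
  simp [splitEquiv, splitMap, hv, ev, Fin.append_left, Fin.append_right, mul_comm, mul_left_comm]

variable {β : ℝ}

theorem cD_pos (g : Pair n → ℝ) (b : ℝ) (h : Ext n m → ℝ) : 0 < cD n m β g b h :=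
  Finset.sum_pos (fun p _ => mul_pos (div_pos (mu_pos g _) (by positivity)) (ee_pos _ _))
    Finset.univ_nonempty

/-- Gibbs averages of the big system. -/
theorem big_avg (g : Pair n → ℝ) (h : Ext n m → ℝ) (φ : Conf (n + m) → ℝ) :
    ∑ y, soft (hv (n + m) (β / Real.sqrt n)) (glue n m (g, h)) y * φ y
      = comb (fun p : Idx n m => wt n m β g p * φ (Fin.append p.1 p.2)) (ev n m (β / Real.sqrt n)) h
        / cD n m β g (β / Real.sqrt n) h := by
  set b := β / Real.sqrt n with hb
  set u := glue n m (g, h)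
  set Z := ∑ x, Real.exp (energy n β g x)
  have hZ : 0 < Z := Finset.sum_pos (fun _ _ => Real.exp_pos _) Finset.univ_nonempty
  set V := b ^ 2 * (n * m) + b ^ 2 * (((m : ℝ) ^ 2 - m) / 2)
  set K := 2 ^ m * Z * Real.exp (V / 2) with hK
  have hK0 : 0 < K := by positivity
  have e : ∀ p : Idx n m, Real.exp (lin (hv (n + m) b (Fin.append p.1 p.2)) u)
      = K * (wt n m β g p * ee (ev n m b p) h) := fun p => by
    rw [lin_glue, hb, ← energy_eq, ← hb, Real.exp_add, ee, dot_ev, ov_self, ov_self, Real.exp_sub, wt, mu, hK]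
    simp only [V, Z]
    field_simp
  have hden : ∑ y, Real.exp (lin (hv (n + m) b y) u) = K * cD n m β g b h := by
    rw [← Equiv.sum_comp (Fin.appendEquiv n m), cD, comb, Finset.mul_sum]
    exact Finset.sum_congr rfl fun p _ => e p
  simp only [soft, hden]
  rw [← Equiv.sum_comp (Fin.appendEquiv n m), comb, Finset.sum_div]
  refine Finset.sum_congr rfl fun p _ => ?_
  rw [show (Fin.appendEquiv n m) p = Fin.append p.1 p.2 from rfl, e p]
  have := cD_pos (m := m) (β := β) g b h
  field_simp

theorem Mc_old_old (g : Pair n → ℝ) (h : Ext n m → ℝ) (j k : Fin n) :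
    Mc (n + m) (β / Real.sqrt n) (glue n m (g, h)) (Fin.castAdd m j) (Fin.castAdd m k)
      = cP n m β g (β / Real.sqrt n) j k h / cD n m β g (β / Real.sqrt n) h := by
  rw [Mc, big_avg g h fun y => spin (y (Fin.castAdd m j)) * spin (y (Fin.castAdd m k))]
  simp [cP, Fin.append_left]

theorem Mc_new_old (g : Pair n → ℝ) (h : Ext n m → ℝ) (i : Fin m) (k : Fin n) :
    Mc (n + m) (β / Real.sqrt n) (glue n m (g, h)) (Fin.natAdd n i) (Fin.castAdd m k)
      = cN n m β g (β / Real.sqrt n) i k h / cD n m β g (β / Real.sqrt n) h := by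
  rw [Mc, big_avg g h fun y => spin (y (Fin.natAdd n i)) * spin (y (Fin.castAdd m k))]
  simp [cN, Fin.append_left, Fin.append_right, mul_comm]

theorem Mc_symm (c : ℝ) (u : Pair N → ℝ) (i l : Fin N) : Mc N c u i l = Mc N c u l i :=
  Finset.sum_congr rfl fun y _ => by rw [mul_comm (spin (y i))]

end Vale.Agent.P150
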