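import Mathlib
import Vale.Agent.P150.CritSplit

/-!
The new sites have excess squared correlation: deterministic step for P150.
-/

open MeasureTheory ProbabilityTheory

namespace Vale.Agent.P150

variable {n m : ℕ} {β : ℝ}

/-- Squared overlap of the old system. -/
noncomputable def Fov (n : ℕ) (β : ℝ) (g : Pair n → ℝ) : ℝ :=
  ∑ x, ∑ y, mu n β g x * mu n β g y * ov x y ^ 2

theorem Fov_mem {g : Pair n → ℝ} {L : ℝ} (hg : Good n β g L) :
    (n : ℝ) ≤ Fov n β g ∧ Fov n β g ≤ L * n := by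
  refine ⟨?_, ?_⟩
  · rw [Fov, ← sum_corr_sq]
    refine le_trans (le_of_eq ?_) (Finset.sum_le_sum fun j _ =>
      Finset.single_le_sum (fun k _ => sq_nonneg _) (Finset.mem_univ j))
    simp [corr, spin_sq, mu_sum]
  · refine (Finset.sum_le_sum (g := fun x => mu n β g x * (L * n)) fun x _ => ?_).trans_eq
      (by rw [← Finset.sum_mul, mu_sum, one_mul])
    simp only [mul_assoc, ← Finset.mul_sum]
    refine mul_le_mul_of_nonneg_left ?_ (mu_pos g x).le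
    have h := hg.1 fun k => spin (x k)
    simpa [ov, pow_two, spin_sq] using h

/-- The event at all `n + m` sites that the new sites exceed the average by a margin. -/
def excessSet (n m : ℕ) (c T L : ℝ) : Set (Pair (n + m) → ℝ) :=
  {u | (∑ i, qf (n + m) c T u i) / ((n + m : ℕ) : ℝ) ≤ L ∧
    (∑ i, qf (n + m) c T u i) / ((n + m : ℕ) : ℝ) + 1 / 4
      ≤ (∑ i ∈ (Finset.univ : Finset (Fin m)).image (Fin.natAdd n), qf (n + m) c T u i)
        / (((Finset.univ : Finset (Fin m)).image (Fin.natAdd n)).card : ℝ)}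

theorem inv_sq_mem {D η : ℝ} (hη0 : 0 < η) (hη1 : η ≤ 1 / 100) (hD : (D - 1) ^ 2 ≤ η ^ 2) :
    0 < D ∧ 1 - 2 * η ≤ 1 / D ^ 2 ∧ 1 / D ^ 2 ≤ 1 + 3 * η := by
  obtain ⟨a, b⟩ := abs_le.1 (abs_le_of_sq_le_sq hD hη0.le)
  have hD0 : 0 < D := by linarith
  refine ⟨hD0, ?_, ?_⟩
  · rw [le_div_iff₀ (pow_pos hD0 2)]
    nlinarith [pow_le_pow_left₀ hD0.le (by linarith : D ≤ 1 + η) 2, sq_nonneg η,
      mul_nonneg hη0.le (mul_nonneg hη0.le hη0.le)]
  · rw [div_le_iff₀ (pow_pos hD0 2)]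
    nlinarith [pow_le_pow_left₀ (by linarith : 0 ≤ 1 - η) (by linarith : 1 - η ≤ D) 2, sq_nonneg η,
      mul_nonneg hη0.le (mul_nonneg hη0.le hη0.le)]

theorem sq_upper {η : ℝ} (hη : 0 < η) (a c : ℝ) :
    a ^ 2 ≤ (1 + η) * c ^ 2 + (1 + 1 / η) * (a - c) ^ 2 := by
  have h : 0 ≤ (η * c - (a - c)) ^ 2 / η := by positivity
  have e : (η * c - (a - c)) ^ 2 / η = η * c ^ 2 - 2 * c * (a - c) + 1 / η * (a - c) ^ 2 := by
    field_simp; ring
  nlinarith

theorem sq_lower {η : ℝ} (hη : 0 < η) (a c : ℝ) :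
    (1 - η) * c ^ 2 - 1 / η * (a - c) ^ 2 ≤ a ^ 2 := by
  have h : 0 ≤ (η * c + (a - c)) ^ 2 / η := by positivity
  have e : (η * c + (a - c)) ^ 2 / η = η * c ^ 2 + 2 * c * (a - c) + 1 / η * (a - c) ^ 2 := by
    field_simp; ring
  nlinarith [sq_nonneg (a - c)]

theorem old_sq {g : Pair n → ℝ} {h : Ext n m → ℝ} {η b : ℝ} (hη : 0 < η)
    (hP : ∑ j, ∑ k, (cP n m β g b j k h - corr n β g j k) ^ 2 ≤ η * n / 200) :
    ∑ j, ∑ k, cP n m β g b j k h ^ 2 ≤ (1 + η) * Fov n β g + (η + 1) * n / 200 := by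
  have e : (1 + 1 / η) * (η * (n : ℝ) / 200) = (η + 1) * n / 200 := by field_simp
  rw [← e]
  refine le_trans ?_ (add_le_add le_rfl
    (mul_le_mul_of_nonneg_left hP (by positivity : 0 ≤ 1 + 1 / η)))
  rw [Fov, ← sum_corr_sq, Finset.mul_sum, Finset.mul_sum, ← Finset.sum_add_distrib]
  refine Finset.sum_le_sum fun j _ => ?_
  rw [Finset.mul_sum, Finset.mul_sum, ← Finset.sum_add_distrib]
  exact Finset.sum_le_sum fun k _ => sq_upper hη _ _

theorem upper_scalar {n F η X C d M : ℝ} (hn : 0 ≤ n) (hη0 : 0 < η) (hη1 : η ≤ 1 / 100)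
    (hηF : η * F ≤ 1 / 100) (hF : 1 ≤ F) (hX0 : 0 ≤ X) (hC0 : 0 ≤ C) (hd0 : 0 ≤ d) (hd : d ≤ 1 + 3 * η)
    (hX : X ≤ (1 + η) * (F * n) + (η + 1) * n / 200) (hC : C ≤ n / 100) (hM : M ≤ n / 100) :
    X * d + C * d + (C * d + M) ≤ (F + 11 / 100) * n := by
  have e1 := mul_le_mul hX hd hd0 (hX0.trans hX)
  have e2 := mul_le_mul hC hd hd0 (by positivity)
  have h1 := mul_le_mul_of_nonneg_right hηF hn
  have h2 := mul_le_mul_of_nonneg_right hη1 hn
  have h3 := mul_le_mul_of_nonneg_left h1 hη0.le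
  have h4 := mul_le_mul_of_nonneg_left h2 hη0.le
  nlinarith

theorem all_sq {g : Pair n → ℝ} {h : Ext n m → ℝ} {η : ℝ} (hn : 1 ≤ n) (hmn : (m : ℝ) ^ 2 ≤ n / 100)
    (hη0 : 0 < η) (hη1 : η ≤ 1 / 100) (hηF : η * (Fov n β g / n) ≤ 1 / 100)
    (hF : 1 ≤ Fov n β g / n)
    (hD : (cD n m β g (β / Real.sqrt n) h - 1) ^ 2 ≤ η ^ 2)
    (hP : ∑ j, ∑ k, (cP n m β g (β / Real.sqrt n) j k h - corr n β g j k) ^ 2 ≤ η * n / 200)
    (hC : ∑ i, ∑ k, cN n m β g (β / Real.sqrt n) i k h ^ 2 ≤ n / 100) :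
    ∑ a, ∑ c, Mc (n + m) (β / Real.sqrt n) (glue n m (g, h)) a c ^ 2
      ≤ (Fov n β g / n + 11 / 100) * n := by
  set b := β / Real.sqrt n with hb
  set u := glue n m (g, h) with hu
  set D := cD n m β g b h
  have h00 : ∑ j, ∑ k, Mc (n + m) b u (Fin.castAdd m j) (Fin.castAdd m k) ^ 2
      = (∑ j, ∑ k, cP n m β g b j k h ^ 2) * (1 / D ^ 2) := by
    simp only [hu, hb, Mc_old_old, div_pow, Finset.sum_mul]
    exact Finset.sum_congr rfl fun j _ => Finset.sum_congr rfl fun k _ => by ring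
  have h10 : ∑ i, ∑ k, Mc (n + m) b u (Fin.natAdd n i) (Fin.castAdd m k) ^ 2
      = (∑ i, ∑ k, cN n m β g b i k h ^ 2) * (1 / D ^ 2) := by
    simp only [hu, hb, Mc_new_old, div_pow, Finset.sum_mul]
    exact Finset.sum_congr rfl fun j _ => Finset.sum_congr rfl fun k _ => by ring
  have h01 : ∑ k, ∑ i, Mc (n + m) b u (Fin.castAdd m k) (Fin.natAdd n i) ^ 2
      = ∑ i, ∑ k, Mc (n + m) b u (Fin.natAdd n i) (Fin.castAdd m k) ^ 2 := by
    rw [Finset.sum_comm]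
    exact Finset.sum_congr rfl fun i _ => Finset.sum_congr rfl fun k _ => by rw [Mc_symm]
  have h11 : ∑ i, ∑ l, Mc (n + m) b u (Fin.natAdd n i) (Fin.natAdd n l) ^ 2 ≤ (m : ℝ) ^ 2 := by
    refine (Finset.sum_le_sum fun i _ => Finset.sum_le_sum fun l _ =>
      (sq_le_one_iff_abs_le_one _).2 (abs_Mc _ _ _ _)).trans_eq ?_
    simp [pow_two]
  simp only [Fin.sum_univ_add, Finset.sum_add_distrib]
  rw [h01, h00, h10]
  refine upper_scalar (Nat.cast_nonneg n) hη0 hη1 hηF hF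
    (Finset.sum_nonneg fun j _ => Finset.sum_nonneg fun k _ => sq_nonneg _)
    (Finset.sum_nonneg fun i _ => Finset.sum_nonneg fun k _ => sq_nonneg _)
    (div_nonneg zero_le_one (sq_nonneg _)) (inv_sq_mem hη0 hη1 hD).2.2 ?_ hC (h11.trans hmn)
  refine (old_sq hη0 hP).trans_eq ?_
  have : (0 : ℝ) < n := by exact_mod_cast hn
  field_simp

theorem site_scalar {η T y e X d q : ℝ} (hη0 : 0 < η) (hη1 : η ≤ 1 / 100) (hT : 0 < T) (hy : 0 ≤ y)
    (he : 0 ≤ e) (hX0 : 0 ≤ X) (hd : 1 - 2 * η ≤ d) (hX : (1 - η) * y - 1 / η * e ≤ X)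
    (hq : X * d + 1 ≤ q) : (1 - 3 * η) * y - 1 / η * e - y ^ 2 / T ≤ min (q - 1) T := by
  have h2 := mul_le_mul_of_nonneg_left hd hX0
  have h3 := mul_le_mul_of_nonneg_right hX (by linarith : 0 ≤ 1 - 2 * η)
  have h4 : 0 ≤ 1 / η * e * (2 * η) := by positivity
  have hyT : 0 ≤ y ^ 2 / T := by positivity
  have h5 : y - y ^ 2 / T ≤ T := by
    have : (y - y ^ 2 / T - T) * T = -(y - T / 2) ^ 2 - 3 / 4 * T ^ 2 := by field_simp; ring
    nlinarith [sq_nonneg (y - T / 2), sq_nonneg T]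
  have h6 : 0 ≤ 1 / η * e := by positivity
  refine le_min ?_ ?_
  · nlinarith [mul_nonneg hy (sq_nonneg η)]
  · nlinarith [mul_nonneg hη0.le hy]

theorem final_scalar {m F η A B C p S T : ℝ} (hm : 0 < m) (hη0 : 0 < η) (hη1 : η ≤ 1 / 100)
    (hηF : η * F ≤ 1 / 100) (hT : 0 < T) (hA : (F - 1 / 100) * m ≤ A) (hB : B ≤ η / 100 * m)
    (hC : C ≤ T / 100 * m) (hp : p ≤ F - 89 / 100)
    (hS : (1 - 3 * η) * A - 1 / η * B - C / T ≤ S) : p + 1 / 4 ≤ S / m := by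
  rw [le_div_iff₀ hm]
  have q1 := mul_le_mul_of_nonneg_left hA (by linarith : 0 ≤ 1 - 3 * η)
  have q2 := mul_le_mul_of_nonneg_left hB (by positivity : 0 ≤ 1 / η)
  have q3 := div_le_div_of_nonneg_right hC hT.le
  have e5 : 1 / η * (η / 100 * m) = m / 100 := by field_simp
  have e6 : T / 100 * m / T = m / 100 := by field_simp
  rw [e5] at q2
  rw [e6] at q3
  have q4 := mul_le_mul_of_nonneg_right hηF hm.le
  have q5 := mul_le_mul_of_nonneg_right hp hm.le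
  nlinarith [mul_nonneg hη0.le hm.le]

theorem excess {g : Pair n → ℝ} {h : Ext n m → ℝ} {η T L : ℝ}
    (hn : 1 ≤ n) (hm : 1 ≤ m) (hmn : (m : ℝ) ^ 2 ≤ n / 100)
    (hη0 : 0 < η) (hη : η * L ≤ 1 / 100) (hL : 1 ≤ L) (hT : 0 < T) (hg : Good n β g L)
    (hD : (cD n m β g (β / Real.sqrt n) h - 1) ^ 2 ≤ η ^ 2)
    (hP : ∑ j, ∑ k, (cP n m β g (β / Real.sqrt n) j k h - corr n β g j k) ^ 2 ≤ η * n / 200)
    (hC : ∑ i, ∑ k, cN n m β g (β / Real.sqrt n) i k h ^ 2 ≤ n / 100)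
    (hU : (∑ i, ∑ k, (cN n m β g (β / Real.sqrt n) i k h
        - cN0 n m β g (β / Real.sqrt n) i k h) ^ 2) / m ≤ η / 100)
    (hY : Fov n β g / n - 1 / 100 ≤ (∑ i, Y n m β g (β / Real.sqrt n) i h) / m)
    (hY2 : (∑ i, Y n m β g (β / Real.sqrt n) i h ^ 2) / m ≤ T / 100) :
    glue n m (g, h) ∈ excessSet n m (β / Real.sqrt n) T (L + 1) := by
  set b := β / Real.sqrt n with hb
  set F := Fov n β g / n with hF
  have hn0 : (0 : ℝ) < n := by exact_mod_cast hn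
  have hm0 : (0 : ℝ) < m := by exact_mod_cast hm
  obtain ⟨hF1, hF2⟩ := Fov_mem hg
  have hF1' : 1 ≤ F := (one_le_div hn0).2 hF1
  have hF2' : F ≤ L := (div_le_iff₀ hn0).2 hF2
  have hη1 : η ≤ 1 / 100 := by nlinarith
  have hηF : η * F ≤ 1 / 100 := le_trans (mul_le_mul_of_nonneg_left hF2' hη0.le) hη
  have hS := all_sq hn hmn hη0 hη1 hηF hF1' hD hP hC
  obtain ⟨hD0, hlo, -⟩ := inv_sq_mem hη0 hη1 hD
  have hN : (n : ℝ) ≤ ((n + m : ℕ) : ℝ) := by exact_mod_cast Nat.le_add_right n m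
  have hp : (∑ i, qf (n + m) b T (glue n m (g, h)) i) / ((n + m : ℕ) : ℝ) ≤ F - 89 / 100 := by
    rw [div_le_iff₀ (hn0.trans_le hN)]
    refine (Finset.sum_le_sum fun i _ => min_le_left _ _).trans ?_
    rw [Finset.sum_sub_distrib]
    simp only [Finset.sum_const, Finset.card_univ, Fintype.card_fin, nsmul_eq_mul, mul_one]
    have := mul_le_mul_of_nonneg_left hN (by linarith : 0 ≤ F + 11 / 100)
    rw [← hb, ← hF] at hS
    linarith
  have hB : ((Finset.univ : Finset (Fin m)).image (Fin.natAdd n)).card = m := by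
    rw [Finset.card_image_of_injective _ (Fin.natAdd_injective m n), Finset.card_univ, Fintype.card_fin]
  refine ⟨by linarith, ?_⟩
  rw [hB, Finset.sum_image fun a _ c _ hac => Fin.natAdd_injective m n hac]
  have hi : ∀ i : Fin m, (1 - 3 * η) * Y n m β g b i h
      - 1 / η * (∑ k, (cN n m β g b i k h - cN0 n m β g b i k h) ^ 2) - Y n m β g b i h ^ 2 / T
      ≤ qf (n + m) b T (glue n m (g, h)) (Fin.natAdd n i) := fun i => by
    refine site_scalar hη0 hη1 hT (Finset.sum_nonneg fun k _ => sq_nonneg _)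
      (Finset.sum_nonneg fun k _ => sq_nonneg _)
      (Finset.sum_nonneg (s := (Finset.univ : Finset (Fin n))) fun k _ => sq_nonneg (cN n m β g b i k h)) hlo ?_ ?_
    · simp only [Y, Finset.mul_sum, ← Finset.sum_sub_distrib]
      exact Finset.sum_le_sum fun k _ => sq_lower hη0 _ _
    · rw [Fin.sum_univ_add]
      refine add_le_add (le_of_eq ?_) ?_
      · simp only [hb, Mc_new_old, div_pow, Finset.sum_mul]
        exact Finset.sum_congr rfl fun k _ => by ring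
      · refine le_trans ?_ (Finset.single_le_sum (fun l _ => sq_nonneg _) (Finset.mem_univ i))
        rw [Mc_self]; norm_num
  have hsum := Finset.sum_le_sum (s := Finset.univ) fun i _ => hi i
  simp only [Finset.sum_sub_distrib, ← Finset.mul_sum, ← Finset.sum_div] at hsum
  exact final_scalar hm0 hη0 hη1 hηF hT ((le_div_iff₀ hm0).1 hY) ((div_le_iff₀ hm0).1 hU)
    ((div_le_iff₀ hm0).1 hY2) hp hsum

end Vale.Agent.P150
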