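import Mathlib
import Vale.Agent.P150.CritExcess

/-!
Polynomially slow relaxation and mixing for every `β ≥ 1`.
-/

open MeasureTheory ProbabilityTheory Filter Topology

namespace Vale.Agent.P150

variable {n m : ℕ} {β : ℝ}

theorem pw {ℓ N : ℝ} (hℓ : 1 ≤ ℓ) (hN : ℓ ^ 15 ≤ N) (p q : ℕ) (h : p + 1 ≤ 15 * q) :
    ℓ ^ p / N ^ q ≤ 1 / ℓ := by
  have hℓ0 : 0 < ℓ := one_pos.trans_le hℓ
  have hN0 : 0 < N := (pow_pos hℓ0 15).trans_le hN
  rw [div_le_div_iff₀ (pow_pos hN0 q) hℓ0, one_mul, ← pow_succ]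
  refine (pow_le_pow_right₀ hℓ h).trans ?_
  rw [pow_mul]
  exact pow_le_pow_left₀ (pow_pos hℓ0 15).le hN q

/-- The threshold for the auxiliary size parameter. -/
noncomputable def thr (β : ℝ) : ℝ := 10 ^ 10 * (β ^ 2 + 1) ^ 2 * Real.exp (6 * β ^ 2)

theorem thr_bounds (β : ℝ) {ℓ : ℝ} (h : thr β ≤ ℓ) :
    10 ^ 10 ≤ ℓ ∧ (∀ c : ℝ, 0 ≤ c → c ≤ 10 ^ 10 * (β ^ 2 + 1) ^ 2 * Real.exp (6 * β ^ 2) / 14 →
      c / ℓ ≤ 1 / 14) := by
  have h0 : 10 ^ 10 ≤ thr β := by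
    rw [thr, mul_assoc]
    refine le_mul_of_one_le_right (by norm_num) (one_le_mul_of_one_le_of_one_le
      (one_le_pow₀ (by linarith [sq_nonneg β])) (Real.one_le_exp (by positivity)))
  have hℓ : 10 ^ 10 ≤ ℓ := h0.trans h
  refine ⟨hℓ, fun c _ hc => ?_⟩
  rw [div_le_div_iff₀ (by linarith [show (0 : ℝ) < 10 ^ 10 by norm_num]) (by norm_num)]
  rw [le_div_iff₀ (by norm_num)] at hc
  unfold thr at h
  linarith

/-- Parameters: `N = √n`, `m = ℓ ^ 5`. -/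
theorem numerics {ℓ N a e : ℝ} (hℓ : 1 ≤ ℓ) (hN : ℓ ^ 15 ≤ N) (ha : 0 ≤ a) (he : 1 ≤ e) :
    18 * (a / N ^ 2) * (ℓ ^ 5 * (4 * ℓ * N) + (ℓ ^ 5) ^ 2) / (1 / (100 * ℓ)) ^ 2
        ≤ 900000 * (a + 1) ^ 2 * e / ℓ ∧
    18 * (a / N ^ 2) * (ℓ ^ 5 * 6 * (4 * ℓ * N) ^ 3 + (ℓ ^ 5) ^ 2 * 2 * (4 * ℓ * N) ^ 2)
        / (1 / (100 * ℓ) * N ^ 2 / 200) ≤ 150000000 * (a + 1) ^ 2 * e / ℓ ∧
    ℓ ^ 5 * (18 * (a / N ^ 2) * (ℓ ^ 5 * 2 * (4 * ℓ * N) ^ 2 + (ℓ ^ 5) ^ 2 * (4 * ℓ * N))) / (N ^ 2 / 100)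
        ≤ 70000 * (a + 1) ^ 2 * e / ℓ ∧
    (6 * (4 * ℓ * N) * (a / N ^ 2 * (ℓ ^ 5) ^ 2 / 2 + 6 * (a / N ^ 2) ^ 2 * (ℓ ^ 5) ^ 4)
        + 324 * (a / N ^ 2) ^ 2 * (ℓ ^ 5) ^ 2 * (4 * ℓ * N) ^ 3) / (1 / (100 * ℓ) / 100)
        ≤ 210000000 * (a + 1) ^ 2 * e / ℓ ∧
    ℓ ^ 2 * e / ℓ ^ 5 / (1 / 100) ^ 2 ≤ 10000 * (a + 1) ^ 2 * e / ℓ ∧
    ℓ ^ 2 * e / (ℓ ^ 3 / 100) ≤ 100 * (a + 1) ^ 2 * e / ℓ := by
  have hℓ0 : 0 < ℓ := one_pos.trans_le hℓ
  have hN0 : 0 < N := (pow_pos hℓ0 15).trans_le hN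
  have hA : 0 ≤ 1 / ℓ := by positivity
  have hA1 : a ≤ (a + 1) ^ 2 * e := by nlinarith [sq_nonneg a]
  have hA2 : a ^ 2 ≤ (a + 1) ^ 2 * e := by nlinarith [sq_nonneg a]
  have hA3 : e ≤ (a + 1) ^ 2 * e := by nlinarith [sq_nonneg a]
  have key : ∀ (c C : ℝ) (w : ℝ), 0 ≤ c → c ≤ C * ((a + 1) ^ 2 * e) → w ≤ 1 / ℓ → 0 ≤ w →
      c * w ≤ C * (a + 1) ^ 2 * e / ℓ := fun c C w hc hcC hw hw0 => by
    refine (mul_le_mul hcC hw hw0 (hc.trans hcC)).trans_eq ?_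
    ring
  refine ⟨?_, ?_, ?_, ?_, ?_, ?_⟩
  · rw [show 18 * (a / N ^ 2) * (ℓ ^ 5 * (4 * ℓ * N) + (ℓ ^ 5) ^ 2) / (1 / (100 * ℓ)) ^ 2
      = 720000 * a * (ℓ ^ 8 / N ^ 1) + 180000 * a * (ℓ ^ 12 / N ^ 2) by field_simp; ring]
    have h1 := key _ 720000 _ (by positivity) (by linarith : 720000 * a ≤ 720000 * ((a + 1) ^ 2 * e))
      (pw hℓ hN 8 1 (by norm_num)) (by positivity)
    have h2 := key _ 180000 _ (by positivity) (by linarith : 180000 * a ≤ 180000 * ((a + 1) ^ 2 * e))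
      (pw hℓ hN 12 2 (by norm_num)) (by positivity)
    exact (add_le_add h1 h2).trans_eq (by ring)
  · rw [show 18 * (a / N ^ 2) * (ℓ ^ 5 * 6 * (4 * ℓ * N) ^ 3 + (ℓ ^ 5) ^ 2 * 2 * (4 * ℓ * N) ^ 2)
        / (1 / (100 * ℓ) * N ^ 2 / 200)
      = 138240000 * a * (ℓ ^ 9 / N ^ 1) + 11520000 * a * (ℓ ^ 13 / N ^ 2) by field_simp; ring]
    have h1 := key _ 138240000 _ (by positivity)
      (by linarith : 138240000 * a ≤ 138240000 * ((a + 1) ^ 2 * e))
      (pw hℓ hN 9 1 (by norm_num)) (by positivity)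
    have h2 := key _ 11760000 _ (by positivity)
      (by linarith : 11520000 * a ≤ 11760000 * ((a + 1) ^ 2 * e))
      (pw hℓ hN 13 2 (by norm_num)) (by positivity)
    exact (add_le_add h1 h2).trans_eq (by ring)
  · rw [show ℓ ^ 5 * (18 * (a / N ^ 2) * (ℓ ^ 5 * 2 * (4 * ℓ * N) ^ 2 + (ℓ ^ 5) ^ 2 * (4 * ℓ * N)))
        / (N ^ 2 / 100) = 57600 * a * (ℓ ^ 12 / N ^ 2) + 7200 * a * (ℓ ^ 16 / N ^ 3) by field_simp; ring]
    have h1 := key _ 60000 _ (by positivity) (by linarith : 57600 * a ≤ 60000 * ((a + 1) ^ 2 * e))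
      (pw hℓ hN 12 2 (by norm_num)) (by positivity)
    have h2 := key _ 10000 _ (by positivity) (by linarith : 7200 * a ≤ 10000 * ((a + 1) ^ 2 * e))
      (pw hℓ hN 16 3 (by norm_num)) (by positivity)
    exact (add_le_add h1 h2).trans_eq (by ring)
  · rw [show (6 * (4 * ℓ * N) * (a / N ^ 2 * (ℓ ^ 5) ^ 2 / 2 + 6 * (a / N ^ 2) ^ 2 * (ℓ ^ 5) ^ 4)
        + 324 * (a / N ^ 2) ^ 2 * (ℓ ^ 5) ^ 2 * (4 * ℓ * N) ^ 3) / (1 / (100 * ℓ) / 100)
      = 120000 * a * (ℓ ^ 12 / N ^ 1) + 1440000 * a ^ 2 * (ℓ ^ 22 / N ^ 3)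
        + 207360000 * a ^ 2 * (ℓ ^ 14 / N ^ 1) by field_simp; ring]
    have h1 := key _ 120000 _ (by positivity) (by linarith : 120000 * a ≤ 120000 * ((a + 1) ^ 2 * e))
      (pw hℓ hN 12 1 (by norm_num)) (by positivity)
    have h2 := key _ 1440000 _ (by positivity)
      (by linarith : 1440000 * a ^ 2 ≤ 1440000 * ((a + 1) ^ 2 * e))
      (pw hℓ hN 22 3 (by norm_num)) (by positivity)
    have h3 := key _ 208440000 _ (by positivity)
      (by linarith [sq_nonneg a] : 207360000 * a ^ 2 ≤ 208440000 * ((a + 1) ^ 2 * e))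
      (pw hℓ hN 14 1 (by norm_num)) (by positivity)
    exact (add_le_add (add_le_add h1 h2) h3).trans_eq (by ring)
  · rw [show ℓ ^ 2 * e / ℓ ^ 5 / (1 / 100) ^ 2 = 10000 * e * (1 / ℓ ^ 3) by field_simp; norm_num]
    exact key _ _ _ (by positivity) (by linarith) (one_div_le_one_div_of_le hℓ0
      (le_self_pow₀ hℓ (by norm_num))) (by positivity)
  · rw [show ℓ ^ 2 * e / (ℓ ^ 3 / 100) = 100 * e * (1 / ℓ) by field_simp]
    exact key _ _ _ (by positivity) (by linarith) le_rfl hA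

theorem avg_var (hm : 1 ≤ m) {g : Pair n → ℝ} {b L : ℝ} (hL : 0 ≤ L) (hg : Good n β g L) :
    ∃ μ : ℝ, b ^ 2 * Fov n β g ≤ μ ∧
      Integrable (fun u => ((∑ i, Y n m β g b i u) / m - μ) ^ 2) (gp (Ext n m)) ∧
      ∫ u, ((∑ i, Y n m β g b i u) / m - μ) ^ 2 ∂gp (Ext n m)
        ≤ L ^ 2 * Real.exp (6 * (b ^ 2 * n)) / m := by
  have hm0 : (0 : ℝ) < m := by exact_mod_cast hm
  set μ := ∫ u, Y n m β g b ⟨0, hm⟩ u ∂gp (Ext n m)
  have hμ : ∀ i, ∫ u, Y n m β g b i u ∂gp (Ext n m) = μ := fun i => by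
    simp only [μ, (mean_Y g _).1]
  refine ⟨μ, (mean_Y g _).2, ?_⟩
  have hi : ∀ i l, Integrable (fun u => Y n m β g b i u * Y n m β g b l u) (gp (Ext n m)) := fun i l => by
    rcases eq_or_ne i l with rfl | h
    · simpa [pow_two] using (sq_Y (b := b) hL hg i).1
    · exact (mul_Y g h).1
  have e : ∀ u, ((∑ i, Y n m β g b i u) / m - μ) ^ 2
      = (∑ i, ∑ l, (Y n m β g b i u * Y n m β g b l u
          - μ * (Y n m β g b i u + Y n m β g b l u) + μ ^ 2)) / (m : ℝ) ^ 2 := fun u => by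
    simp only [Finset.sum_add_distrib, Finset.sum_sub_distrib, ← Finset.mul_sum, Finset.sum_const,
      Finset.card_univ, Fintype.card_fin, nsmul_eq_mul, ← Finset.sum_mul]
    field_simp
    ring
  have i2 : ∀ i l, Integrable (fun u => μ * (Y n m β g b i u + Y n m β g b l u)) (gp (Ext n m)) :=
    fun i l => ((integrable_Y g i).add (integrable_Y g l)).const_mul μ
  have i3 : ∀ i l, Integrable (fun u => Y n m β g b i u * Y n m β g b l u
      - μ * (Y n m β g b i u + Y n m β g b l u) + μ ^ 2) (gp (Ext n m)) :=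
    fun i l => ((hi i l).sub (i2 i l)).add (integrable_const _)
  simp only [e]
  have iI : Integrable (fun u => ∑ i, ∑ l, (Y n m β g b i u * Y n m β g b l u
      - μ * (Y n m β g b i u + Y n m β g b l u) + μ ^ 2)) (gp (Ext n m)) :=
    integrable_finsetSum _ fun i _ => integrable_finsetSum _ fun l _ => i3 i l
  refine ⟨iI.div_const _, ?_⟩
  rw [integral_div, integral_finsetSum _ fun i _ => integrable_finsetSum _ fun l _ => i3 i l]
  have hv : ∀ i l, ∫ u, (Y n m β g b i u * Y n m β g b l u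
      - μ * (Y n m β g b i u + Y n m β g b l u) + μ ^ 2) ∂gp (Ext n m)
      ≤ if i = l then L ^ 2 * Real.exp (6 * (b ^ 2 * n)) else 0 := fun i l => by
    have ia : Integrable (fun u => Y n m β g b i u * Y n m β g b l u
        - μ * (Y n m β g b i u + Y n m β g b l u)) (gp (Ext n m)) := (hi i l).sub (i2 i l)
    rw [integral_add ia (integrable_const _),
      integral_sub (hi i l) (i2 i l), integral_const_mul,
      integral_add (integrable_Y g i) (integrable_Y g l), hμ, hμ]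
    simp only [integral_const, probReal_univ, one_smul]
    split_ifs with h
    · subst h
      have := (sq_Y (b := b) hL hg i).2
      simp only [pow_two (Y n m β g b i _)] at this
      linarith [sq_nonneg μ]
    · rw [(mul_Y g h).2, hμ, hμ]; linarith
  rw [div_le_div_iff₀ (by positivity) hm0]
  refine (mul_le_mul_of_nonneg_right (le_trans (Finset.sum_le_sum fun i _ => le_trans (le_of_eq
    (integral_finsetSum _ fun l _ => i3 i l)) (Finset.sum_le_sum fun l _ => hv i l)) le_rfl) hm0.le).trans_eq ?_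
  simp
  ring

/-- With a good old system the new sites are in excess with probability at least one half. -/
theorem ext_prob (hβ : 1 ≤ β) {g : Pair n → ℝ} {ℓ : ℕ} (hℓ : thr β ≤ ℓ) (hn : ℓ ^ 30 ≤ n)
    (hg : Good n β g ℓ) :
    (1 / 2 : ℝ) ≤ (gp (Ext n (ℓ ^ 5))).real
      {h | glue n (ℓ ^ 5) (g, h) ∈ excessSet n (ℓ ^ 5) (β / Real.sqrt n) ((ℓ : ℝ) ^ 3) (ℓ + 1)} := by
  obtain ⟨hℓ10, hsmall⟩ := thr_bounds β hℓ
  have hℓ1 : (1 : ℝ) ≤ ℓ := le_trans (by norm_num) hℓ10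
  have hℓ0 : (0 : ℝ) < ℓ := one_pos.trans_le hℓ1
  have hℓn : 1 ≤ ℓ := by exact_mod_cast hℓ1
  have hn1 : 1 ≤ n := (Nat.one_le_pow _ _ hℓn).trans hn
  have hm1 : 1 ≤ ℓ ^ 5 := Nat.one_le_pow _ _ hℓn
  have hn0 : (0 : ℝ) < n := by exact_mod_cast hn1
  set m := ℓ ^ 5 with hm
  set b := β / Real.sqrt n with hb
  set N := Real.sqrt n with hNd
  have hN : (ℓ : ℝ) ^ 15 ≤ N := by
    rw [hNd, Real.le_sqrt (by positivity) hn0.le, ← pow_mul]; exact_mod_cast hn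
  have hnN : (n : ℝ) = N ^ 2 := (Real.sq_sqrt hn0.le).symm
  have hmc : (m : ℝ) = (ℓ : ℝ) ^ 5 := by rw [hm]; push_cast; rfl
  have hb2 : b ^ 2 = β ^ 2 / N ^ 2 := div_pow _ _ _
  have hN0 : 0 < N := Real.sqrt_pos.2 hn0
  have hb4 : b ^ 4 = (β ^ 2 / N ^ 2) ^ 2 := by rw [← hb2, ← pow_mul]
  have hinv : 1 / (ℓ : ℝ) ≤ 1 / 10 ^ 10 := one_div_le_one_div_of_le (by norm_num) hℓ10
  have hae : (1 : ℝ) ≤ (β ^ 2 + 1) ^ 2 * Real.exp (6 * β ^ 2) :=
    one_le_mul_of_one_le_of_one_le (one_le_pow₀ (by linarith [sq_nonneg β])) (Real.one_le_exp (by positivity))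
  have hs : Small n m b ℓ := by
    refine ⟨hn1, hm1, hℓ1, ?_, ?_⟩
    · rw [hb2, hmc, ← hNd, show β ^ 2 / N ^ 2 * (ℓ : ℝ) ^ 5 * (4 * ℓ * N)
        = 4 * β ^ 2 * ((ℓ : ℝ) ^ 6 / N ^ 1) by field_simp]
      refine (mul_le_mul_of_nonneg_left (pw hℓ1 hN 6 1 (by norm_num)) (by positivity)).trans ?_
      rw [mul_one_div]
      refine le_trans (hsmall _ (by positivity) ?_) (by norm_num)
      rw [le_div_iff₀ (by norm_num)]
      nlinarith [sq_nonneg (β ^ 2 - 1), Real.one_le_exp (show (0:ℝ) ≤ 6 * β ^ 2 by positivity)]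
    · rw [hb2, hmc, show β ^ 2 / N ^ 2 * ((ℓ : ℝ) ^ 5) ^ 2 = β ^ 2 * ((ℓ : ℝ) ^ 10 / N ^ 2) by ring]
      refine (mul_le_mul_of_nonneg_left (pw hℓ1 hN 10 2 (by norm_num)) (sq_nonneg _)).trans ?_
      rw [mul_one_div]
      refine le_trans (hsmall _ (sq_nonneg _) ?_) (by norm_num)
      rw [le_div_iff₀ (by norm_num)]
      nlinarith [sq_nonneg (β ^ 2 - 1), Real.one_le_exp (show (0:ℝ) ≤ 6 * β ^ 2 by positivity)]
  have hmn : (m : ℝ) ^ 2 ≤ n / 100 := by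
    have h := pw hℓ1 hN 10 2 (by norm_num)
    rw [hnN, hmc, le_div_iff₀ (by norm_num), show ((ℓ : ℝ) ^ 5) ^ 2 = (ℓ : ℝ) ^ 10 by ring]
    rw [div_le_iff₀ (by positivity)] at h
    linarith [mul_le_mul_of_nonneg_right hinv (sq_nonneg N)]
  set η := 1 / (100 * (ℓ : ℝ)) with hη
  set T := (ℓ : ℝ) ^ 3
  set F := Fov n β g / n
  obtain ⟨μ, hμ, hVi, hV⟩ := avg_var (m := m) (b := b) hm1 hℓ0.le hg
  have hμF : F ≤ μ := by
    refine le_trans ?_ hμ
    rw [hb2, ← hnN, div_mul_eq_mul_div]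
    exact div_le_div_of_nonneg_right (le_mul_of_one_le_left
      (le_trans hn0.le (Fov_mem hg).1) (one_le_pow₀ hβ)) hn0.le
  have hm0 : (0 : ℝ) < m := by exact_mod_cast hm1
  obtain ⟨n1, n2, n3, n4, n5, n6⟩ := numerics (a := β ^ 2) (e := Real.exp (6 * β ^ 2)) hℓ1 hN
    (sq_nonneg β) (Real.one_le_exp (by positivity))
  have fin : ∀ C : ℝ, 0 ≤ C → C ≤ 10 ^ 10 / 14 →
      C * (β ^ 2 + 1) ^ 2 * Real.exp (6 * β ^ 2) / ℓ ≤ 1 / 14 := fun C h1 h2 => by
    refine hsmall _ (by positivity) ?_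
    rw [mul_assoc C, mul_assoc (10 ^ 10 : ℝ), mul_div_right_comm]
    exact mul_le_mul_of_nonneg_right h2 (by positivity)
  have hY2e : Real.exp (6 * (b ^ 2 * n)) = Real.exp (6 * β ^ 2) := by
    rw [hb2, hnN]; congr 1; field_simp
  set f1 := fun h => (cD n m β g b h - 1) ^ 2
  set f2 := fun h => ∑ j, ∑ k, (cP n m β g b j k h - corr n β g j k) ^ 2
  set f3 := fun h => ∑ i, ∑ k, cN n m β g b i k h ^ 2
  set f4 := fun h => (∑ i, ∑ k, (cN n m β g b i k h - cN0 n m β g b i k h) ^ 2) / m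
  set f5 := fun h => ((∑ i, Y n m β g b i h) / m - μ) ^ 2
  set f6 := fun h => (∑ i, Y n m β g b i h ^ 2) / m
  have i1 : Integrable f1 (gp (Ext n m)) := by
    have h := (comb_var (wt n m β g) (ev n m b)).1
    rwa [sum_wt] at h
  have p1 : (gp (Ext n m)).real {h | η ^ 2 ≤ f1 h} ≤ 1 / 14 := by
    refine (markov (fun h => sq_nonneg _) i1 (by positivity)).trans ?_
    refine (div_le_div_of_nonneg_right (var_D hs hg) (by positivity)).trans ?_
    rw [hb2, hmc, ← hNd]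
    exact n1.trans (fin _ (by norm_num) (by norm_num))
  have i2 : ∀ j k, Integrable (fun h => (cP n m β g b j k h - corr n β g j k) ^ 2) (gp (Ext n m)) :=
    fun j k => by
      have h := (comb_var (fun p : Idx n m => wt n m β g p * (spin (p.1 j) * spin (p.1 k))) (ev n m b)).1
      rwa [sum_cP_coef] at h
  have p2 : (gp (Ext n m)).real {h | η * n / 200 ≤ f2 h} ≤ 1 / 14 := by
    refine (markov (fun h => Finset.sum_nonneg fun j _ => Finset.sum_nonneg fun k _ => sq_nonneg _)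
      (integrable_finsetSum _ fun j _ => integrable_finsetSum _ fun k _ => i2 j k) (by positivity)).trans ?_
    rw [integral_finsetSum _ fun j _ => integrable_finsetSum _ fun k _ => i2 j k]
    simp only [integral_finsetSum _ fun k _ => i2 _ k]
    refine (div_le_div_of_nonneg_right (var_P hs hg) (by positivity)).trans ?_
    rw [hb2, hmc, ← hNd, hη, hnN]
    exact n2.trans (fin _ (by norm_num) (by norm_num))
  have i3 : ∀ i k, Integrable (fun h => cN n m β g b i k h ^ 2) (gp (Ext n m)) :=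
    fun i k => integrable_sq_comb _ _
  have p3 : (gp (Ext n m)).real {h | (n : ℝ) / 100 ≤ f3 h} ≤ 1 / 14 := by
    refine (markov (fun h => Finset.sum_nonneg fun j _ => Finset.sum_nonneg fun k _ => sq_nonneg _)
      (integrable_finsetSum _ fun j _ => integrable_finsetSum _ fun k _ => i3 j k) (by positivity)).trans ?_
    rw [integral_finsetSum _ fun j _ => integrable_finsetSum _ fun k _ => i3 j k]
    simp only [integral_finsetSum _ fun k _ => i3 _ k]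
    refine (div_le_div_of_nonneg_right (Finset.sum_le_sum fun i _ => cross_N hs hg i) (by positivity)).trans ?_
    rw [Finset.sum_const, Finset.card_univ, Fintype.card_fin, nsmul_eq_mul, hb2, hmc, ← hNd, hnN]
    exact n3.trans (fin _ (by norm_num) (by norm_num))
  have i4 : ∀ i k, Integrable (fun h => (cN n m β g b i k h - cN0 n m β g b i k h) ^ 2) (gp (Ext n m)) :=
    fun i k => (comb_diff _ _ _).1
  have p4 : (gp (Ext n m)).real {h | η / 100 ≤ f4 h} ≤ 1 / 14 := by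
    refine (markov (fun h => div_nonneg (Finset.sum_nonneg fun j _ => Finset.sum_nonneg fun k _ => sq_nonneg _)
      hm0.le) ((integrable_finsetSum _ fun j _ => integrable_finsetSum _ fun k _ => i4 j k).div_const _)
      (by positivity)).trans ?_
    rw [integral_div, integral_finsetSum _ fun j _ => integrable_finsetSum _ fun k _ => i4 j k]
    simp only [integral_finsetSum _ fun k _ => i4 _ k]
    refine (div_le_div_of_nonneg_right (div_le_div_of_nonneg_right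
      (Finset.sum_le_sum fun i _ => diff_N hs hg i) hm0.le) (by positivity)).trans ?_
    rw [Finset.sum_const, Finset.card_univ, Fintype.card_fin, nsmul_eq_mul,
      mul_div_cancel_left₀ _ hm0.ne', hb2, hb4, hmc, ← hNd, hη]
    exact n4.trans (fin _ (by norm_num) (by norm_num))
  have p5 : (gp (Ext n m)).real {h | (1 / 100 : ℝ) ^ 2 ≤ f5 h} ≤ 1 / 14 := by
    refine (markov (fun h => sq_nonneg _) hVi (by norm_num)).trans ?_
    refine (div_le_div_of_nonneg_right hV (by norm_num)).trans ?_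
    rw [hY2e, hmc]
    exact n5.trans (fin _ (by norm_num) (by norm_num))
  have i6 : ∀ i, Integrable (fun h => Y n m β g b i h ^ 2) (gp (Ext n m)) :=
    fun i => (sq_Y (b := b) hℓ0.le hg i).1
  have p6 : (gp (Ext n m)).real {h | T / 100 ≤ f6 h} ≤ 1 / 14 := by
    refine (markov (fun h => div_nonneg (Finset.sum_nonneg fun j _ => sq_nonneg _) hm0.le)
      ((integrable_finsetSum _ fun j _ => i6 j).div_const _) (by positivity)).trans ?_
    rw [integral_div, integral_finsetSum _ fun j _ => i6 j]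
    refine (div_le_div_of_nonneg_right (div_le_div_of_nonneg_right
      (Finset.sum_le_sum fun i _ => (sq_Y (b := b) hℓ0.le hg i).2) hm0.le) (by positivity)).trans ?_
    rw [Finset.sum_const, Finset.card_univ, Fintype.card_fin, nsmul_eq_mul,
      mul_div_cancel_left₀ _ hm0.ne', hY2e]
    exact n6.trans (fin _ (by norm_num) (by norm_num))
  set S := {h | glue n m (g, h) ∈ excessSet n m b T (ℓ + 1)}
  have hsub : Set.univ ⊆ S ∪ ({h | η ^ 2 ≤ f1 h} ∪ {h | η * n / 200 ≤ f2 h} ∪ {h | (n : ℝ) / 100 ≤ f3 h}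
      ∪ {h | η / 100 ≤ f4 h} ∪ {h | (1 / 100 : ℝ) ^ 2 ≤ f5 h} ∪ {h | T / 100 ≤ f6 h}) := by
    intro h _
    simp only [Set.mem_union, Set.mem_setOf_eq]
    by_contra hc
    simp only [not_or, not_le] at hc
    obtain ⟨hS, ⟨⟨⟨⟨c1, c2⟩, c3⟩, c4⟩, c5⟩, c6⟩ := hc
    refine hS (excess hn1 hm1 hmn (by positivity : 0 < η) ?_ hℓ1 (by positivity) hg c1.le c2.le c3.le c4.le
      ?_ c6.le)
    · rw [hη]; exact le_of_eq (by field_simp)
    · have := abs_le.1 (abs_le_of_sq_le_sq c5.le (by norm_num : (0 : ℝ) ≤ 1 / 100))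
      rw [← hb]
      linarith [this.1]
  have h1 := measureReal_mono (μ := gp (Ext n m)) hsub
  rw [probReal_univ] at h1
  have u0 := measureReal_union_le (μ := gp (Ext n m)) S ({h | η ^ 2 ≤ f1 h} ∪ {h | η * n / 200 ≤ f2 h}
      ∪ {h | (n : ℝ) / 100 ≤ f3 h} ∪ {h | η / 100 ≤ f4 h} ∪ {h | (1 / 100 : ℝ) ^ 2 ≤ f5 h}
      ∪ {h | T / 100 ≤ f6 h})
  have u1 := measureReal_union_le (μ := gp (Ext n m)) ({h | η ^ 2 ≤ f1 h} ∪ {h | η * n / 200 ≤ f2 h}
      ∪ {h | (n : ℝ) / 100 ≤ f3 h} ∪ {h | η / 100 ≤ f4 h} ∪ {h | (1 / 100 : ℝ) ^ 2 ≤ f5 h})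
      {h | T / 100 ≤ f6 h}
  have u2 := measureReal_union_le (μ := gp (Ext n m)) ({h | η ^ 2 ≤ f1 h} ∪ {h | η * n / 200 ≤ f2 h}
      ∪ {h | (n : ℝ) / 100 ≤ f3 h} ∪ {h | η / 100 ≤ f4 h}) {h | (1 / 100 : ℝ) ^ 2 ≤ f5 h}
  have u3 := measureReal_union_le (μ := gp (Ext n m)) ({h | η ^ 2 ≤ f1 h} ∪ {h | η * n / 200 ≤ f2 h}
      ∪ {h | (n : ℝ) / 100 ≤ f3 h}) {h | η / 100 ≤ f4 h}
  have u4 := measureReal_union_le (μ := gp (Ext n m)) ({h | η ^ 2 ≤ f1 h} ∪ {h | η * n / 200 ≤ f2 h})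
      {h | (n : ℝ) / 100 ≤ f3 h}
  have u5 := measureReal_union_le (μ := gp (Ext n m)) {h | η ^ 2 ≤ f1 h} {h | η * n / 200 ≤ f2 h}
  linarith

theorem good_rare (hβ : 1 ≤ β) {ℓ : ℕ} (hℓ : thr β ≤ ℓ) (hn : ℓ ^ 30 ≤ n) :
    (gp (Pair n)).real {g | Good n β g ℓ} ≤ 64 / ℓ := by
  have hℓ10 := (thr_bounds β hℓ).1
  have hℓ1 : (1 : ℝ) ≤ ℓ := le_trans (by norm_num) hℓ10
  have hℓ0 : (0 : ℝ) < ℓ := one_pos.trans_le hℓ1
  set m := ℓ ^ 5 with hm
  set T := (ℓ : ℝ) ^ 3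
  have hmc : (m : ℝ) = (ℓ : ℝ) ^ 5 := by rw [hm]; push_cast; rfl
  set E := excessSet n m (β / Real.sqrt n) T (ℓ + 1)
  have hEm : MeasurableSet E := by
    simp only [E, excessSet, Set.setOf_and]
    exact (measurableSet_le (Continuous.measurable (by fun_prop)) (Continuous.measurable (by fun_prop))).inter
      (measurableSet_le (Continuous.measurable (by fun_prop)) (Continuous.measurable (by fun_prop)))
  set W := {g : Pair n → ℝ | Good n β g ℓ}
  have hW : MeasurableSet W := (isClosed_good n β ℓ).measurableSet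
  have hcard : ((Finset.univ : Finset (Fin m)).image (Fin.natAdd n)).card = m := by
    rw [Finset.card_image_of_injective _ (Fin.natAdd_injective m n), Finset.card_univ, Fintype.card_fin]
  have hs := sampling (N := n + m) (β / Real.sqrt n) (T := T) (L := ℓ + 1) (by positivity) (by positivity)
    ((Finset.univ : Finset (Fin m)).image (Fin.natAdd n)) (by
      rw [hcard, hm]; exact pow_pos (by exact_mod_cast hℓ0) 5)
  change (gp (Pair (n + m))).real E ≤ _ at hs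
  rw [hcard] at hs
  have hlow : (1 / 2 : ℝ) * (gp (Pair n)).real W ≤ (gp (Pair (n + m))).real E := by
    have h1 : ENNReal.ofReal (1 / 2) * gp (Pair n) W ≤ gp (Pair (n + m)) E := by
      rw [← (mp_glue n m).measure_preimage hEm.nullMeasurableSet,
        Measure.prod_apply ((mp_glue n m).measurable hEm), ← setLIntegral_const]
      refine le_trans (setLIntegral_mono' hW fun g hg => ?_) (setLIntegral_le_lintegral W _)
      exact ENNReal.ofReal_le_of_le_toReal (ext_prob hβ hℓ hn hg)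
    have h2 := ENNReal.toReal_mono (measure_ne_top _ _) h1
    rwa [ENNReal.toReal_mul, ENNReal.toReal_ofReal (by norm_num)] at h2
  have e : 16 * T * ((ℓ : ℝ) + 1) / m ≤ 32 / ℓ := by
    rw [hmc, div_le_div_iff₀ (by positivity) hℓ0]
    simp only [T]
    linarith [mul_le_mul_of_nonneg_left hℓ1 (pow_pos hℓ0 4).le]
  linarith [show (64 : ℝ) / ℓ = 2 * (32 / ℓ) by ring]

/-- Polynomially slow relaxation and mixing, with probability tending to one, for every `β ≥ 1`. -/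
theorem slow_crit (hβ : 1 ≤ β) {ε : ℝ} (hε : 0 < ε) : ∀ᶠ n : ℕ in atTop,
    ENNReal.ofReal (1 - ε) ≤ disorder n {g | gap n β g ≤ (n : ℝ) ^ (-(1 : ℝ) / 31) ∧
      ∀ t, 0 ≤ t → MixedBy n β g t → (n : ℝ) ^ ((1 : ℝ) / 31) / 2 ≤ t} := by
  have h30 : Tendsto (fun n : ℕ => (n : ℝ) ^ ((1 : ℝ) / 30)) atTop atTop :=
    (tendsto_rpow_atTop (by norm_num)).comp tendsto_natCast_atTop_atTop
  have h930 : Tendsto (fun n : ℕ => (n : ℝ) ^ ((1 : ℝ) / 930)) atTop atTop :=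
    (tendsto_rpow_atTop (by norm_num)).comp tendsto_natCast_atTop_atTop
  filter_upwards [h30.eventually_ge_atTop (max (thr β) (64 / ε) + 1), h930.eventually_ge_atTop 3,
    eventually_ge_atTop 1] with n h1 h2 hn1
  have hn0 : (0 : ℝ) < n := by exact_mod_cast hn1
  set y := (n : ℝ) ^ ((1 : ℝ) / 30) with hy
  set x := (n : ℝ) ^ ((1 : ℝ) / 31) with hx
  set ℓ := ⌊y⌋₊
  have hy0 : 0 ≤ y := by positivity
  have hℓy : (ℓ : ℝ) ≤ y := Nat.floor_le hy0
  have hℓy' : y - 1 ≤ ℓ := by have := Nat.lt_floor_add_one y; linarith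
  have hℓ : thr β ≤ ℓ := by linarith [le_max_left (thr β) (64 / ε)]
  have hℓε : 64 / ε ≤ ℓ := by linarith [le_max_right (thr β) (64 / ε)]
  have hℓn : ℓ ^ 30 ≤ n := by
    have h := pow_le_pow_left₀ (Nat.cast_nonneg ℓ) hℓy 30
    rw [hy, ← Real.rpow_mul_natCast hn0.le] at h
    norm_num at h
    exact_mod_cast h
  have hx1 : 1 ≤ x := Real.one_le_rpow (by exact_mod_cast hn1) (by norm_num)
  have hxy : x * (n : ℝ) ^ ((1 : ℝ) / 930) = y := by
    rw [hx, hy, ← Real.rpow_add hn0]; norm_num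
  have h2x : 2 * x ≤ ℓ := by
    have := mul_le_mul_of_nonneg_left h2 (zero_le_one.trans hx1)
    linarith
  have hℓ0 : (0 : ℝ) < ℓ := lt_of_lt_of_le (by linarith) h2x
  have hinv : (n : ℝ) ^ (-(1 : ℝ) / 31) = 1 / x := by
    rw [hx, neg_div, Real.rpow_neg hn0.le, one_div (_ ^ _)]
  set A := {g : Pair n → ℝ | gap n β g ≤ (n : ℝ) ^ (-(1 : ℝ) / 31) ∧
    ∀ t, 0 ≤ t → MixedBy n β g t → x / 2 ≤ t}
  set W := {g : Pair n → ℝ | Good n β g ℓ}
  have hsub : Wᶜ ⊆ A := fun g hg => by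
    have hg' : ∀ K, 0 ≤ K → K ≤ x → ¬ Poinc n β g K := fun K hK0 hKx hP =>
      hg (good_of_poinc hn1 (by linarith) (by linarith) hK0 hP)
    refine ⟨?_, fun t ht hm => ?_⟩
    · rw [hinv]
      by_contra hc
      exact hg' x (zero_le_one.trans hx1) le_rfl (poinc_of_gap (by linarith) (not_le.1 hc))
    · by_contra hc
      exact hg' (2 * t) (by linarith) (by linarith [not_le.1 hc]) (poinc_of_mixed ht hm)
  refine le_trans ?_ (measure_mono hsub)
  change ENNReal.ofReal (1 - ε) ≤ gp (Pair n) Wᶜ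
  refine ENNReal.ofReal_le_of_le_toReal ?_
  rw [← measureReal_def, measureReal_compl (isClosed_good n β ℓ).measurableSet, probReal_univ]
  have h3 := good_rare hβ hℓ hℓn
  have h4 : (64 : ℝ) / ℓ ≤ ε := by
    rw [div_le_iff₀ hℓ0]; rw [div_le_iff₀ hε] at hℓε; linarith
  linarith

end Vale.Agent.P150
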